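import Vale.Agent.P286.H389.Pgd
import Vale.Agent.P286.H710.OmS
import Vale.Agent.P286.H64.LM

/-!
# Tensor products and the operators of differential forms
-/

namespace Vale.Agent.P286.H389

open CategoryTheory TensorProduct
open Vale.Agent.P286.H847 (GD SGD)
open Vale.Agent.P286.H847.SGD
open Vale.Agent.P286.H710 (Om OmS sgO)
open Vale.Agent.P286.H44 (dL ctL omg OmGD)
open Vale.Agent.P286.H64

noncomputable section

section Rmod

variable (A W V : Type) [CommRing A] [Algebra ℂ A] [AddCommGroup W] [Module ℂ W]
  [AddCommGroup V] [Module ℂ V] [Module A V] [IsScalarTower ℂ A V]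

/-- The action of `A` on the right factor. -/
def rm (a : A) : W ⊗[ℂ] V →ₗ[ℂ] W ⊗[ℂ] V := (Algebra.lsmul ℂ ℂ V a).lTensor W

variable {A W V} in
@[simp]
theorem rm_tmul (a : A) (w : W) (x : V) : rm A W V a (w ⊗ₜ x) = w ⊗ₜ (a • x) := rfl

/-- The module structure given by the right factor. -/
abbrev rmod : Module A (W ⊗[ℂ] V) where
  smul a x := rm A W V a x
  one_smul x := by
    change rm A W V 1 x = x
    induction x with
    | zero => simp
    | tmul w x => rw [rm_tmul, one_smul]
    | add x y hx hy => rw [map_add, hx, hy]
  mul_smul a b x := by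
    change rm A W V (a * b) x = rm A W V a (rm A W V b x)
    induction x with
    | zero => simp
    | tmul w x => rw [rm_tmul, rm_tmul, rm_tmul, mul_smul]
    | add x y hx hy => rw [map_add, hx, hy, map_add, map_add]
  smul_zero a := map_zero _
  smul_add a := map_add _
  add_smul a b x := by
    change rm A W V (a + b) x = rm A W V a x + rm A W V b x
    induction x with
    | zero => simp
    | tmul w x => rw [rm_tmul, rm_tmul, rm_tmul, add_smul, tmul_add]
    | add x y hx hy => rw [map_add, hx, hy, map_add, map_add]; abel
  zero_smul x := by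
    change rm A W V 0 x = 0
    induction x with
    | zero => simp
    | tmul w x => rw [rm_tmul, zero_smul, tmul_zero]
    | add x y hx hy => rw [map_add, hx, hy, add_zero]

theorem rtow : letI := rmod A W V; IsScalarTower ℂ A (W ⊗[ℂ] V) := by
  let _ := rmod A W V
  refine ⟨fun c a x => ?_⟩
  change rm A W V (c • a) x = c • rm A W V a x
  induction x with
  | zero => simp
  | tmul w x => rw [rm_tmul, rm_tmul, smul_assoc, tmul_smul]
  | add x y hx hy => rw [map_add, hx, hy, map_add, smul_add]

end Rmod

section Rlin

variable {A B W W' V V' : Type} [CommRing A] [Algebra ℂ A] [CommRing B] [Algebra ℂ B]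
  [AddCommGroup W] [Module ℂ W]
  [AddCommGroup V] [Module ℂ V] [Module A V] [IsScalarTower ℂ A V]
  [AddCommGroup W'] [Module ℂ W'] [AddCommGroup V'] [Module ℂ V'] [Module A V']
  [IsScalarTower ℂ A V']

theorem map_rm (u : W →ₗ[ℂ] W') (v : V →ₗ[ℂ] V') (h : ∀ (a : A) x, v (a • x) = a • v x) (a : A)
    (x : W ⊗[ℂ] V) :
    TensorProduct.map u v (rm A W V a x) = rm A W' V' a (TensorProduct.map u v x) := by
  induction x with
  | zero => simp
  | tmul w x => rw [rm_tmul, TensorProduct.map_tmul, TensorProduct.map_tmul, rm_tmul, h]
  | add x y hx hy => simp only [map_add, hx, hy]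

end Rlin

namespace Ctn

variable {A : Type} [CommRing A] [Algebra ℂ A] {W V : Type} [AddCommGroup W] [Module ℂ W]
  [AddCommGroup V] [Module ℂ V] [Module A V] [IsScalarTower ℂ A V]

/-- The tensor product with a space with a sign operator, on the left. -/
def tl (sg : W →ₗ[ℂ] W) (hs : ∀ w, sg (sg w) = w) (C : Ctn A V) :
    @Ctn A (W ⊗[ℂ] V) _ _ _ _ (rmod A W V) (rtow A W V) :=
  letI := rmod A W V
  haveI := rtow A W V
  { nb := TensorProduct.map sg C.nb
    nn x := by
      induction x with
      | zero => simp
      | tmul w x => rw [TensorProduct.map_tmul, TensorProduct.map_tmul, C.nn, tmul_zero]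
      | add x y hx hy => rw [map_add, map_add, hx, hy, add_zero]
    ep a := TensorProduct.map sg (C.ep a)
    ep_lin a b x := map_rm sg (C.ep a) (C.ep_lin a) b x
    io v := TensorProduct.map sg (C.io v)
    io_lin v b x := map_rm sg (C.io v) (C.io_lin v) b x
    pr p := TensorProduct.map LinearMap.id (C.pr p)
    pr_lin p b x := map_rm LinearMap.id (C.pr p) (C.pr_lin p) b x
    pr_pr p x := by
      induction x with
      | zero => simp
      | tmul w x => rw [TensorProduct.map_tmul, TensorProduct.map_tmul, C.pr_pr]; rfl
      | add x y hx hy => rw [map_add, map_add, hx, hy]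
    comm a x := by
      change TensorProduct.map sg C.nb (rm A W V a x) =
        rm A W V a (TensorProduct.map sg C.nb x) + TensorProduct.map sg (C.ep a) x
      induction x with
      | zero => simp
      | tmul w x =>
        rw [rm_tmul, TensorProduct.map_tmul, TensorProduct.map_tmul, TensorProduct.map_tmul,
          rm_tmul, C.comm, tmul_add]
      | add x y hx hy => simp only [map_add, hx, hy]; abel
    io_ep v a x := by
      change _ = rm A W V (v a) x
      induction x with
      | zero => simp
      | tmul w x =>
        rw [rm_tmul, TensorProduct.map_tmul, TensorProduct.map_tmul, TensorProduct.map_tmul,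
          TensorProduct.map_tmul, hs, ← tmul_add, C.io_ep]
      | add x y hx hy =>
        simp only [map_add]
        rw [← hx, ← hy]
        abel
    euler r x v h p y := by
      induction y with
      | zero => simp
      | tmul w y =>
        have := C.euler r x v h p y
        simp only [TensorProduct.map_tmul, hs, LinearMap.id_apply]
        rw [← tmul_sum, this, tmul_smul]
      | add x y hx hy =>
        simp only [map_add, smul_add, Finset.sum_add_distrib]
        rw [hx, hy]
    r := C.r
    sum_pr x := by
      induction x with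
      | zero => simp
      | tmul w y =>
        simp only [TensorProduct.map_tmul, LinearMap.id_apply]
        rw [← tmul_sum, C.sum_pr]
      | add x y hx hy =>
        simp only [map_add, Finset.sum_add_distrib]
        rw [hx, hy]
    nb_pr p x := by
      induction x with
      | zero => simp
      | tmul w y => simp only [TensorProduct.map_tmul, LinearMap.id_apply, C.nb_pr]
      | add x y hx hy => simp only [map_add, hx, hy]
    io_pr v p x := by
      induction x with
      | zero => simp
      | tmul w y => simp only [TensorProduct.map_tmul, LinearMap.id_apply, C.io_pr]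
      | add x y hx hy => simp only [map_add, hx, hy]
    io_pr0 v x := by
      induction x with
      | zero => simp
      | tmul w y => simp only [TensorProduct.map_tmul, LinearMap.id_apply, C.io_pr0, tmul_zero]
      | add x y hx hy => simp only [map_add, hx, hy, add_zero]
    pr0_nb x := by
      induction x with
      | zero => simp
      | tmul w y => simp only [TensorProduct.map_tmul, LinearMap.id_apply, C.pr0_nb, tmul_zero]
      | add x y hx hy => simp only [map_add, hx, hy, add_zero] }

/-- The tensor product with a vector space, on the right. -/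
def tr (C : Ctn A V) (N : Type) [AddCommGroup N] [Module ℂ N] : Ctn A (V ⊗[ℂ] N) where
  nb := C.nb.rTensor N
  nn x := by
    induction x with
    | zero => simp
    | tmul x n => rw [LinearMap.rTensor_tmul, LinearMap.rTensor_tmul, C.nn, zero_tmul]
    | add x y hx hy => rw [map_add, map_add, hx, hy, add_zero]
  ep a := (C.ep a).rTensor N
  ep_lin a b x := by
    induction x with
    | zero => simp
    | tmul x n => rw [smul_tmul', LinearMap.rTensor_tmul, LinearMap.rTensor_tmul, C.ep_lin,
        smul_tmul']
    | add x y hx hy => simp only [smul_add, map_add, hx, hy]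
  io v := (C.io v).rTensor N
  io_lin v b x := by
    induction x with
    | zero => simp
    | tmul x n => rw [smul_tmul', LinearMap.rTensor_tmul, LinearMap.rTensor_tmul, C.io_lin,
        smul_tmul']
    | add x y hx hy => simp only [smul_add, map_add, hx, hy]
  pr p := (C.pr p).rTensor N
  pr_lin p b x := by
    induction x with
    | zero => simp
    | tmul x n => rw [smul_tmul', LinearMap.rTensor_tmul, LinearMap.rTensor_tmul, C.pr_lin,
        smul_tmul']
    | add x y hx hy => simp only [smul_add, map_add, hx, hy]
  pr_pr p x := by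
    induction x with
    | zero => simp
    | tmul x n => rw [LinearMap.rTensor_tmul, LinearMap.rTensor_tmul, C.pr_pr]
    | add x y hx hy => rw [map_add, map_add, hx, hy]
  comm a x := by
    induction x with
    | zero => simp
    | tmul x n => rw [smul_tmul', LinearMap.rTensor_tmul, LinearMap.rTensor_tmul,
        LinearMap.rTensor_tmul, C.comm, smul_tmul', add_tmul]
    | add x y hx hy => simp only [smul_add, map_add, hx, hy]; abel
  io_ep v a x := by
    induction x with
    | zero => simp
    | tmul x n => rw [LinearMap.rTensor_tmul, LinearMap.rTensor_tmul, LinearMap.rTensor_tmul,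
        LinearMap.rTensor_tmul, ← add_tmul, C.io_ep, smul_tmul']
    | add x y hx hy =>
      simp only [smul_add, map_add]
      rw [← hx, ← hy]
      abel
  euler r x v h p y := by
    induction y with
    | zero => simp
    | tmul y n =>
      have := C.euler r x v h p y
      simp only [LinearMap.rTensor_tmul]
      rw [← sum_tmul, this, smul_tmul']
    | add x y hx hy =>
      simp only [map_add, smul_add, Finset.sum_add_distrib]
      rw [hx, hy]
  r := C.r
  sum_pr x := by
    induction x with
    | zero => simp
    | tmul y n =>
      simp only [LinearMap.rTensor_tmul]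
      rw [← sum_tmul, C.sum_pr]
    | add x y hx hy =>
      simp only [map_add, Finset.sum_add_distrib]
      rw [hx, hy]
  nb_pr p x := by
    induction x with
    | zero => simp
    | tmul y n => simp only [LinearMap.rTensor_tmul, C.nb_pr]
    | add x y hx hy => simp only [map_add, hx, hy]
  io_pr v p x := by
    induction x with
    | zero => simp
    | tmul y n => simp only [LinearMap.rTensor_tmul, C.io_pr]
    | add x y hx hy => simp only [map_add, hx, hy]
  io_pr0 v x := by
    induction x with
    | zero => simp
    | tmul y n => simp only [LinearMap.rTensor_tmul, C.io_pr0, zero_tmul]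
    | add x y hx hy => simp only [map_add, hx, hy, add_zero]
  pr0_nb x := by
    induction x with
    | zero => simp
    | tmul y n => simp only [LinearMap.rTensor_tmul, C.pr0_nb, zero_tmul]
    | add x y hx hy => simp only [map_add, hx, hy, add_zero]

end Ctn

section Om

variable {A : Type} [CommRing A] [Algebra ℂ A]

theorem prO_zero_of_lt (b : DB A) {p : ℕ} (hp : ¬ p < b.r + 1) (x : Om ℂ A) : prO A p x = 0 := by
  have h := prO_mem p x
  rw [gr_eq_bot b (by omega)] at h
  exact (Submodule.mem_bot A).1 h

/-- A map which shifts the degrees by one commutes with the projections. -/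
theorem prO_succ (b : DB A) (u : Om ℂ A →+ Om ℂ A)
    (h : ∀ q, ∀ x ∈ Om.gr ℂ A q, u x ∈ Om.gr ℂ A (q + 1)) (p : ℕ) (x : Om ℂ A) :
    u (prO A p x) = prO A (p + 1) (u x) := by
  have h1 : ∀ q, q ≠ p → prO A (p + 1) (u (prO A q x)) = 0 := fun q hq =>
    prO_of_ne (by omega) (h q _ (prO_mem q x))
  have h2 : prO A (p + 1) (u (prO A p x)) = u (prO A p x) :=
    prO_of_mem (h p _ (prO_mem p x))
  conv_rhs => rw [← sum_prO b x, map_sum, map_sum]
  by_cases hp : p ∈ Finset.range (b.r + 1)
  · rw [Finset.sum_eq_single_of_mem p hp fun q _ hq => h1 q hq, h2]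
  · rw [Finset.sum_eq_zero, prO_zero_of_lt b (by rwa [← Finset.mem_range]), map_zero]
    intro q hq
    exact h1 q (fun e => hp (by rw [← e]; exact hq))

/-- A map which lowers the degrees by one commutes with the projections. -/
theorem prO_pred (b : DB A) (u : Om ℂ A →+ Om ℂ A)
    (h : ∀ q, ∀ x ∈ Om.gr ℂ A (q + 1), u x ∈ Om.gr ℂ A q)
    (h0 : ∀ x ∈ Om.gr ℂ A 0, u x = 0) (p : ℕ) (x : Om ℂ A) :
    u (prO A (p + 1) x) = prO A p (u x) := by
  have h1 : ∀ q, q ≠ p + 1 → prO A p (u (prO A q x)) = 0 := by
    intro q hq
    rcases q with _ | q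
    · rw [h0 _ (prO_mem 0 x), map_zero]
    · exact prO_of_ne (by omega) (h q _ (prO_mem (q + 1) x))
  have h2 : prO A p (u (prO A (p + 1) x)) = u (prO A (p + 1) x) :=
    prO_of_mem (h p _ (prO_mem (p + 1) x))
  conv_rhs => rw [← sum_prO b x, map_sum, map_sum]
  by_cases hp : p + 1 ∈ Finset.range (b.r + 1)
  · rw [Finset.sum_eq_single_of_mem (p + 1) hp fun q _ hq => h1 q hq, h2]
  · rw [Finset.sum_eq_zero, prO_zero_of_lt b (by rwa [← Finset.mem_range]), map_zero]
    intro q hq
    exact h1 q (fun e => hp (by rw [← e]; exact hq))

/-- The differential forms. -/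
def ctnO (b : DB A) : Ctn A (Om ℂ A) where
  nb := dL A
  nn := Om.d_d
  ep a := LinearMap.mulLeft ℂ (Om.dd a)
  ep_lin a c x := mul_smul_comm c (Om.dd a) x
  io v := ctL v
  io_lin v a x := map_smul (Om.ct v) a x
  pr p := (prO A p).restrictScalars ℂ
  pr_lin p a x := map_smul (prO A p) a x
  pr_pr p x := prO_of_mem (prO_mem p x)
  comm a x := Om.d_smul a x
  io_ep v a x := by
    change Om.ct v (Om.dd a * x) + Om.dd a * Om.ct v x = v a • x
    rw [Om.ct_mul, Om.ct_dd, Om.sg_dd, neg_mul, ← Algebra.smul_def]
    abel
  euler r x v h p y := by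
    have := H710.Om.sum_dd_ct (k := ℂ) Finset.univ x v (fun a => h a) (prO_mem p y)
    refine this.trans ?_
    simp [Algebra.smul_def]
  r := b.r + 1
  sum_pr x := sum_prO b x
  nb_pr p x := prO_succ b (dL A).toAddMonoidHom (fun q x hx => Om.d_mem hx) p x
  io_pr v p x := prO_pred b (ctL v).toAddMonoidHom (fun q x hx => Om.ct_mem v hx)
    (fun x hx => Om.ct_gr_zero v hx) p x
  io_pr0 v x := Om.ct_gr_zero v (prO_mem 0 x)
  pr0_nb x := by
    change prO A 0 (dL A x) = 0
    rw [← sum_prO b x, map_sum, map_sum]
    exact Finset.sum_eq_zero fun p _ => prO_of_ne (Nat.succ_ne_zero p)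
      (Om.d_mem (prO_mem p x))

end Om

end

end Vale.Agent.P286.H389
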