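import Vale.Agent.P286.H389.Dr
import Vale.Agent.P286.H847.Gtd

/-!
# Completed jets of graded differential modules, and the families they define
-/

namespace Vale.Agent.P286.H389

open CategoryTheory TensorProduct H847

noncomputable section

section Closure

variable {V V' V'' : Type} [AddCommGroup V] [Module ℂ V] [AddCommGroup V'] [Module ℂ V']
  [AddCommGroup V''] [Module ℂ V''] {F : Fil V} {F' : Fil V'}

/-- The limits of the Cauchy sequences in a subspace. -/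
def clo (F : Fil V) (G : Submodule ℂ V) : Submodule ℂ (Cmp F) :=
  Submodule.map (Cmp.mk F)
    { carrier := {z | ∀ n, z.1 n ∈ G}
      add_mem' := fun ha hb n => G.add_mem (ha n) (hb n)
      zero_mem' := fun _ => G.zero_mem
      smul_mem' := fun c _ hz n => G.smul_mem c (hz n) }

theorem mem_clo {G : Submodule ℂ V} {x : Cmp F} :
    x ∈ clo F G ↔ ∃ z : Cau F, (∀ n, z.1 n ∈ G) ∧ Cmp.mk F z = x := Iff.rfl

theorem of_clo {G : Submodule ℂ V} {x : V} (hx : x ∈ G) : Cmp.of F x ∈ clo F G :=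
  ⟨_, fun _ => hx, rfl⟩

theorem Op.clo (S : Op F F') {G : Submodule ℂ V} {G' : Submodule ℂ V'}
    (h : ∀ N, ∀ x ∈ G, S.S N x ∈ G') {x : Cmp F} (hx : x ∈ clo F G) : S.map x ∈ H389.clo F' G' := by
  obtain ⟨z, hz, rfl⟩ := hx
  exact ⟨S.onCau z, fun n => h _ _ (hz _), rfl⟩

theorem lift_clo (u : V →ₗ[ℂ] V') (hu : Bdd F F' u) {G : Submodule ℂ V} {G' : Submodule ℂ V'}
    (h : ∀ x ∈ G, u x ∈ G') {x : Cmp F} (hx : x ∈ clo F G) : lift u hu x ∈ clo F' G' :=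
  Op.clo _ (fun _ => h) hx

theorem lim_clo (u : V →ₗ[ℂ] V') (k : ℕ) (hk : ∀ x ∈ F.F k, u x = 0) {G : Submodule ℂ V}
    {G' : Submodule ℂ V'} (h : ∀ x ∈ G, u x ∈ G') {x : Cmp F} (hx : x ∈ clo F G) :
    Cmp.lim F u k hk x ∈ G' := by
  obtain ⟨z, hz, rfl⟩ := hx
  exact h _ (hz _)

end Closure

section LG

variable {A B V V' W : Type} [CommRing A] [Algebra ℂ A] [CommRing B] [Algebra ℂ B]
  [AddCommGroup V] [Module ℂ V] [AddCommGroup V'] [Module ℂ V'] [AddCommGroup W] [Module ℂ W]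

variable (A) in
/-- The subspace `A ⊗ G` of `A ⊗ V`. -/
def lG (G : Submodule ℂ V) : Submodule ℂ (A ⊗[ℂ] V) := LinearMap.range (G.subtype.lTensor A)

theorem tmul_lG {G : Submodule ℂ V} (a : A) {x : V} (hx : x ∈ G) : a ⊗ₜ x ∈ lG A G :=
  ⟨a ⊗ₜ ⟨x, hx⟩, rfl⟩

/-- Induction for the elements of `A ⊗ G`. -/
theorem lG_le {G : Submodule ℂ V} {u : A ⊗[ℂ] V →ₗ[ℂ] W} {G' : Submodule ℂ W}
    (h : ∀ (a : A) (x : V), x ∈ G → u (a ⊗ₜ x) ∈ G') (x : A ⊗[ℂ] V) (hx : x ∈ lG A G) :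
    u x ∈ G' := by
  obtain ⟨y, rfl⟩ := hx
  induction y with
  | zero =>
    rw [map_zero, map_zero]
    exact zero_mem _
  | tmul a x => exact h a x.1 x.2
  | add x y hx hy =>
    rw [map_add, map_add]
    exact add_mem hx hy

theorem lTensor_lG {u : V →ₗ[ℂ] V'} {G : Submodule ℂ V} {G' : Submodule ℂ V'}
    (h : ∀ x ∈ G, u x ∈ G') (x : A ⊗[ℂ] V) (hx : x ∈ lG A G) : u.lTensor A x ∈ lG A G' :=
  lG_le (fun a y hy => tmul_lG a (h y hy)) x hx

theorem rTensor_lG (v : A →ₗ[ℂ] A) {G : Submodule ℂ V} (x : A ⊗[ℂ] V) (hx : x ∈ lG A G) :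
    v.rTensor V x ∈ lG A G :=
  lG_le (fun a _ hy => tmul_lG (v a) hy) x hx

theorem map_lG (f : A →ₗ[ℂ] B) {u : V →ₗ[ℂ] W} {G : Submodule ℂ V} {G' : Submodule ℂ W}
    (h : ∀ x ∈ G, u x ∈ G') (x : A ⊗[ℂ] V) (hx : x ∈ lG A G) :
    TensorProduct.map f u x ∈ lG B G' :=
  lG_le (fun a y hy => tmul_lG (f a) (h y hy)) x hx

end LG

/-- A graded differential space with a module structure; the differential is a differential
operator. -/
structure AGD (A : Type) [CommRing A] [Algebra ℂ A] extends GD where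
  [am : Module A V]
  [at' : IsScalarTower ℂ A V]
  sm : ∀ (a : A) (m : ℤ) (x : V), x ∈ gr m → a • x ∈ gr m
  dO : DO A d

attribute [instance] AGD.am AGD.at'

section JG

variable {A B D : Type} [CommRing A] [Algebra ℂ A] [CommRing B] [Algebra ℂ B] [CommRing D]
  [Algebra ℂ D]

/-- The subspace of the jets of the elements of a subspace. -/
abbrev grJ (A : Type) [CommRing A] [Algebra ℂ A] {V : Type} [AddCommGroup V] [Module ℂ V]
    [Module A V] [IsScalarTower ℂ A V] (G : Submodule ℂ V) : Submodule ℂ (J A V) :=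
  clo (FJ A V) (lG A G)

/-- The completed jets of a graded differential module. -/
abbrev JG (M : AGD A) : GD where
  V := J A M.V
  d := J.map M.d M.dO
  dd x := by
    have h : M.d ∘ₗ M.d = 0 := LinearMap.ext M.dd
    have := J.map_comp M.d M.dO M.d M.dO
    rw [J.map_congr h _ DO.zero, J.map_zero] at this
    exact (LinearMap.congr_fun this x).symm
  gr m := grJ A (M.gr m)
  dgr m x hx := lift_clo _ _ (lTensor_lG (M.dgr m)) hx

namespace JG

variable {M N P : AGD A} {M' N' : AGD B}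

/-- The map of jets defined by a differential operator shifting the degrees. -/
theorem map_gr (u : M.V →ₗ[ℂ] N.V) (h : DO A u) {m m' : ℤ} (hu : ∀ x ∈ M.gr m, u x ∈ N.gr m')
    {x : J A M.V} (hx : x ∈ (JG M).gr m) : J.map u h x ∈ (JG N).gr m' :=
  lift_clo _ _ (lTensor_lG hu) hx

theorem pull_gr (f : A →ₐ[ℂ] B) (u : M.V →ₗ[ℂ] M'.V) (h : ∀ (a : A) x, u (a • x) = f a • u x)
    {m m' : ℤ} (hu : ∀ x ∈ M.gr m, u x ∈ M'.gr m') {x : J A M.V} (hx : x ∈ (JG M).gr m) :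
    J.pull f u h x ∈ (JG M').gr m' :=
  lift_clo _ _ (map_lG _ hu) hx

theorem fn_gr (a : A) {m : ℤ} {x : J A M.V} (hx : x ∈ (JG M).gr m) : J.fn a x ∈ (JG M).gr m :=
  lift_clo _ _ (rTensor_lG _) hx

theorem vf_gr (v : Derivation ℂ A A) {m : ℤ} {x : J A M.V} (hx : x ∈ (JG M).gr m) :
    J.vf v x ∈ (JG M).gr m :=
  lift_clo _ _ (rTensor_lG _) hx

theorem ev_gr {m : ℤ} {x : J A M.V} (hx : x ∈ (JG M).gr m) : J.ev x ∈ M.gr m :=
  lim_clo _ _ _ (fun _ hy => lG_le (u := J.evl A M.V) (fun a x hx => M.sm a m x hx) _ hy) hx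

/-- The morphism defined by a homomorphism and a semilinear morphism. -/
def pull (f : A →ₐ[ℂ] B) (u : GD.Hom M.toGD M'.toGD)
    (h : ∀ (a : A) (x : M.V), u.f (a • x) = f a • u.f x) : GD.Hom (JG M) (JG M') where
  f := J.pull f u.f h
  comm x := J.pull_map f u.f h u.f h M.d M.dO M'.d M'.dO u.comm x
  deg m x hx := pull_gr f u.f h (u.deg m) hx

/-- The morphism defined by a linear morphism. -/
def map (u : GD.Hom M.toGD N.toGD) (h : ∀ (a : A) (x : M.V), u.f (a • x) = a • u.f x) :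
    GD.Hom (JG M) (JG N) := pull (AlgHom.id ℂ A) u h

end JG

end JG

/-- Test categories without twist, with a strict functor to algebras. -/
structure Str (T : St.TSite) : Prop where
  s0 : T.s = 0
  dl1 : ∀ {X Y : T.C} (φ : X ⟶ Y), T.dl φ = 1
  fid : ∀ X : T.C, T.f (𝟙 X) = AlgHom.id ℂ (T.R X)
  fcomp : ∀ {X Y Z : T.C} (φ : X ⟶ Y) (ψ : Y ⟶ Z), T.f (φ ≫ ψ) = (T.f ψ).comp (T.f φ)
  cen : ∀ (X : T.C) (φ : X ⟶ X), φ ∈ T.cen X → φ = 𝟙 X

/-- A family of graded differential modules on the test objects. -/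
structure JFam (T : St.TSite) where
  M : ∀ X : T.C, AGD (T.R X)
  t : ∀ {X Y : T.C} (_ : X ⟶ Y), GD.Hom (M X).toGD (M Y).toGD
  sl : ∀ {X Y : T.C} (φ : X ⟶ Y) (a : T.R X) (x : (M X).V),
    (t φ).f (a • x) = T.f φ a • (t φ).f x
  id : ∀ (X : T.C) (x : (M X).V), (t (𝟙 X)).f x = x
  comp : ∀ {X Y Z : T.C} (φ : X ⟶ Y) (ψ : Y ⟶ Z) (x : (M X).V),
    (t (φ ≫ ψ)).f x = (t ψ).f ((t φ).f x)

namespace JFam

variable {T : St.TSite}

theorem pull_congr {A B V W : Type} [CommRing A] [Algebra ℂ A] [CommRing B] [Algebra ℂ B]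
    [AddCommGroup V] [Module ℂ V] [Module A V] [IsScalarTower ℂ A V]
    [AddCommGroup W] [Module ℂ W] [Module B W] [IsScalarTower ℂ B W]
    {f g : A →ₐ[ℂ] B} (e : f = g) {u w : V →ₗ[ℂ] W} (e' : u = w)
    (h : ∀ (a : A) x, u (a • x) = f a • u x) (h' : ∀ (a : A) x, w (a • x) = g a • w x)
    (x : J A V) : J.pull f u h x = J.pull g w h' x := by
  subst e e'
  rfl

/-- The family of the completed jets. -/
def JT (F : JFam T) (hT : Str T) : GTD T where
  F X := JG (F.M X)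
  fn X a := J.fn a
  vf X v := J.vf v
  tr φ := JG.pull (T.f φ) (F.t φ) (F.sl φ)
  fn_gr X a m x hx := JG.fn_gr a hx
  vf_gr X v m x hx := JG.vf_gr v hx
  fn_d X a x := J.map_fn _ _ a x
  vf_d X v x := J.map_vf _ _ v x
  dmod X := J.isDMod
  trans X Y φ := by
    rw [hT.s0, hT.dl1 φ]
    exact J.isTrans (T.f φ) (F.t φ).f (F.sl φ)
  id X x := by
    have h1 : ∀ (a : T.R X) (x : (F.M X).V), (LinearMap.id : (F.M X).V →ₗ[ℂ] (F.M X).V) (a • x) =
        AlgHom.id ℂ (T.R X) a • (LinearMap.id : (F.M X).V →ₗ[ℂ] (F.M X).V) x := fun _ _ => rfl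
    refine (pull_congr (hT.fid X) (LinearMap.ext (F.id X)) (F.sl (𝟙 X)) h1 x).trans ?_
    exact J.pull_id LinearMap.id h1 (fun _ => rfl) x
  comp X Y Z φ ψ x := by
    have h1 : ∀ (a : T.R X) (x : (F.M X).V), ((F.t ψ).f ∘ₗ (F.t φ).f) (a • x) =
        (T.f ψ).comp (T.f φ) a • ((F.t ψ).f ∘ₗ (F.t φ).f) x := by
      intro a x
      rw [LinearMap.comp_apply, F.sl, F.sl]
      rfl
    refine (pull_congr (hT.fcomp φ ψ) (LinearMap.ext (F.comp φ ψ)) (F.sl (φ ≫ ψ)) h1 x).trans ?_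
    exact (J.pull_pull (T.f φ) (T.f ψ) (F.t φ).f (F.sl φ) (F.t ψ).f (F.sl ψ) _ h1
      (fun _ => rfl) x).symm
  cen X φ hφ x := by
    obtain rfl := hT.cen X φ hφ
    have h1 : ∀ (a : T.R X) (x : (F.M X).V), (LinearMap.id : (F.M X).V →ₗ[ℂ] (F.M X).V) (a • x) =
        AlgHom.id ℂ (T.R X) a • (LinearMap.id : (F.M X).V →ₗ[ℂ] (F.M X).V) x := fun _ _ => rfl
    refine (pull_congr (hT.fid X) (LinearMap.ext (F.id X)) (F.sl (𝟙 X)) h1 x).trans ?_
    exact J.pull_id LinearMap.id h1 (fun _ => rfl) x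

/-- A cochain of families of modules defines a cochain of the families of jets. -/
def coch {F F' : JFam T} (hT : Str T) {n : ℤ} (u : ∀ X : T.C, (F.M X).V →ₗ[ℂ] (F'.M X).V)
    (hd : ∀ X, DO (T.R X) (u X))
    (deg : ∀ (X : T.C) (m : ℤ) (x : (F.M X).V), x ∈ (F.M X).gr m → u X x ∈ (F'.M X).gr (m + n))
    (tr : ∀ {X Y : T.C} (φ : X ⟶ Y) (x : (F.M X).V), u Y ((F.t φ).f x) = (F'.t φ).f (u X x)) :
    GTD.Coch (F.JT hT) (F'.JT hT) n where
  f X := J.map (u X) (hd X)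
  deg X m x hx := JG.map_gr (u X) (hd X) (deg X m) hx
  fn X a x := J.map_fn _ _ a x
  vf X v x := J.map_vf _ _ v x
  tr {X Y} φ x := (J.pull_map (T.f φ) (F.t φ).f (F.sl φ) (F'.t φ).f (F'.sl φ) (u X) (hd X) (u Y)
    (hd Y) (fun y => (tr φ y).symm) x).symm

end JFam

end

end Vale.Agent.P286.H389
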