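import Vale.Agent.P286.H389.ThD
import Vale.Agent.P286.H459.ThG
import Vale.Agent.P286.H64.Twist0

/-!
# `Theta` for a gauge functor
-/

namespace Vale.Agent.P286.H389

open CategoryTheory TensorProduct
open Vale.Agent.P286.Gen (Gps BGT)
open Vale.Agent.P286.H847 (GD SGD GTD)
open Vale.Agent.P286.H847.SGD
open Vale.Agent.P286.H710 (Om OmS sgO)
open Vale.Agent.P286.H64
open Vale.Agent.P286.H761 (GauX)
open Vale.Agent.P286.H459 (GauT thG thG_rm thG_id thG_comp thG_h1 thG_coch)

noncomputable section

variable {n m M : ℕ} {Γ : Gps M} {W : SGD} {G : GauX Γ W m} {Y : LM.Yop n W} (H : GauT G Y)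

/-- The gauge transformations. -/
def thGX (N : LM n) : ThG Γ Y N where
  g φ := thG H N φ
  sl φ a z := thG_rm H N φ a z
  id X z := thG_id H N X z
  comp φ ψ z := thG_comp H N φ ψ z
  triv {X X'} f z := by
    induction z using TensorProduct.induction_on with
    | zero => simp only [map_zero]
    | tmul w x =>
      refine (thG_h1 H N (bf f) rfl w 1 x).trans ?_
      rw [map_one]
      rfl
    | add x y hx hy =>
      rw [map_add, map_add]
      exact (congrArg₂ (· + ·) hx hy).trans (map_add _ _ _).symm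

/-- The gauge transformations for all modules. -/
def thS : ThS Γ Y where
  k N := thGX H N
  co z _ _ φ x := (thG_coch H z φ x).symm

/-- The DG functor `Theta`. -/
def ThetaD : H353.DGF (H274.LMod n) (H353.gtc (BGT Γ)) := (thS H).TH

theorem ThetaD_cart (N : (H274.LMod n).Obj) :
    St.Cx.Cart (T := BGT Γ) (((ThetaD H).comp (H847.toD (BGT Γ))).obj N) :=
  (thS H).TH_cart N

theorem ThetaD_qis (K : LM.Ctr0 Y) {N N' : H353.Z0 (H274.LMod n)} (a : N ⟶ N')
    (h : H274.LMod.W n a) : H847.gqis (BGT Γ) ((ThetaD H).z0.map a) :=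
  (thS H).TH_qis (fun u hu => K.twMap_qis u hu) a h

end

end Vale.Agent.P286.H389
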