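import Vale.Agent.P286.H389.CartF
import Vale.Agent.P286.Gen.Bun

/-!
# The family `Theta(N)` on the classifying stack, and its free resolution
-/

namespace Vale.Agent.P286.H389

open CategoryTheory TensorProduct
open Vale.Agent.P286.Gen (Gps BGT)
open Vale.Agent.P286.H847 (GD SGD GTD)
open Vale.Agent.P286.H847.SGD
open Vale.Agent.P286.H710 (Om OmS sgO)
open Vale.Agent.P286.H64

noncomputable section

section TOf

variable {A V : Type} [CommRing A] [Algebra ℂ A] [AddCommGroup V] [Module ℂ V] [Module A V]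
  [IsScalarTower ℂ A V]

/-- The Taylor series of a flat element of degree zero. -/
theorem Ctn.T_of (C : Ctn A V) (b : DB A) (m : V) (h1 : C.pr 0 m = m) (h2 : C.nb m = 0) :
    C.T b m = Cmp.of (FJ A V) (1 ⊗ₜ m) := by
  have h := C.eq_T b (Cmp.of (FJ A V) (1 ⊗ₜ m)) (by
    refine (lift_of _ _ _).trans ?_
    rw [LinearMap.lTensor_tmul, h1]) (by
    rw [C.D_of, Ctn.dd, LinearMap.lTensor_tmul, h2, tmul_zero, map_zero])
  rw [h, J.ev_of, J.evl_tmul, one_smul]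

end TOf

section Theta

variable {n : ℕ} {W : SGD} (Y : LM.Yop n W) (N : LM n) {A B : Type} [CommRing A] [Algebra ℂ A]
  [CommRing B] [Algebra ℂ B]

/-- The constant jets. -/
def cst (A : Type) [CommRing A] [Algebra ℂ A] : W.V ⊗[ℂ] N.V →ₗ[ℂ] (JG (thA Y N A)).V :=
  Cmp.of (FJ A (thA Y N A).V) ∘ₗ (TensorProduct.mk ℂ A (thA Y N A).V 1) ∘ₗ iot W N A

theorem cst_apply (z : W.V ⊗[ℂ] N.V) :
    cst Y N A z = Cmp.of (FJ A (thA Y N A).V) ((1 : A) ⊗ₜ[ℂ] (iot W N A z : (thA Y N A).V)) := rfl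

theorem nb_iot (z : W.V ⊗[ℂ] N.V) : thNb W N A (iot W N A z) = 0 := by
  induction z using TensorProduct.induction_on with
  | zero => simp only [map_zero]
  | tmul w x => rw [iot_tmul, thNb_tmul, d_one', zero_tmul, tmul_zero]
  | add x y hx hy => simp only [map_add, hx, hy, add_zero]

theorem pr_iot (z : W.V ⊗[ℂ] N.V) : thPr W N A (iot W N A z) = iot W N A z := by
  induction z using TensorProduct.induction_on with
  | zero => simp only [map_zero]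
  | tmul w x =>
    rw [iot_tmul, thPr_tmul, prO_of_mem]
    rw [← map_one (algebraMap A (Om ℂ A))]
    exact H710.Om.alg_mem 1
  | add x y hx hy => simp only [map_add, hx, hy]

theorem T_iot (b : DB A) (z : W.V ⊗[ℂ] N.V) :
    (thP Y N b).C.T b (iot W N A z : (thA Y N A).V) = cst Y N A z :=
  (thP Y N b).C.T_of b _ (pr_iot N z) (nb_iot N z)

theorem toTh_tmul (b : DB A) (a : A) (z : W.V ⊗[ℂ] N.V) :
    (toTh Y N b).f (a ⊗ₜ[ℂ] z) = J.fn a (cst Y N A z) := by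
  change (thP Y N b).C.T b (inT W N A (a ⊗ₜ[ℂ] z)) = _
  rw [inT_eq, ← T_iot Y N b]
  exact (thP Y N b).C.T_fn b a (iot W N A z : (thA Y N A).V)

/-- The constant jets are compatible with the maps which preserve the constants. -/
theorem pull_cst (f : A →ₐ[ℂ] B) (u : (thA Y N A).V →ₗ[ℂ] (thA Y N B).V)
    (h : ∀ (a : A) x, u (a • x) = f a • u x)
    (hu : ∀ z, u (iot W N A z : (thA Y N A).V) = (iot W N B z : (thA Y N B).V))
    (z : W.V ⊗[ℂ] N.V) : J.pull f u h (cst Y N A z) = cst Y N B z := by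
  rw [cst_apply, cst_apply]
  refine (lift_of _ _ _).trans ?_
  change Cmp.of (FJ B (thA Y N B).V) ((f 1) ⊗ₜ[ℂ] u (iot W N A z)) = _
  rw [hu, map_one]

end Theta

/-- The classifying stack has no twist. -/
theorem strB {m : ℕ} (Γ : Gps m) : Str (BGT Γ) where
  s0 := rfl
  dl1 _ := rfl
  fid _ := rfl
  fcomp _ _ := rfl
  cen _ _ h := h

section BG

variable {m : ℕ} {Γ : Gps m}

/-- The morphism with trivial second component. -/
def bf {X X' : Gen.BGObj Γ} (f : X.A.R →ₐ[ℂ] X'.A.R) : X ⟶ X' := (⟨f, 1⟩ : Gen.BGHom X X')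

/-- The automorphism defined by a group element. -/
def bh {X : Gen.BGObj Γ} (h : Gen.Gr Γ X.A.R) : X ⟶ X := (⟨AlgHom.id ℂ X.A.R, h⟩ : Gen.BGHom X X)

theorem bf_bh {X X' : Gen.BGObj Γ} (φ : X ⟶ X') : bf (Gen.BGHom.f φ) ≫ bh (Gen.BGHom.h φ) = φ := by
  apply Gen.BGHom.ext
  · rfl
  · refine (congrArg (Gen.BGHom.h φ * ·) (Gen.gm_one _)).trans (mul_one _)

theorem bh_bh {X : Gen.BGObj Γ} (h h' : Gen.Gr Γ X.A.R) : bh h ≫ bh h' = bh (h' * h) := by
  apply Gen.BGHom.ext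
  · rfl
  · change h' * Gen.gm (AlgHom.id ℂ X.A.R) h = h' * h
    rw [Gen.gm_id]

theorem bh_one (X : Gen.BGObj Γ) : bh (1 : Gen.Gr Γ X.A.R) = 𝟙 X := rfl

end BG

variable {n : ℕ} {W : SGD} {m : ℕ}

/-- The gauge transformations on `W ⊗ (Om ⊗ N)`. -/
structure ThG (Γ : Gps m) (Y : LM.Yop n W) (N : LM n) where
  g : ∀ {X X' : Gen.BGObj Γ}, (X ⟶ X') →
    GD.Hom (LM.tw Y (LM.tensL (OmS X.A.R) N)) (LM.tw Y (LM.tensL (OmS X'.A.R) N))
  sl : ∀ {X X' : Gen.BGObj Γ} (φ : X ⟶ X') (a : X.A.R) (z : TV W N X.A.R),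
    (g φ).f (tvs W N a z) = tvs W N (Gen.BGHom.f φ a) ((g φ).f z)
  id : ∀ (X : Gen.BGObj Γ) (z : TV W N X.A.R), (g (𝟙 X)).f z = z
  comp : ∀ {X X' X'' : Gen.BGObj Γ} (φ : X ⟶ X') (ψ : X' ⟶ X'') (z : TV W N X.A.R),
    (g (φ ≫ ψ)).f z = (g ψ).f ((g φ).f z)
  triv : ∀ {X X' : Gen.BGObj Γ} (f : X.A.R →ₐ[ℂ] X'.A.R) (z : W.V ⊗[ℂ] N.V),
    (g (bf f)).f (iot W N X.A.R z) = iot W N X'.A.R z

namespace ThG

variable {Γ : Gps m} {Y : LM.Yop n W} {N : LM n} (K : ThG Γ Y N)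

/-- The family of the modules `W ⊗ (Om ⊗ N)`. -/
def jf : JFam (BGT Γ) where
  M X := thA Y N (Gen.BGObj.A X).R
  t φ := K.g φ
  sl φ a z := K.sl φ a z
  id X z := K.id X z
  comp φ ψ z := K.comp φ ψ z

/-- The family `Theta(N)`. -/
def th : GTD (BGT Γ) := K.jf.JT (strB Γ)

theorem th_F (X : Gen.BGObj Γ) : K.th.F X = JG (thA Y N X.A.R) := rfl

theorem tr_bf {X X' : Gen.BGObj Γ} (f : X.A.R →ₐ[ℂ] X'.A.R) (z : W.V ⊗[ℂ] N.V) :
    (K.th.tr (X := X) (Y := X') (bf f)).f (cst Y N X.A.R z) = cst Y N X'.A.R z :=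
  pull_cst Y N f (K.g (bf f)).f (K.sl (bf f)) (K.triv f) z

theorem tr_iso {X : Gen.BGObj Γ} (h : Gen.Gr Γ X.A.R) :
    GD.Qis (K.th.tr (X := X) (Y := X) (bh h)) := by
  have e1 : ∀ x, (K.th.tr (X := X) (Y := X) (bh h⁻¹)).f
      ((K.th.tr (X := X) (Y := X) (bh h)).f x) = x := by
    intro x
    rw [← K.th.comp X X X (bh h) (bh h⁻¹) x]
    have : (bh h ≫ bh h⁻¹ : X ⟶ X) = 𝟙 X := by rw [bh_bh, inv_mul_cancel, bh_one]
    exact (congrArg (fun ψ => (K.th.tr (X := X) (Y := X) ψ).f x) this).trans (K.th.id X x)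
  have e2 : ∀ x, (K.th.tr (X := X) (Y := X) (bh h)).f
      ((K.th.tr (X := X) (Y := X) (bh h⁻¹)).f x) = x := by
    intro x
    rw [← K.th.comp X X X (bh h⁻¹) (bh h) x]
    have : (bh h⁻¹ ≫ bh h : X ⟶ X) = 𝟙 X := by rw [bh_bh, mul_inv_cancel, bh_one]
    exact (congrArg (fun ψ => (K.th.tr (X := X) (Y := X) ψ).f x) this).trans (K.th.id X x)
  refine GD.Qis.of_htpy _ (K.th.tr (X := X) (Y := X) (bh h⁻¹)) 0 (fun m x _ => zero_mem _)
    (fun m x _ => ?_) 0 (fun m x _ => zero_mem _) (fun m x _ => ?_)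
  · rw [e1, LinearMap.zero_apply, LinearMap.zero_apply, map_zero, add_zero, sub_self]
  · rw [e2, LinearMap.zero_apply, LinearMap.zero_apply, map_zero, add_zero, sub_self]

/-- The free resolution of `Theta(N)`. -/
def res : FreeRes K.th (LM.tw Y N) where
  p X z := cst Y N (Gen.BGObj.A X).R z
  pA X := toTh Y N (DB.some (Gen.BGObj.A X).R)
  pA_tmul X a z := toTh_tmul Y N (DB.some (Gen.BGObj.A X).R) a z
  qis X := qis_toTh Y N (DB.some (Gen.BGObj.A X).R)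
  g {X X'} φ := K.th.tr (X := X') (Y := X') (bh (Gen.BGHom.h φ))
  g_qis φ := K.tr_iso (Gen.BGHom.h φ)
  g_fn {X X'} φ b x := (K.th.trans X' X' (bh (Gen.BGHom.h φ))).fn b x
  g_tr {X X'} φ z := by
    have h1 := K.th.comp X X' X' (bf (Gen.BGHom.f φ)) (bh (Gen.BGHom.h φ)) (cst Y N (Gen.BGObj.A X).R z)
    have h2 := K.tr_bf (Gen.BGHom.f φ) z
    exact (congrArg (fun ψ => (K.th.tr (X := X) (Y := X') ψ).f (cst Y N (Gen.BGObj.A X).R z))
      (bf_bh φ)).symm.trans (h1.trans (congrArg (K.th.tr (X := X') (Y := X')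
        (bh (Gen.BGHom.h φ))).f h2))

/-- `Theta(N)` is cartesian. -/
theorem cart : St.Cx.Cart (GTD.toCx K.th) := K.res.cart

end ThG

end

end Vale.Agent.P286.H389
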