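import Vale.Agent.P286.H389.Tht

/-!
# The functor `A ⊗ _` preserves quasi-isomorphisms
-/

namespace Vale.Agent.P286.H389

open TensorProduct
open Vale.Agent.P286.H847 (GD)

noncomputable section

variable {A : Type} [CommRing A] [Algebra ℂ A]

section Coord

variable {V V' : Type} [AddCommGroup V] [Module ℂ V] [AddCommGroup V'] [Module ℂ V']

/-- The basis of `A`. -/
abbrev bas (A : Type) [CommRing A] [Algebra ℂ A] := Module.Basis.ofVectorSpace ℂ A

local instance : DecidableEq (Module.Basis.ofVectorSpaceIndex ℂ A) := Classical.decEq _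

variable (A V) in
/-- The coordinates. -/
abbrev crd : A ⊗[ℂ] V ≃ₗ[ℂ] (Module.Basis.ofVectorSpaceIndex ℂ A →₀ V) :=
  TensorProduct.equivFinsuppOfBasisLeft (bas A)

theorem crd_lTensor (u : V →ₗ[ℂ] V') (x : A ⊗[ℂ] V) (i : Module.Basis.ofVectorSpaceIndex ℂ A) :
    crd A V' (u.lTensor A x) i = u (crd A V x i) := by
  induction x using TensorProduct.induction_on with
  | zero => simp only [map_zero, Finsupp.coe_zero, Pi.zero_apply]
  | tmul a x =>
    rw [LinearMap.lTensor_tmul, TensorProduct.equivFinsuppOfBasisLeft_apply_tmul_apply,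
      TensorProduct.equivFinsuppOfBasisLeft_apply_tmul_apply, map_smul]
  | add x y hx hy => simp only [map_add, Finsupp.coe_add, Pi.add_apply, hx, hy]

theorem crd_ext {x y : A ⊗[ℂ] V} (h : ∀ i, crd A V x i = crd A V y i) : x = y :=
  (crd A V).injective (Finsupp.ext h)

theorem mem_lG_iff {G : Submodule ℂ V} {x : A ⊗[ℂ] V} : x ∈ lG A G ↔ ∀ i, crd A V x i ∈ G := by
  constructor
  · rintro ⟨y, rfl⟩ i
    rw [crd_lTensor]
    exact (crd A G y i).2
  · intro h
    have e : x = (crd A V).symm (crd A V x) := ((crd A V).symm_apply_apply x).symm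
    rw [e, TensorProduct.equivFinsuppOfBasisLeft_symm_apply]
    exact Submodule.sum_mem _ fun i _ => tmul_lG _ (h i)

/-- An element with given coordinates. -/
theorem exists_crd (p : Module.Basis.ofVectorSpaceIndex ℂ A → V → Prop)
    (x : A ⊗[ℂ] V') (h : ∀ i, crd A V' x i ≠ 0 → ∃ y, p i y) (h0 : ∀ i, crd A V' x i = 0 → p i 0) :
    ∃ y : A ⊗[ℂ] V, ∀ i, p i (crd A V y i) := by
  classical
  have h' : ∀ i, ∃ y, p i y ∧ (crd A V' x i = 0 → y = 0) := by
    intro i
    by_cases hi : crd A V' x i = 0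
    · exact ⟨0, h0 i hi, fun _ => rfl⟩
    · obtain ⟨y, hy⟩ := h i hi
      exact ⟨y, hy, fun e => absurd e hi⟩
  choose y hy hy0 using h'
  let f : Module.Basis.ofVectorSpaceIndex ℂ A →₀ V :=
    Finsupp.onFinset (crd A V' x).support y fun i hi => by
      rw [Finsupp.mem_support_iff]
      exact fun e => hi (hy0 i e)
  refine ⟨(crd A V).symm f, fun i => ?_⟩
  rw [LinearEquiv.apply_symm_apply]
  exact hy i

end Coord

/-- The map `A ⊗ u`. -/
abbrev AX.map (A : Type) [CommRing A] [Algebra ℂ A] {G G' : GD} (u : GD.Hom G G') :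
    GD.Hom (AX A G) (AX A G') where
  f := u.f.lTensor A
  comm x := by
    change A ⊗[ℂ] G.V at x
    change u.f.lTensor A (G.d.lTensor A x) = G'.d.lTensor A (u.f.lTensor A x)
    induction x using TensorProduct.induction_on with
    | zero => simp only [map_zero]
    | tmul a x => simp only [LinearMap.lTensor_tmul, u.comm]
    | add x y hx hy => simp only [map_add, hx, hy]
  deg m x hx := lTensor_lG (u.deg m) x hx

/-- The functor `A ⊗ _` preserves quasi-isomorphisms. -/
theorem AX.qis {G G' : GD} {u : GD.Hom G G'} (hu : GD.Qis u) : GD.Qis (AX.map A u) := by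
  intro m
  refine ⟨?_, ?_⟩
  · rintro x hx hd ⟨y, hy, e⟩
    change A ⊗[ℂ] G.V at x
    change A ⊗[ℂ] G'.V at y
    change G.d.lTensor A x = 0 at hd
    change G'.d.lTensor A y = u.f.lTensor A x at e
    have hx' := mem_lG_iff.1 hx
    have hy' := mem_lG_iff.1 hy
    obtain ⟨z, hz⟩ := exists_crd (A := A) (V := G.V)
      (fun i z => z ∈ G.gr (m - 1) ∧ G.d z = crd A G.V x i) x (fun i _ => by
        obtain ⟨z, hz, e'⟩ := (hu m).1 (crd A G.V x i) (hx' i)
          (by rw [← crd_lTensor, hd, map_zero]; rfl)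
          ⟨crd A G'.V y i, hy' i, by rw [← crd_lTensor, e, crd_lTensor]⟩
        exact ⟨z, hz, e'⟩) (fun i hi => ⟨zero_mem _, by rw [map_zero, hi]⟩)
    refine ⟨z, mem_lG_iff.2 fun i => (hz i).1, ?_⟩
    exact crd_ext fun i => (crd_lTensor G.d z i).trans (hz i).2
  · intro y hy hd
    change A ⊗[ℂ] G'.V at y
    change G'.d.lTensor A y = 0 at hd
    have hy' := mem_lG_iff.1 hy
    have key : ∀ i, ∃ x ∈ G.gr m, G.d x = 0 ∧
        ∃ y' ∈ G'.gr (m - 1), G'.d y' = crd A G'.V y i - u.f x := fun i =>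
      (hu m).2 (crd A G'.V y i) (hy' i) (by rw [← crd_lTensor, hd, map_zero]; rfl)
    obtain ⟨x, hx⟩ := exists_crd (A := A) (V := G.V)
      (fun i x => x ∈ G.gr m ∧ G.d x = 0 ∧
        ∃ y' ∈ G'.gr (m - 1), G'.d y' = crd A G'.V y i - u.f x) y
      (fun i _ => by
        obtain ⟨x, h1, h2, h3⟩ := key i
        exact ⟨x, h1, h2, h3⟩)
      (fun i hi => ⟨zero_mem _, map_zero _, 0, zero_mem _, by
        rw [hi, map_zero, map_zero, sub_zero]⟩)
    have hxd : G.d.lTensor A x = 0 :=
      crd_ext fun i => (crd_lTensor G.d x i).trans ((hx i).2.1.trans (by rw [map_zero]; rfl))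
    obtain ⟨z, hz⟩ := exists_crd (A := A) (V := G'.V)
      (fun i z => z ∈ G'.gr (m - 1) ∧ G'.d z = crd A G'.V (y - u.f.lTensor A x) i)
      (y - u.f.lTensor A x) (fun i _ => by
        obtain ⟨y', h1, h2⟩ := (hx i).2.2
        refine ⟨y', h1, ?_⟩
        rw [h2, map_sub, Finsupp.coe_sub, Pi.sub_apply, crd_lTensor])
      (fun i hi => ⟨zero_mem _, by rw [map_zero, hi]⟩)
    refine ⟨x, mem_lG_iff.2 fun i => (hx i).1, hxd, z, mem_lG_iff.2 fun i => (hz i).1, ?_⟩
    exact crd_ext fun i => (crd_lTensor G'.d z i).trans (hz i).2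

end

end Vale.Agent.P286.H389
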