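import Vale.Agent.P286.H389.ThF
import Vale.Agent.P286.H389.AXq
import Vale.Agent.P286.H64.Twist
import Vale.Agent.P286.H274.LMod
import Vale.Agent.P286.H847.BrgD

/-!
# The DG functor `Theta`
-/

namespace Vale.Agent.P286.H389

open CategoryTheory TensorProduct
open Vale.Agent.P286.Gen (Gps BGT)
open Vale.Agent.P286.H847 (GD SGD GTD)
open Vale.Agent.P286.H847.SGD
open Vale.Agent.P286.H710 (Om OmS sgO)
open Vale.Agent.P286.H64

noncomputable section

section Thz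

variable {n : ℕ} {W : SGD} {N N' N'' : LM n} {A B : Type} [CommRing A] [Algebra ℂ A]
  [CommRing B] [Algebra ℂ B]

variable (W A) in
/-- The operator `w ⊗ (u ⊗ x) ↦ s^p(w) ⊗ (s^p(u) ⊗ φ(x))`. -/
def thz (p : ℤ) (φ : N.V →ₗ[ℂ] N'.V) : TV W N A →ₗ[ℂ] TV W N' A :=
  LM.smap W (M := (LM.tensL (OmS A) N).toGD) (N := (LM.tensL (OmS A) N').toGD) p
    (LM.smap (OmS A) (M := N.toGD) (N := N'.toGD) p φ)

theorem thz_tmul (p : ℤ) (φ : N.V →ₗ[ℂ] N'.V) (w : W.V) (u : Om ℂ A) (x : N.V) :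
    thz W A p φ (w ⊗ₜ (u ⊗ₜ x)) = sgp W p w ⊗ₜ (sgp (OmS A) p u ⊗ₜ φ x) := rfl

theorem sgpO_smul (p : ℤ) (a : A) (u : Om ℂ A) :
    sgp (OmS A) p (a • u : Om ℂ A) = a • (sgp (OmS A) p u : Om ℂ A) := by
  by_cases h : Even p
  · rw [sgp_even _ h, sgp_even _ h]
  · rw [sgp_odd _ h, sgp_odd _ h]
    exact map_smul Om.sg a u

theorem thz_tvs (p : ℤ) (φ : N.V →ₗ[ℂ] N'.V) (a : A) (z : TV W N A) :
    thz W A p φ (tvs W N a z) = tvs W N' a (thz W A p φ z) := by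
  induction z using TV.ind with
  | zero => simp only [map_zero]
  | tmul w u x =>
    rw [tvs_tmul, thz_tmul, thz_tmul]
    refine (congrArg (fun v : Om ℂ A => sgp W p w ⊗ₜ[ℂ] (v ⊗ₜ[ℂ] φ x)) (sgpO_smul p a u)).trans ?_
    exact (tvs_tmul N' a _ _ _).symm
  | add x y hx hy => simp only [map_add, hx, hy]

theorem thz_add (p : ℤ) (φ ψ : N.V →ₗ[ℂ] N'.V) (z : TV W N A) :
    thz W A p (φ + ψ) z = thz W A p φ z + thz W A p ψ z := by
  induction z using TV.ind with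
  | zero => simp only [map_zero, add_zero]
  | tmul w u x => rw [thz_tmul, thz_tmul, thz_tmul, LinearMap.add_apply, tmul_add, tmul_add]
  | add x y hx hy => simp only [map_add, hx, hy]; abel

theorem thz_smul (p : ℤ) (c : ℂ) (φ : N.V →ₗ[ℂ] N'.V) (z : TV W N A) :
    thz W A p (c • φ) z = c • thz W A p φ z := by
  induction z using TV.ind with
  | zero => simp only [map_zero, smul_zero]
  | tmul w u x => rw [thz_tmul, thz_tmul, LinearMap.smul_apply, tmul_smul, tmul_smul]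
  | add x y hx hy => simp only [map_add, hx, hy, smul_add]

theorem thz_id (z : TV W N A) : thz W A 0 (LinearMap.id : N.V →ₗ[ℂ] N.V) z = z := by
  induction z using TV.ind with
  | zero => simp only [map_zero]
  | tmul w u x => rw [thz_tmul, sgp_zero, sgp_zero]; rfl
  | add x y hx hy => simp only [map_add, hx, hy]

theorem thz_comp (p q : ℤ) (φ : N.V →ₗ[ℂ] N'.V) (ψ : N'.V →ₗ[ℂ] N''.V) (z : TV W N A) :
    thz W A q ψ (thz W A p φ z) = thz W A (q + p) (ψ ∘ₗ φ) z := by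
  induction z using TV.ind with
  | zero => simp only [map_zero]
  | tmul w u x => rw [thz_tmul, thz_tmul, thz_tmul, sgp_add, sgp_add]; rfl
  | add x y hx hy => simp only [map_add, hx, hy]

theorem thz_mem {p : ℤ} {φ : N.V →ₗ[ℂ] N'.V}
    (h : ∀ (m : ℤ) (x : N.V), x ∈ N.gr m → φ x ∈ N'.gr (m + p)) {m : ℤ} {z : TV W N A}
    (hz : z ∈ tgr W.toGD (tens (OmS A) N.toGD) m) :
    thz W A p φ z ∈ tgr W.toGD (tens (OmS A) N'.toGD) (m + p) :=
  LM.smap_mem W (M := (LM.tensL (OmS A) N).toGD) (N := (LM.tensL (OmS A) N').toGD)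
    (fun _ _ hx => LM.smap_mem (OmS A) (M := N.toGD) (N := N'.toGD) h hx) hz

/-- The differential of the operator of a cochain. -/
theorem thz_d (Y : LM.Yop n W) (p : ℤ) (φ : N.V →ₗ[ℂ] N'.V)
    (h : ∀ (i : Fin n) (x : N.V), φ (N.e i x) = (p.negOnePow : ℤ) • N'.e i (φ x))
    (z : TV W N A) :
    LM.twd Y (LM.tensL (OmS A) N') (thz W A p φ z) -
      (p.negOnePow : ℤ) • thz W A p φ (LM.twd Y (LM.tensL (OmS A) N) z) =
      thz W A (p + 1) (N'.d ∘ₗ φ - (p.negOnePow : ℤ) • (φ ∘ₗ N.d)) z := by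
  have h1 := LM.twd_smap Y (M := LM.tensL (OmS A) N) (N := LM.tensL (OmS A) N') p
    (LM.smap (OmS A) (M := N.toGD) (N := N'.toGD) p φ) (LM.smap_e (OmS A) p φ h) z
  refine h1.trans ?_
  have h2 : (LM.tensL (OmS A) N').d ∘ₗ LM.smap (OmS A) (M := N.toGD) (N := N'.toGD) p φ -
      (p.negOnePow : ℤ) • (LM.smap (OmS A) (M := N.toGD) (N := N'.toGD) p φ ∘ₗ
        (LM.tensL (OmS A) N).d) = LM.smap (OmS A) (M := N.toGD) (N := N'.toGD) (p + 1)
        (N'.d ∘ₗ φ - (p.negOnePow : ℤ) • (φ ∘ₗ N.d)) :=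
    LinearMap.ext fun y => LM.td_smap (OmS A) (M := N.toGD) (N := N'.toGD) p φ y
  rw [h2]
  rfl

theorem thz_iot (φ : N.V →ₗ[ℂ] N'.V) (z : W.V ⊗[ℂ] N.V) :
    thz W A 0 φ (iot W N A z) = iot W N' A (LM.smap W (M := N.toGD) (N := N'.toGD) 0 φ z) := by
  induction z using TensorProduct.induction_on with
  | zero => simp only [map_zero]
  | tmul w x =>
    rw [iot_tmul, thz_tmul, sgp_zero, sgp_zero, LM.smap_tmul, iot_tmul, sgp_zero]
  | add x y hx hy => simp only [map_add, hx, hy]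

end Thz

section Jz

variable {n : ℕ} {W : SGD} (Y : LM.Yop n W) {N N' N'' : LM n} (A : Type) [CommRing A]
  [Algebra ℂ A]

/-- The operator of a cochain, linear over the functions. -/
def thl (p : ℤ) (φ : N.V →ₗ[ℂ] N'.V) : (thA Y N A).V →ₗ[ℂ] (thA Y N' A).V := thz W A p φ

theorem thl_do (p : ℤ) (φ : N.V →ₗ[ℂ] N'.V) : DO A (thl Y A p φ) :=
  DO.lin (fun a x => thz_tvs p φ a x)

/-- The operator on the jets. -/
def jz (p : ℤ) (φ : N.V →ₗ[ℂ] N'.V) : (JG (thA Y N A)).V →ₗ[ℂ] (JG (thA Y N' A)).V :=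
  J.map (thl Y A p φ) (thl_do Y A p φ)

theorem jz_add (p : ℤ) (φ ψ : N.V →ₗ[ℂ] N'.V) :
    jz Y A p (φ + ψ) = jz Y A p φ + jz Y A p ψ := by
  have e : thl Y A p (φ + ψ) = thl Y A p φ + thl Y A p ψ :=
    LinearMap.ext fun z => thz_add p φ ψ z
  unfold jz
  rw [← J.map_add]
  exact J.map_congr e _ _

theorem jz_smul (p : ℤ) (c : ℂ) (φ : N.V →ₗ[ℂ] N'.V) : jz Y A p (c • φ) = c • jz Y A p φ := by
  have e : thl Y A p (c • φ) = c • thl Y A p φ := LinearMap.ext fun z => thz_smul p c φ z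
  unfold jz
  rw [← J.map_smul]
  exact J.map_congr e _ _

theorem jz_id : jz Y A 0 (LinearMap.id : N.V →ₗ[ℂ] N.V) = LinearMap.id := by
  have e : thl Y A 0 (LinearMap.id : N.V →ₗ[ℂ] N.V) = LinearMap.id :=
    LinearMap.ext fun z => thz_id z
  unfold jz
  rw [← J.map_id]
  exact J.map_congr e _ _

theorem jz_comp {p q r : ℤ} (h : p + q = r) (φ : N.V →ₗ[ℂ] N'.V) (ψ : N'.V →ₗ[ℂ] N''.V) :
    jz Y A r (ψ ∘ₗ φ) = jz Y A q ψ ∘ₗ jz Y A p φ := by
  have e : thl Y A r (ψ ∘ₗ φ) = thl Y A q ψ ∘ₗ thl Y A p φ := LinearMap.ext fun z => by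
    rw [← h, add_comm p q]
    exact (thz_comp p q φ ψ z).symm
  unfold jz
  rw [← J.map_comp]
  exact J.map_congr e _ _

theorem jz_d {p q : ℤ} (hq : p + 1 = q) (φ : N.V →ₗ[ℂ] N'.V)
    (h : ∀ (i : Fin n) (x : N.V), φ (N.e i x) = (p.negOnePow : ℤ) • N'.e i (φ x))
    (x : (JG (thA Y N A)).V) :
    jz Y A q (N'.d ∘ₗ φ - (p.negOnePow : ℤ) • (φ ∘ₗ N.d)) x =
      (JG (thA Y N' A)).d (jz Y A p φ x) -
        (p.negOnePow : ℤ) • jz Y A p φ ((JG (thA Y N A)).d x) := by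
  subst hq
  have e : thl Y A (p + 1) (N'.d ∘ₗ φ - (p.negOnePow : ℤ) • (φ ∘ₗ N.d)) =
      (thA Y N' A).d ∘ₗ thl Y A p φ - ((p.negOnePow : ℤ) : ℂ) • (thl Y A p φ ∘ₗ (thA Y N A).d) :=
    LinearMap.ext fun z => by
      rw [LinearMap.sub_apply, LinearMap.smul_apply, Int.cast_smul_eq_zsmul]
      exact (thz_d Y p φ h z).symm
  have e2 := J.map_congr e (thl_do Y A (p + 1) _)
    (((thA Y N' A).dO.comp (thl_do Y A p φ)).sub (((thl_do Y A p φ).comp (thA Y N A).dO).smul _))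
  have e3 : jz Y A (p + 1) (N'.d ∘ₗ φ - (p.negOnePow : ℤ) • (φ ∘ₗ N.d)) = _ := e2
  rw [e3, J.map_sub _ ((thA Y N' A).dO.comp (thl_do Y A p φ)) _
    (((thl_do Y A p φ).comp (thA Y N A).dO).smul _), J.map_smul _ _
    ((thl_do Y A p φ).comp (thA Y N A).dO), J.map_comp, J.map_comp, LinearMap.sub_apply,
    LinearMap.smul_apply, Int.cast_smul_eq_zsmul]
  rfl

theorem jz_cst (φ : N.V →ₗ[ℂ] N'.V) (z : W.V ⊗[ℂ] N.V) :
    jz Y A 0 φ (cst Y N A z) =
      cst Y N' A (LM.smap W (M := N.toGD) (N := N'.toGD) 0 φ z) := by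
  rw [cst_apply, cst_apply]
  refine (lift_of _ _ _).trans ?_
  change Cmp.of (FJ A (thA Y N' A).V) ((1 : A) ⊗ₜ[ℂ] (thz W A 0 φ (iot W N A z))) = _
  rw [thz_iot]

theorem jz_fn (p : ℤ) (φ : N.V →ₗ[ℂ] N'.V) (a : A) (x : (JG (thA Y N A)).V) :
    jz Y A p φ (J.fn a x) = J.fn a (jz Y A p φ x) := J.map_fn _ _ a x

/-- The morphism of the jets defined by a homomorphism of modules. -/
def jH (u : LM.Hom N N') : GD.Hom (JG (thA Y N A)) (JG (thA Y N' A)) where
  f := jz Y A 0 u.f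
  comm x := by
    have h := jz_d Y A (zero_add 1) u.f (fun i x => by rw [npow_even Even.zero]; exact u.e i x) x
    rw [npow_even Even.zero, npow_even Even.zero] at h
    have h2 : N'.d ∘ₗ u.f - u.f ∘ₗ N.d = (0 : ℂ) • u.f :=
      LinearMap.ext fun x => by
        rw [LinearMap.sub_apply, LinearMap.comp_apply, LinearMap.comp_apply, u.comm, sub_self,
          zero_smul]
        rfl
    rw [h2, jz_smul, zero_smul, LinearMap.zero_apply] at h
    exact (sub_eq_zero.1 h.symm).symm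
  deg m x hx := by
    have := JG.map_gr (M := thA Y N A) (N := thA Y N' A) (thl Y A 0 u.f) (thl_do Y A 0 u.f)
      (m := m) (m' := m + 0) (fun y hy => thz_mem (fun m x hx => by
        rw [add_zero]; exact u.deg m x hx) hy) hx
    rwa [add_zero] at this

/-- `Theta` preserves quasi-isomorphisms. -/
theorem jH_qis (b : DB A) (u : LM.Hom N N') (hu : GD.Qis (LM.twMap Y u)) :
    GD.Qis (jH Y A u) := by
  refine GD.Qis.of_comp_right (qis_toTh Y N b) ?_
  have e : (jH Y A u).comp (toTh Y N b) = (toTh Y N' b).comp (AX.map A (LM.twMap Y u)) := by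
    refine H64.hom_ext fun x => ?_
    change A ⊗[ℂ] (W.V ⊗[ℂ] N.V) at x
    change jz Y A 0 u.f ((toTh Y N b).f x) =
      (toTh Y N' b).f ((LM.smap W (M := N.toGD) (N := N'.toGD) 0 u.f).lTensor A x)
    induction x using TensorProduct.induction_on with
    | zero => simp only [map_zero]
    | tmul a z =>
      rw [LinearMap.lTensor_tmul, toTh_tmul, toTh_tmul, jz_fn, jz_cst]
    | add x y hx hy => simp only [map_add, hx, hy]
  rw [e]
  exact (qis_toTh Y N' b).comp (AX.qis hu)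

end Jz

variable {n : ℕ} {W : SGD} {m : ℕ}

/-- The gauge transformations for all modules, compatible with the cochains. -/
structure ThS (Γ : Gps m) (Y : LM.Yop n W) where
  k : ∀ N : LM n, ThG Γ Y N
  co : ∀ {N N' : LM n} {p : ℤ} (z : LM.Coch N N' p) {X X' : Gen.BGObj Γ} (φ : X ⟶ X')
    (x : TV W N X.A.R), thz W X'.A.R p z.f (((k N).g φ).f x) =
      ((k N').g φ).f (thz W X.A.R p z.f x)

namespace ThS

variable {Γ : Gps m} {Y : LM.Yop n W} (K : ThS Γ Y) {N N' N'' : LM n}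

/-- The cochain defined by a cochain. -/
def co' {p : ℤ} (z : LM.Coch N N' p) : GTD.Coch (K.k N).th (K.k N').th p :=
  JFam.coch (strB Γ) (F := (K.k N).jf) (F' := (K.k N').jf)
    (fun X => thl Y (Gen.BGObj.A X).R p z.f) (fun X => thl_do Y (Gen.BGObj.A X).R p z.f)
    (fun X m x hx => thz_mem z.deg hx) (fun φ x => K.co z φ x)

/-- The linear map on cochains. -/
def coL (p : ℤ) : LM.Coch N N' p →ₗ[ℂ] GTD.Coch (K.k N).th (K.k N').th p where
  toFun := K.co'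
  map_add' z w := GTD.Coch.ext' fun X x =>
    LinearMap.congr_fun (jz_add Y (Gen.BGObj.A X).R p z.f w.f) x
  map_smul' c z := GTD.Coch.ext' fun X x =>
    LinearMap.congr_fun (jz_smul Y (Gen.BGObj.A X).R p c z.f) x

theorem co_one (N : LM n) : K.co' (H274.Co.one N) = GTD.Coch.one (K.k N).th :=
  GTD.Coch.ext' fun X x => LinearMap.congr_fun (jz_id Y (Gen.BGObj.A X).R) x

theorem co_cmp {p q r : ℤ} (h : p + q = r) (u : LM.Coch N N' p) (w : LM.Coch N' N'' q) :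
    K.co' (H274.Co.cmp h u w) = (K.co' u).cmp (K.co' w) h :=
  GTD.Coch.ext' fun X x => LinearMap.congr_fun (jz_comp Y (Gen.BGObj.A X).R h u.f w.f) x

theorem co_dl {p q : ℤ} (h : p + 1 = q) (u : LM.Coch N N' p) :
    K.co' (H274.Co.dl h u) = (K.co' u).dl h :=
  GTD.Coch.ext' fun X x => by
    have key := jz_d Y (Gen.BGObj.A X).R h u.f u.e
    exact key x

theorem co_dif {p q : ℤ} (α : LM.Coch N N' p) :
    K.coL q (H274.Co.dif p q α) = H353.gdl p q (K.coL p α) := by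
  by_cases h : p + 1 = q
  · rw [H274.Co.dif_eq h, H353.gdl_eq h]
    exact K.co_dl h α
  · rw [H274.Co.dif_ne h, H353.gdl_ne h, map_zero]

/-- The DG functor `Theta`. -/
def TH : H353.DGF (H274.LMod n) (H353.gtc (BGT Γ)) where
  obj N := (K.k N).th
  map p := K.coL p
  map_one N := K.co_one N
  map_comp h α β := K.co_cmp h α β
  map_d _ _ α := K.co_dif α

theorem TH_cart (N : LM n) : St.Cx.Cart (GTD.toCx (K.k N).th) := (K.k N).cart

/-- `Theta` preserves quasi-isomorphisms. -/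
theorem TH_qis (hq : ∀ {N N' : LM n} (u : LM.Hom N N'), GD.Qis u.toHom → GD.Qis (LM.twMap Y u))
    {N N' : H353.Z0 (H274.LMod n)} (a : N ⟶ N') (h : H274.LMod.W n a) :
    H847.gqis (BGT Γ) (K.TH.z0.map a) := fun X =>
  jH_qis Y (Gen.BGObj.A X).R (DB.some _) (H274.LMod.toH a) (hq _ h)

end ThS

end

end Vale.Agent.P286.H389
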