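import Vale.Agent.P286.H389.Tht2
import Vale.Agent.P286.H847.Brg
import Vale.Agent.P286.H527.BrCart

/-!
# Families with a free resolution are cartesian
-/

namespace Vale.Agent.P286.H389

open CategoryTheory TensorProduct H847 St

noncomputable section

section BaseChange

variable {A B : Type} [CommRing A] [Algebra ℂ A] [CommRing B] [Algebra ℂ B] (f : A →ₐ[ℂ] B)
  (V : Type) [AddCommGroup V] [Module ℂ V]

/-- The isomorphism `B ⊗_A (A ⊗ V) ≃ B ⊗ V`. -/
def bcE : ExtS (f : A →+* B) (A ⊗[ℂ] V) ≃+ B ⊗[ℂ] V :=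
  letI : Module A B := Module.compHom B (f : A →+* B)
  haveI : IsScalarTower ℂ A B := ⟨fun c a b => by
    change f (c • a) * b = c • (f a * b)
    rw [map_smul, smul_mul_assoc]⟩
  (TensorProduct.AlgebraTensorModule.cancelBaseChange ℂ A A B V).toAddEquiv

variable {V}

theorem bcE_el (b : B) (a : A) (x : V) :
    bcE f V (ExtS.el (f : A →+* B) b (a ⊗ₜ[ℂ] x)) = (b * f a) ⊗ₜ[ℂ] x := by
  have : bcE f V (ExtS.el (f : A →+* B) b (a ⊗ₜ[ℂ] x)) = (f a * b) ⊗ₜ[ℂ] x := rfl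
  rw [this, mul_comm]

theorem el_zero {M : Type} [AddCommGroup M] [Module A M] (b : B) :
    ExtS.el (f : A →+* B) b (0 : M) = 0 :=
  letI : Module A B := Module.compHom B (f : A →+* B)
  TensorProduct.tmul_zero _ _

theorem el_add {M : Type} [AddCommGroup M] [Module A M] (b : B) (x y : M) :
    ExtS.el (f : A →+* B) b (x + y) = ExtS.el (f : A →+* B) b x + ExtS.el (f : A →+* B) b y :=
  letI : Module A B := Module.compHom B (f : A →+* B)
  TensorProduct.tmul_add _ _ _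

theorem map_el {M M' : Type} [AddCommGroup M] [Module A M] [AddCommGroup M'] [Module A M']
    (u : M →ₗ[A] M') (b : B) (x : M) :
    ExtS.map (f : A →+* B) u (ExtS.el (f : A →+* B) b x) = ExtS.el (f : A →+* B) b (u x) := rfl

theorem bcE_map {V' : Type} [AddCommGroup V'] [Module ℂ V'] (u : V →ₗ[ℂ] V')
    (w : ExtS (f : A →+* B) (A ⊗[ℂ] V)) :
    bcE f V' (ExtS.map (f : A →+* B) (u.baseChange A) w) = u.lTensor B (bcE f V w) := by
  induction w using Br.el_ind with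
  | h0 => rw [map_zero, map_zero, map_zero, map_zero]
  | ht b x =>
    rw [map_el]
    induction x using TensorProduct.induction_on with
    | zero => rw [map_zero, el_zero, el_zero, map_zero, map_zero, map_zero]
    | tmul a z => rw [LinearMap.baseChange_tmul, bcE_el, bcE_el, LinearMap.lTensor_tmul]
    | add x y hx hy => rw [map_add, el_add, el_add, map_add, map_add, map_add, hx, hy]
  | ha x y hx hy => rw [map_add, map_add, map_add, map_add, hx, hy]

end BaseChange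

section Hiso

variable {T : TSite} {F : GTD T} {X : T.C} {G : GD}

theorem hiso_of_qis (u : GD.Hom G (F.F X)) (hu : GD.Qis u) {P : ℤ → Type}
    [∀ i, AddCommGroup (P i)] (dP : ∀ i j, P i → P j) (ι : ∀ i, P i →+ G.V)
    (inj : ∀ i, Function.Injective (ι i)) (rg : ∀ i x, x ∈ G.gr i ↔ ∃ p, ι i p = x)
    (hd : ∀ i j, i + 1 = j → ∀ p, ι j (dP i j p) = G.d (ι i p))
    (p : ∀ i, P i → (F.pre i).S X) (hp : ∀ i x, F.val i X (p i x) = u.f (ι i x)) (i j k : ℤ)
    (hij : i + 1 = j) (hjk : j + 1 = k) :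
    St.HIso (dP i j) (dP j k) (GTD.dS F X i j) (GTD.dS F X j k) (p j) := by
  have hi : i = j - 1 := by omega
  refine ⟨?_, ?_⟩
  · rintro x hx ⟨y, hy⟩
    obtain ⟨x', hx', e⟩ := (hu j).1 (ι j x) ((rg j _).2 ⟨x, rfl⟩) (by
      rw [← hd j k hjk, hx, map_zero]) ⟨F.val i X y, hi ▸ F.val_mem _ _ _, by
        rw [← GTD.val_dS F X i j hij, hy, hp]⟩
    rw [← hi] at hx'
    obtain ⟨x'', rfl⟩ := (rg i _).1 hx'
    exact ⟨x'', inj j (by rw [hd i j hij, e])⟩
  · intro y hy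
    obtain ⟨x, hx, hdx, y', hy', e⟩ := (hu j).2 (F.val j X y) (F.val_mem _ _ _) (by
      rw [← GTD.val_dS F X j k hjk, hy, map_zero])
    obtain ⟨x, rfl⟩ := (rg j _).1 hx
    rw [← hi] at hy'
    refine ⟨x, inj k (by rw [hd j k hjk, hdx, map_zero]), F.el y' hy', F.val_inj ?_⟩
    rw [GTD.val_dS F X i j hij, GTD.val_el, e, map_sub, hp]

end Hiso

section Res

variable (A : Type) [CommRing A] [Algebra ℂ A] (G : GD)

/-- The differential. -/
def axd (i j : ℤ) : G.gr i →ₗ[ℂ] G.gr j :=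
  if h : i + 1 = j then (G.d.restrict (p := G.gr i) (q := G.gr j)
    (fun x hx => h ▸ G.dgr i x hx)) else 0

variable {G} in
theorem axd_val {i j : ℤ} (h : i + 1 = j) (x : G.gr i) : (axd G i j x : G.V) = G.d x := by
  unfold axd
  rw [dif_pos h]
  rfl

variable {G} in
theorem axd_ne {i j : ℤ} (h : ¬ i + 1 = j) : axd G i j = 0 := dif_neg h

theorem axd_axd (i j k : ℤ) : axd G j k ∘ₗ axd G i j = 0 := by
  by_cases h : i + 1 = j
  · by_cases h' : j + 1 = k
    · ext x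
      change (axd G j k (axd G i j x) : G.V) = 0
      rw [axd_val h', axd_val h, G.dd]
    · rw [axd_ne h', LinearMap.zero_comp]
  · rw [axd_ne h, LinearMap.comp_zero]

/-- The complex of the free modules `A ⊗ G i`. -/
abbrev AP : MCx A where
  X i := A ⊗[ℂ] (G.gr i)
  d i j := (axd G i j).baseChange A
  dd i j k := by
    rw [← LinearMap.baseChange_comp, axd_axd, LinearMap.baseChange_zero]

/-- The inclusion. -/
def apI (i : ℤ) : A ⊗[ℂ] (G.gr i) →+ A ⊗[ℂ] G.V := ((G.gr i).subtype.lTensor A).toAddMonoidHom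

variable {A G}

theorem apI_tmul (i : ℤ) (a : A) (x : G.gr i) : apI A G i (a ⊗ₜ x) = a ⊗ₜ (x : G.V) := rfl

theorem apI_inj (i : ℤ) : Function.Injective (apI A G i) :=
  Module.Flat.lTensor_preserves_injective_linearMap _ (Submodule.subtype_injective _)

theorem apI_rg (i : ℤ) (x : A ⊗[ℂ] G.V) : x ∈ (AX A G).gr i ↔ ∃ p, apI A G i p = x := Iff.rfl

theorem apI_d {i j : ℤ} (h : i + 1 = j) (x : A ⊗[ℂ] (G.gr i)) :
    apI A G j ((axd G i j).lTensor A x) = (AX A G).d (apI A G i x) := by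
  induction x using TensorProduct.induction_on with
  | zero => simp only [map_zero]
  | tmul a x =>
    rw [LinearMap.lTensor_tmul, apI_tmul, apI_tmul, AX_d_tmul, axd_val h]
  | add x y hx hy => simp only [map_add, hx, hy]

end Res

/-- A free resolution of a family, compatible with the transition maps up to automorphisms. -/
structure FreeRes {T : TSite} (F : GTD T) (G : GD) where
  p : ∀ X : T.C, G.V → (F.F X).V
  pA : ∀ X : T.C, GD.Hom (AX (T.R X) G) (F.F X)
  pA_tmul : ∀ (X : T.C) (a : T.R X) (z : G.V), (pA X).f (a ⊗ₜ[ℂ] z) = F.fn X a (p X z)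
  qis : ∀ X : T.C, GD.Qis (pA X)
  g : ∀ {X Y : T.C} (_ : X ⟶ Y), GD.Hom (F.F Y) (F.F Y)
  g_qis : ∀ {X Y : T.C} (φ : X ⟶ Y), GD.Qis (g φ)
  g_fn : ∀ {X Y : T.C} (φ : X ⟶ Y) (b : T.R Y) (x : (F.F Y).V),
    (g φ).f (F.fn Y b x) = F.fn Y b ((g φ).f x)
  g_tr : ∀ {X Y : T.C} (φ : X ⟶ Y) (z : G.V), (F.tr φ).f (p X z) = (g φ).f (p Y z)

namespace FreeRes

variable {T : TSite} {F : GTD T} {G : GD} (Q : FreeRes F G)

/-- The resolution. -/
def pi (X : T.C) (i : ℤ) (x : (T.R X) ⊗[ℂ] (G.gr i)) : (F.pre i).S X :=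
  F.el ((Q.pA X).f (apI (T.R X) G i x)) ((Q.pA X).deg i _ ((apI_rg i _).2 ⟨x, rfl⟩))

theorem val_pi (X : T.C) (i : ℤ) (x : (T.R X) ⊗[ℂ] (G.gr i)) :
    F.val i X (Q.pi X i x) = (Q.pA X).f (apI (T.R X) G i x) := rfl

theorem pA_smul (X : T.C) (a : T.R X) (x : (T.R X) ⊗[ℂ] G.V) :
    (Q.pA X).f (a • x) = F.fn X a ((Q.pA X).f x) := by
  induction x using TensorProduct.induction_on with
  | zero => rw [smul_zero, map_zero, map_zero]
  | tmul c z => rw [smul_tmul', smul_eq_mul, Q.pA_tmul, Q.pA_tmul, (F.dmod X).fn_mul]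
  | add x y hx hy => rw [smul_add, map_add, map_add, map_add, hx, hy]

/-- The inclusion of the base change. -/
def bI {X Y : T.C} (φ : X ⟶ Y) (i : ℤ) :
    BC (T.f φ).r (AP (T.R X) G) i →+ (T.R Y) ⊗[ℂ] G.V :=
  (apI (T.R Y) G i).comp (bcE (T.f φ) (G.gr i)).toAddMonoidHom

theorem bI_el {X Y : T.C} (φ : X ⟶ Y) (i : ℤ) (b : T.R Y) (a : T.R X) (x : G.gr i) :
    bI (G := G) φ i (BC.el (T.f φ).r (AP (T.R X) G) i b (a ⊗ₜ[ℂ] x)) =
      (b * T.f φ a) ⊗ₜ[ℂ] (x : G.V) := by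
  change apI (T.R Y) G i (bcE (T.f φ) (G.gr i) (ExtS.el (T.f φ).r b (a ⊗ₜ[ℂ] x))) = _
  rw [bcE_el (T.f φ) b a x]
  rfl

/-- The map from the base change. -/
def q {X Y : T.C} (φ : X ⟶ Y) (i : ℤ) (w : BC (T.f φ).r (AP (T.R X) G) i) : (F.pre i).S Y :=
  F.el ((Q.g φ).f ((Q.pA Y).f (bI φ i w)))
    ((Q.g φ).deg i _ ((Q.pA Y).deg i _ ((apI_rg i _).2 ⟨_, rfl⟩)))

theorem val_q {X Y : T.C} (φ : X ⟶ Y) (i : ℤ) (w : BC (T.f φ).r (AP (T.R X) G) i) :
    F.val i Y (Q.q φ i w) = ((Q.g φ).comp (Q.pA Y)).f (bI φ i w) := rfl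

theorem flatRes (X : T.C) :
    IsFlatRes (AP (T.R X) G) (fun i => (F.pre i).fn X) (GTD.dS F X) (Q.pi X) where
  flat i := inferInstanceAs (Module.Flat (T.R X) ((T.R X) ⊗[ℂ] (G.gr i)))
  add i x y := F.val_inj (by
    change (Q.pA X).f (apI (T.R X) G i (x + y)) = (Q.pA X).f (apI (T.R X) G i x) +
      (Q.pA X).f (apI (T.R X) G i y)
    rw [map_add, map_add])
  hom i a x := F.val_inj (by
    rw [GTD.val_fn, val_pi, val_pi, ← Q.pA_smul]
    congr 1
    change apI (T.R X) G i (a • (x : (T.R X) ⊗[ℂ] (G.gr i))) = _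
    change (T.R X) ⊗[ℂ] (G.gr i) at x
    induction x using TensorProduct.induction_on with
    | zero => rw [smul_zero, map_zero, smul_zero]
    | tmul c z => rfl
    | add x y hx hy => rw [smul_add, map_add, hx, hy, map_add, smul_add])
  comm i j x := by
    by_cases h : i + 1 = j
    · apply F.val_inj
      rw [GTD.val_dS F X i j h, val_pi, val_pi, ← (Q.pA X).comm, ← apI_d h]
      rfl
    · have h1 : GTD.dS F X i j (Q.pi X i x) = 0 := by
        change TD.hm (M := F.term i) (N := F.term j) ((GTD.cc F).d i j) X _ = 0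
        rw [(GTD.cc F).shape i j h]
        rfl
      rw [h1]
      apply F.val_inj
      rw [val_pi]
      have h2 : df (AP (T.R X) G) i j x = 0 := by
        change (axd G i j).baseChange (T.R X) x = 0
        rw [axd_ne h, LinearMap.baseChange_zero]
        rfl
      rw [h2, map_zero, map_zero, map_zero]
  hiso i j k hij hjk := hiso_of_qis (Q.pA X) (Q.qis X) (P := (AP (T.R X) G).X) (df (AP (T.R X) G))
    (apI (T.R X) G) apI_inj apI_rg (fun i j h x => apI_d h x) (Q.pi X) (Q.val_pi X) i j k hij hjk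

theorem baseCh {X Y : T.C} (φ : X ⟶ Y) :
    IsBaseCh (T.f φ).r (AP (T.R X) G) (fun i => (F.pre i).fn Y) (GTD.dS F Y)
      (fun i => (F.pre i).tr φ) (Q.pi X) (Q.q φ) where
  add i x y := F.val_inj (by
    rw [map_add, val_q, val_q, val_q, map_add, map_add])
  el i b x := F.val_inj (by
    rw [GTD.val_fn, GTD.val_tr, val_q, val_pi]
    have e0 : BC.el (T.f φ).r (AP (T.R X) G) i b 0 = 0 := el_zero (T.f φ) b
    have e1 : ∀ x y, BC.el (T.f φ).r (AP (T.R X) G) i b (x + y) =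
        BC.el (T.f φ).r (AP (T.R X) G) i b x + BC.el (T.f φ).r (AP (T.R X) G) i b y :=
      el_add (T.f φ) b
    induction x using TensorProduct.induction_on with
    | zero => rw [e0]; simp only [map_zero]
    | tmul a z =>
      rw [bI_el, apI_tmul, Q.pA_tmul, (F.trans X Y φ).fn, Q.g_tr, ← (F.dmod Y).fn_mul]
      change (Q.g φ).f ((Q.pA Y).f ((b * T.f φ a) ⊗ₜ[ℂ] (z : G.V))) = _
      rw [Q.pA_tmul, Q.g_fn]
    | add x y hx hy => rw [e1]; simp only [map_add, hx, hy])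
  hiso i j k hij hjk := by
    refine hiso_of_qis ((Q.g φ).comp (Q.pA Y)) (GD.Qis.comp (Q.g_qis φ) (Q.qis Y))
      (P := BC (T.f φ).r (AP (T.R X) G)) (BC.df (T.f φ).r (AP (T.R X) G)) (bI φ) ?_ ?_ ?_ (Q.q φ)
      (Q.val_q φ) i j k hij hjk
    · intro i
      exact (apI_inj i).comp (bcE (T.f φ) (G.gr i)).injective
    · intro i x
      refine (apI_rg i x).trans ⟨?_, ?_⟩
      · rintro ⟨y, rfl⟩
        obtain ⟨w, rfl⟩ := (bcE (T.f φ) (G.gr i)).surjective y
        exact ⟨w, rfl⟩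
      · rintro ⟨w, rfl⟩
        exact ⟨_, rfl⟩
    · intro i j h w
      have key := bcE_map (T.f φ) (axd G i j) w
      change apI (T.R Y) G j (bcE (T.f φ) (G.gr j)
        (ExtS.map (T.f φ).r ((axd G i j).baseChange (T.R X)) w)) = _
      rw [key]
      exact apI_d h _

include Q in
/-- A family with a free resolution is cartesian. -/
theorem cart : Cx.Cart (GTD.toCx F) := fun X =>
  ⟨AP (T.R X) G, Q.pi X, Q.flatRes X, fun _ φ => ⟨Q.q φ, Q.baseCh φ⟩⟩

end FreeRes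

end

end Vale.Agent.P286.H389
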