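import Mathlib

/-!
# Completions of filtered complex vector spaces and convergent sequences of operators
-/

namespace Vale.Agent.P286.H389

noncomputable section

/-- A decreasing filtration of a complex vector space. -/
structure Fil (V : Type) [AddCommGroup V] [Module ℂ V] where
  F : ℕ → Submodule ℂ V
  le : ∀ n, F (n + 1) ≤ F n

variable {V V' V'' : Type} [AddCommGroup V] [Module ℂ V] [AddCommGroup V'] [Module ℂ V']
  [AddCommGroup V''] [Module ℂ V'']

theorem Fil.anti (F : Fil V) {m n : ℕ} (h : m ≤ n) : F.F n ≤ F.F m := by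
  induction n, h using Nat.le_induction with
  | base => exact le_rfl
  | succ n _ ih => exact (F.le n).trans ih

/-- The Cauchy sequences. -/
def Cau (F : Fil V) : Submodule ℂ (ℕ → V) where
  carrier := {z | ∀ n, z (n + 1) - z n ∈ F.F n}
  add_mem' {z w} hz hw n := by
    have := (F.F n).add_mem (hz n) (hw n)
    convert this using 1
    simp only [Pi.add_apply]
    abel
  zero_mem' n := by simp
  smul_mem' c z hz n := by
    have := (F.F n).smul_mem c (hz n)
    rwa [smul_sub] at this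

/-- The null sequences. -/
def Nul (F : Fil V) : Submodule ℂ (ℕ → V) where
  carrier := {z | ∀ n, z n ∈ F.F n}
  add_mem' {z w} hz hw n := (F.F n).add_mem (hz n) (hw n)
  zero_mem' n := by simp
  smul_mem' c z hz n := (F.F n).smul_mem c (hz n)

/-- The completion. -/
def Cmp (F : Fil V) : Type := Cau F ⧸ (Nul F).comap (Cau F).subtype

instance (F : Fil V) : AddCommGroup (Cmp F) :=
  inferInstanceAs (AddCommGroup (Cau F ⧸ (Nul F).comap (Cau F).subtype))

instance (F : Fil V) : Module ℂ (Cmp F) :=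
  inferInstanceAs (Module ℂ (Cau F ⧸ (Nul F).comap (Cau F).subtype))

namespace Cmp

variable {F : Fil V} {F' : Fil V'} {F'' : Fil V''}

/-- The limit of a Cauchy sequence. -/
def mk (F : Fil V) : Cau F →ₗ[ℂ] Cmp F := ((Nul F).comap (Cau F).subtype).mkQ

theorem ind {P : Cmp F → Prop} (h : ∀ z, P (mk F z)) (x : Cmp F) : P x := by
  obtain ⟨z, rfl⟩ := Submodule.mkQ_surjective ((Nul F).comap (Cau F).subtype) x
  exact h z

theorem mk_eq_zero (z : Cau F) : mk F z = 0 ↔ ∀ n, z.1 n ∈ F.F n := by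
  refine (Submodule.Quotient.mk_eq_zero _).trans ?_
  rfl

theorem mk_eq (z w : Cau F) : mk F z = mk F w ↔ ∀ n, z.1 n - w.1 n ∈ F.F n := by
  rw [← sub_eq_zero, ← map_sub, mk_eq_zero]
  rfl

theorem cau (z : Cau F) {n m : ℕ} (h : n ≤ m) : z.1 m - z.1 n ∈ F.F n := by
  induction m, h using Nat.le_induction with
  | base => simp
  | succ m hm ih =>
    have := (F.F n).add_mem (F.anti hm (z.2 m)) ih
    simpa using this

/-- The constant sequences. -/
def of (F : Fil V) : V →ₗ[ℂ] Cmp F where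
  toFun x := mk F ⟨fun _ => x, fun n => by simp⟩
  map_add' x y := by
    rw [← map_add]
    rfl
  map_smul' c x := by
    rw [← map_smul]
    rfl

/-- A linear map which vanishes on `F k`, extended to the completion. -/
def lim (F : Fil V) (u : V →ₗ[ℂ] V') (k : ℕ) (h : ∀ x ∈ F.F k, u x = 0) : Cmp F →ₗ[ℂ] V' :=
  Submodule.liftQ _ ((u.comp (LinearMap.proj k)).comp (Cau F).subtype) (by
    intro z hz
    exact h _ (hz k))

theorem lim_mk (u : V →ₗ[ℂ] V') (k : ℕ) (h : ∀ x ∈ F.F k, u x = 0) (z : Cau F) :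
    lim F u k h (mk F z) = u (z.1 k) := rfl

theorem lim_of (u : V →ₗ[ℂ] V') (k : ℕ) (h : ∀ x ∈ F.F k, u x = 0) (x : V) :
    lim F u k h (of F x) = u x := rfl

end Cmp

/-- A convergent sequence of operators of bounded order. -/
structure Op (F : Fil V) (F' : Fil V') where
  S : ℕ → V →ₗ[ℂ] V'
  k : ℕ
  c : ℕ
  bd : ∀ N n x, x ∈ F.F (n + k) → S N x ∈ F'.F n
  cau : ∀ N n x, n + c ≤ N → S (N + 1) x - S N x ∈ F'.F n

namespace Op

variable {F : Fil V} {F' : Fil V'} {F'' : Fil V''}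

/-- The image of a Cauchy sequence. -/
def onCau (S : Op F F') : Cau F →ₗ[ℂ] Cau F' where
  toFun z := ⟨fun n => S.S (n + S.c) (z.1 (n + S.k)), fun n => by
    have h1 : S.S (n + 1 + S.c) (z.1 (n + 1 + S.k) - z.1 (n + S.k)) ∈ F'.F n := by
      refine S.bd _ _ _ ?_
      have := z.2 (n + S.k)
      rwa [show n + S.k + 1 = n + 1 + S.k by omega] at this
    have h2 := S.cau (n + S.c) n (z.1 (n + S.k)) le_rfl
    rw [show n + S.c + 1 = n + 1 + S.c by omega] at h2
    have := (F'.F n).add_mem h1 h2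
    rw [map_sub] at this
    convert this using 1
    abel⟩
  map_add' z w := by
    apply Subtype.ext
    funext n
    exact map_add _ _ _
  map_smul' c z := by
    apply Subtype.ext
    funext n
    exact map_smul _ _ _

/-- The operator on the completions. -/
def map (S : Op F F') : Cmp F →ₗ[ℂ] Cmp F' :=
  Submodule.mapQ _ _ S.onCau (by
    intro z hz n
    exact S.bd _ _ _ (hz _))

theorem map_mk (S : Op F F') (z : Cau F) : S.map (Cmp.mk F z) = Cmp.mk F' (S.onCau z) := rfl

theorem cau' (S : Op F F') {N M n : ℕ} (x : V) (h : n + S.c ≤ N) (h' : N ≤ M) :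
    S.S M x - S.S N x ∈ F'.F n := by
  induction M, h' using Nat.le_induction with
  | base => simp
  | succ M hM ih =>
    have := (F'.F n).add_mem (S.cau M n x (h.trans hM)) ih
    simpa using this

/-- The value of the limit can be computed with any sufficiently large indices. -/
theorem onCau_sub (S : Op F F') (z : Cau F) {N m n : ℕ} (hN : n + S.c ≤ N) (hm : n + S.k ≤ m) :
    S.S N (z.1 m) - (S.onCau z).1 n ∈ F'.F n := by
  have h1 : S.S N (z.1 m - z.1 (n + S.k)) ∈ F'.F n := S.bd _ _ _ (Cmp.cau z hm)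
  have h2 := S.cau' (z.1 (n + S.k)) le_rfl hN
  have := (F'.F n).add_mem h1 h2
  rw [map_sub] at this
  convert this using 1
  simp only [onCau, LinearMap.coe_mk, AddHom.coe_mk]
  abel

/-- Two operators which are congruent induce the same map. -/
theorem map_eq (S T : Op F F') (h : ∀ n, ∃ N₀, ∀ N, N₀ ≤ N → ∀ x, S.S N x - T.S N x ∈ F'.F n) :
    S.map = T.map := by
  apply LinearMap.ext
  intro x
  induction x using Cmp.ind with
  | h z =>
    rw [map_mk, map_mk, Cmp.mk_eq]
    intro n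
    obtain ⟨N₀, hN⟩ := h n
    have h1 := S.onCau_sub z (N := N₀ + (n + S.c) + (n + T.c)) (m := n + S.k + T.k) (n := n)
      (by omega) (by omega)
    have h2 := T.onCau_sub z (N := N₀ + (n + S.c) + (n + T.c)) (m := n + S.k + T.k) (n := n)
      (by omega) (by omega)
    have h3 := hN (N₀ + (n + S.c) + (n + T.c)) (by omega) (z.1 (n + S.k + T.k))
    have := (F'.F n).add_mem ((F'.F n).sub_mem h2 h1) h3
    convert this using 1
    abel

/-- The composition. -/
def comp (T : Op F' F'') (S : Op F F') : Op F F'' where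
  S N := (T.S N).comp (S.S N)
  k := T.k + S.k
  c := T.k + S.c + T.c
  bd N n x hx := T.bd _ _ _ (S.bd _ _ _ (by rwa [add_assoc]))
  cau N n x h := by
    have h1 : T.S (N + 1) (S.S (N + 1) x - S.S N x) ∈ F''.F n :=
      T.bd _ _ _ (S.cau _ _ _ (by omega))
    have h2 : T.S (N + 1) (S.S N x) - T.S N (S.S N x) ∈ F''.F n := T.cau _ _ _ (by omega)
    have := (F''.F n).add_mem h1 h2
    rw [map_sub] at this
    convert this using 1
    simp only [LinearMap.comp_apply]
    abel

theorem comp_map (T : Op F' F'') (S : Op F F') : (T.comp S).map = T.map ∘ₗ S.map := by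
  apply LinearMap.ext
  intro x
  induction x using Cmp.ind with
  | h z =>
    rw [LinearMap.comp_apply, map_mk, map_mk, map_mk, Cmp.mk_eq]
    intro n
    have h1 := (T.comp S).onCau_sub z (n := n) (N := n + T.k + S.c + T.c) (m := n + T.k + S.k)
      (by simp only [comp]; omega) (by simp only [comp]; omega)
    have h2 := T.onCau_sub (S.onCau z) (n := n) (N := n + T.k + S.c + T.c) (m := n + T.k)
      (by omega) (by omega)
    have h3 := T.bd (n + T.k + S.c + T.c) n _
      (S.onCau_sub z (n := n + T.k) (N := n + T.k + S.c + T.c) (m := n + T.k + S.k)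
      (by omega) (by omega))
    have := (F''.F n).add_mem ((F''.F n).add_mem h2 h3) ((F''.F n).neg_mem h1)
    rw [map_sub] at this
    convert this using 1
    simp only [comp, LinearMap.comp_apply]
    abel

/-- A single operator of bounded order. -/
def cst (u : V →ₗ[ℂ] V') (k : ℕ) (h : ∀ n x, x ∈ F.F (n + k) → u x ∈ F'.F n) : Op F F' where
  S _ := u
  k := k
  c := 0
  bd _ := h
  cau N n x _ := by simp

theorem cst_map_of (u : V →ₗ[ℂ] V') (k : ℕ) (h : ∀ n x, x ∈ F.F (n + k) → u x ∈ F'.F n) (x : V) :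
    (cst u k h).map (Cmp.of F x) = Cmp.of F' (u x) := rfl

/-- The sum. -/
def add (S T : Op F F') : Op F F' where
  S N := S.S N + T.S N
  k := S.k + T.k
  c := S.c + T.c
  bd N n x hx := (F'.F n).add_mem (S.bd _ _ _ (F.anti (by omega) hx))
    (T.bd _ _ _ (F.anti (by omega) hx))
  cau N n x h := by
    have := (F'.F n).add_mem (S.cau N n x (by omega)) (T.cau N n x (by omega))
    convert this using 1
    simp only [LinearMap.add_apply]
    abel

theorem add_map (S T : Op F F') : (S.add T).map = S.map + T.map := by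
  apply LinearMap.ext
  intro x
  induction x using Cmp.ind with
  | h z =>
    rw [LinearMap.add_apply, map_mk, map_mk, map_mk, ← map_add, Cmp.mk_eq]
    intro n
    have h1 := (S.add T).onCau_sub z (n := n) (N := n + S.c + T.c) (m := n + S.k + T.k)
      (by simp only [add]; omega) (by simp only [add]; omega)
    have h2 := S.onCau_sub z (n := n) (N := n + S.c + T.c) (m := n + S.k + T.k)
      (by omega) (by omega)
    have h3 := T.onCau_sub z (n := n) (N := n + S.c + T.c) (m := n + S.k + T.k)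
      (by omega) (by omega)
    have := (F'.F n).add_mem ((F'.F n).add_mem h2 h3) ((F'.F n).neg_mem h1)
    convert this using 1
    simp only [add, LinearMap.add_apply, Submodule.coe_add, Pi.add_apply]
    abel

theorem lim_map (S : Op F F') (u : V' →ₗ[ℂ] V'') (k : ℕ) (h : ∀ x ∈ F'.F k, u x = 0)
    (z : Cau F) {N m : ℕ} (hN : k + S.c ≤ N) (hm : k + S.k ≤ m) :
    Cmp.lim F' u k h (S.map (Cmp.mk F z)) = u (S.S N (z.1 m)) := by
  rw [map_mk, Cmp.lim_mk, eq_comm, ← sub_eq_zero, ← map_sub]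
  exact h _ (S.onCau_sub z hN hm)

end Op

/-- The operators of bounded order. -/
def Bdd (F : Fil V) (F' : Fil V') (u : V →ₗ[ℂ] V') : Prop :=
  ∃ k, ∀ n x, x ∈ F.F (n + k) → u x ∈ F'.F n

section Bdd

variable {F : Fil V} {F' : Fil V'} {F'' : Fil V''}

theorem Bdd.add {u w : V →ₗ[ℂ] V'} (hu : Bdd F F' u) (hw : Bdd F F' w) : Bdd F F' (u + w) := by
  obtain ⟨k, hk⟩ := hu
  obtain ⟨l, hl⟩ := hw
  exact ⟨k + l, fun n x hx => (F'.F n).add_mem (hk n x (F.anti (by omega) hx))
    (hl n x (F.anti (by omega) hx))⟩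

theorem Bdd.smul {u : V →ₗ[ℂ] V'} (hu : Bdd F F' u) (c : ℂ) : Bdd F F' (c • u) := by
  obtain ⟨k, hk⟩ := hu
  exact ⟨k, fun n x hx => (F'.F n).smul_mem c (hk n x hx)⟩

theorem Bdd.neg {u : V →ₗ[ℂ] V'} (hu : Bdd F F' u) : Bdd F F' (-u) := by
  obtain ⟨k, hk⟩ := hu
  exact ⟨k, fun n x hx => (F'.F n).neg_mem (hk n x hx)⟩

theorem Bdd.sub {u w : V →ₗ[ℂ] V'} (hu : Bdd F F' u) (hw : Bdd F F' w) : Bdd F F' (u - w) := by
  rw [sub_eq_add_neg]
  exact hu.add hw.neg

theorem Bdd.zero : Bdd F F' (0 : V →ₗ[ℂ] V') := ⟨0, fun n x _ => (F'.F n).zero_mem⟩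

theorem Bdd.id : Bdd F F (LinearMap.id : V →ₗ[ℂ] V) := ⟨0, fun _ _ hx => hx⟩

theorem Bdd.comp {u : V →ₗ[ℂ] V'} {w : V' →ₗ[ℂ] V''} (hw : Bdd F' F'' w) (hu : Bdd F F' u) :
    Bdd F F'' (w ∘ₗ u) := by
  obtain ⟨k, hk⟩ := hu
  obtain ⟨l, hl⟩ := hw
  exact ⟨l + k, fun n x hx => hl n _ (hk _ _ (by rwa [add_assoc]))⟩

theorem Bdd.sum {ι : Type} (s : Finset ι) {u : ι → V →ₗ[ℂ] V'} (h : ∀ i ∈ s, Bdd F F' (u i)) :
    Bdd F F' (∑ i ∈ s, u i) := by
  classical
  induction s using Finset.induction_on with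
  | empty => exact Bdd.zero
  | insert a s ha ih =>
    rw [Finset.sum_insert ha]
    exact (h a (Finset.mem_insert_self a s)).add
      (ih fun i hi => h i (Finset.mem_insert_of_mem hi))

/-- The extension of an operator of bounded order to the completions. -/
def lift (u : V →ₗ[ℂ] V') (h : Bdd F F' u) : Cmp F →ₗ[ℂ] Cmp F' :=
  (Op.cst u h.choose h.choose_spec).map

theorem cst_map (u : V →ₗ[ℂ] V') (h : Bdd F F' u) (k : ℕ)
    (hk : ∀ n x, x ∈ F.F (n + k) → u x ∈ F'.F n) : (Op.cst u k hk).map = lift u h :=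
  Op.map_eq _ _ fun n => ⟨0, fun N _ x => by simp [Op.cst]⟩

theorem lift_congr {u w : V →ₗ[ℂ] V'} (e : u = w) (hu : Bdd F F' u) (hw : Bdd F F' w) :
    lift u hu = lift w hw := by
  subst e
  rfl

theorem lift_mk (u : V →ₗ[ℂ] V') (h : Bdd F F' u) (z : Cau F) (k : ℕ)
    (hk : ∀ n x, x ∈ F.F (n + k) → u x ∈ F'.F n) :
    lift u h (Cmp.mk F z) = Cmp.mk F' ((Op.cst u k hk).onCau z) := by
  rw [← cst_map u h k hk]
  rfl

theorem lift_of (u : V →ₗ[ℂ] V') (h : Bdd F F' u) (x : V) :
    lift u h (Cmp.of F x) = Cmp.of F' (u x) := rfl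

theorem lift_id : lift (LinearMap.id : V →ₗ[ℂ] V) (Bdd.id (F := F)) = LinearMap.id := by
  rw [← cst_map LinearMap.id Bdd.id 0 (fun _ _ hx => hx)]
  apply LinearMap.ext
  intro x
  induction x using Cmp.ind with
  | h z => rfl

theorem lift_comp (w : V' →ₗ[ℂ] V'') (hw : Bdd F' F'' w) (u : V →ₗ[ℂ] V') (hu : Bdd F F' u) :
    lift (w ∘ₗ u) (hw.comp hu) = lift w hw ∘ₗ lift u hu := by
  unfold lift
  rw [← Op.comp_map]
  exact Op.map_eq _ _ fun n => ⟨0, fun N _ x => by simp [Op.cst, Op.comp]⟩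

theorem lift_comp_apply (w : V' →ₗ[ℂ] V'') (hw : Bdd F' F'' w) (u : V →ₗ[ℂ] V')
    (hu : Bdd F F' u) (x : Cmp F) : lift w hw (lift u hu x) = lift (w ∘ₗ u) (hw.comp hu) x := by
  rw [lift_comp]
  rfl

theorem lift_add (w : V →ₗ[ℂ] V') (hw : Bdd F F' w) (u : V →ₗ[ℂ] V') (hu : Bdd F F' u) :
    lift (w + u) (hw.add hu) = lift w hw + lift u hu := by
  unfold lift
  rw [← Op.add_map]
  exact Op.map_eq _ _ fun n => ⟨0, fun N _ _ => by simp [Op.cst, Op.add]⟩

theorem lift_zero : lift (0 : V →ₗ[ℂ] V') (Bdd.zero (F := F) (F' := F')) = 0 := by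
  have h := lift_add (0 : V →ₗ[ℂ] V') (Bdd.zero (F := F) (F' := F')) 0 Bdd.zero
  rw [lift_congr (add_zero 0) (Bdd.zero.add Bdd.zero) (Bdd.zero (F := F) (F' := F'))] at h
  exact left_eq_add.1 h

theorem zero_map (S : Op F F') (h : ∀ n, ∃ N₀, ∀ N, N₀ ≤ N → ∀ x, S.S N x ∈ F'.F n) :
    S.map = 0 := by
  rw [← lift_zero]
  refine Op.map_eq _ _ fun n => ?_
  obtain ⟨N₀, hN⟩ := h n
  exact ⟨N₀, fun N hN' x => by simpa [Op.cst] using hN N hN' x⟩

theorem lift_smul (c : ℂ) (u : V →ₗ[ℂ] V') (hu : Bdd F F' u) :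
    lift (c • u) (hu.smul c) = c • lift u hu := by
  apply LinearMap.ext
  intro x
  induction x using Cmp.ind with
  | h z =>
    obtain ⟨k, hk⟩ := id hu
    rw [LinearMap.smul_apply, lift_mk u hu z k hk,
      lift_mk (c • u) (hu.smul c) z k (fun n x hx => (F'.F n).smul_mem c (hk n x hx)),
      ← map_smul]
    rfl

theorem lift_neg (u : V →ₗ[ℂ] V') (hu : Bdd F F' u) : lift (-u) hu.neg = -lift u hu := by
  rw [lift_congr (neg_one_smul ℂ u).symm hu.neg (hu.smul _), lift_smul, neg_one_smul]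

theorem lift_sub (w : V →ₗ[ℂ] V') (hw : Bdd F F' w) (u : V →ₗ[ℂ] V') (hu : Bdd F F' u) :
    lift (w - u) (hw.sub hu) = lift w hw - lift u hu := by
  rw [lift_congr (sub_eq_add_neg w u) (hw.sub hu) (hw.add hu.neg), lift_add w hw (-u) hu.neg,
    lift_neg, sub_eq_add_neg]

theorem lift_sum {ι : Type} (s : Finset ι) {u : ι → V →ₗ[ℂ] V'} (h : ∀ i, Bdd F F' (u i)) :
    lift (∑ i ∈ s, u i) (Bdd.sum s fun i _ => h i) = ∑ i ∈ s, lift (u i) (h i) := by
  classical
  induction s using Finset.induction_on with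
  | empty => exact lift_zero
  | insert a s ha ih =>
    refine Eq.trans ?_ (Finset.sum_insert ha).symm
    rw [← ih, ← lift_add]
    exact lift_congr (Finset.sum_insert ha) _ _

/-- The extension to the completions and the limits. -/
theorem lim_lift (u : V →ₗ[ℂ] V') (hu : Bdd F F' u) (w : V' →ₗ[ℂ] V'') (k : ℕ)
    (h : ∀ x ∈ F'.F k, w x = 0) (w' : V →ₗ[ℂ] V'') (l : ℕ) (h' : ∀ x ∈ F.F l, w' x = 0)
    (e : w ∘ₗ u = w') (x : Cmp F) : Cmp.lim F' w k h (lift u hu x) = Cmp.lim F w' l h' x := by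
  induction x using Cmp.ind with
  | h z =>
    unfold lift
    rw [Op.lim_map (Op.cst u hu.choose hu.choose_spec) w k h z (N := k) (m := k + hu.choose + l)
      le_rfl (by simp only [Op.cst]; omega), Cmp.lim_mk]
    change (w ∘ₗ u) _ = _
    rw [e, ← sub_eq_zero, ← map_sub]
    exact h' _ (Cmp.cau z (by omega))

end Bdd

end

end Vale.Agent.P286.H389
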