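import Vale.Agent.P286.H389.Pl
import Vale.Agent.P286.H710.OmM2

/-!
# The Poincaré lemma for the de Rham complex with coefficients
-/

namespace Vale.Agent.P286.H389

open TensorProduct H710

noncomputable section

variable {A M : Type} [CommRing A] [Algebra ℂ A] [AddCommGroup M] [Module A M]

variable (A) in
/-- The projection to the forms of degree `p`. -/
def prO (p : ℕ) : Om ℂ A →ₗ[A] Om ℂ A := GradedAlgebra.proj (fun i => ⋀[A]^i (Ω[A⁄ℂ])) p

theorem prO_mem (p : ℕ) (x : Om ℂ A) : prO A p x ∈ Om.gr ℂ A p := by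
  unfold prO
  rw [GradedAlgebra.proj_apply]
  exact SetLike.coe_mem _

theorem prO_of_mem {p : ℕ} {x : Om ℂ A} (hx : x ∈ Om.gr ℂ A p) : prO A p x = x := by
  unfold prO
  rw [GradedAlgebra.proj_apply]
  exact DirectSum.decompose_of_mem_same (fun i => ⋀[A]^i (Ω[A⁄ℂ])) hx

theorem prO_of_ne {p q : ℕ} (h : q ≠ p) {x : Om ℂ A} (hx : x ∈ Om.gr ℂ A q) :
    prO A p x = 0 := by
  unfold prO
  rw [GradedAlgebra.proj_apply]
  exact DirectSum.decompose_of_mem_ne (fun i => ⋀[A]^i (Ω[A⁄ℂ])) hx h

theorem gr_eq_bot (b : DB A) {p : ℕ} (hp : b.r < p) : Om.gr ℂ A p = ⊥ := by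
  have h1 : Submodule.span A (Set.range fun i => KaehlerDifferential.D ℂ A (b.x i)) = ⊤ := by
    rw [_root_.eq_top_iff, ← KaehlerDifferential.span_range_derivation, Submodule.span_le]
    rintro _ ⟨a, rfl⟩
    rw [b.dual a]
    exact Submodule.sum_mem _ fun i _ => Submodule.smul_mem _ _ (Submodule.subset_span ⟨i, rfl⟩)
  have h2 := exteriorPower.ιMulti_family_span_fixedDegree_of_span A (n := p) h1
  have : IsEmpty (Set.powersetCard (Fin b.r) p) := by
    refine ⟨fun s => ?_⟩
    have h3 := Finset.card_le_univ s.1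
    have h4 : s.1.card = p := s.2
    rw [Fintype.card_fin] at h3
    omega
  change ⋀[A]^p (Ω[A⁄ℂ]) = ⊥
  rw [← h2, Set.range_eq_empty, Submodule.span_empty]

theorem sum_prO (b : DB A) (x : Om ℂ A) : ∑ p ∈ Finset.range (b.r + 1), prO A p x = x := by
  classical
  have h : ∀ q, ∀ y ∈ Om.gr ℂ A q, ∑ p ∈ Finset.range (b.r + 1), prO A p y = y := by
    intro q y hy
    by_cases hq : q < b.r + 1
    · rw [Finset.sum_eq_single_of_mem q (Finset.mem_range.2 hq)
        (fun p _ hp => prO_of_ne hp.symm hy), prO_of_mem hy]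
    · rw [gr_eq_bot b (by omega)] at hy
      rw [(Submodule.mem_bot A).1 hy]
      simp
  induction x using DirectSum.Decomposition.inductionOn (fun i => ⋀[A]^i (Ω[A⁄ℂ])) with
  | zero => simp
  | homogeneous m => exact h _ _ m.2
  | add m m' h1 h2 =>
    simp only [map_add, Finset.sum_add_distrib]
    rw [h1, h2]

variable (A M) in
/-- The projection to the forms of degree `p`, with coefficients. -/
def prD (p : ℕ) : DR ℂ A M →ₗ[A] DR ℂ A M := (prO A p).rTensor M

theorem prD_mem (p : ℕ) (x : DR ℂ A M) : prD A M p x ∈ DR.gr ℂ A M p := by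
  induction x using DR.induction with
  | zero => rw [map_zero]; exact Submodule.zero_mem _
  | tmul w m => exact DR.tmul_mem (prO_mem p w) m
  | add x y hx hy => rw [map_add]; exact Submodule.add_mem _ hx hy

theorem prD_of_mem {p : ℕ} {x : DR ℂ A M} (hx : x ∈ DR.gr ℂ A M p) : prD A M p x = x := by
  induction hx using DR.gr_ind with
  | zero => rw [map_zero]
  | tmul w hw m =>
    change prO A p w ⊗ₜ m = _
    rw [prO_of_mem hw]
  | add x y _ _ hx hy => rw [map_add, hx, hy]

theorem prD_of_ne {p q : ℕ} (h : q ≠ p) {x : DR ℂ A M} (hx : x ∈ DR.gr ℂ A M q) :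
    prD A M p x = 0 := by
  induction hx using DR.gr_ind with
  | zero => rw [map_zero]
  | tmul w hw m =>
    change prO A p w ⊗ₜ m = _
    rw [prO_of_ne h hw, zero_tmul]
  | add x y _ _ hx hy => rw [map_add, hx, hy, add_zero]

theorem sum_prD (b : DB A) (x : DR ℂ A M) :
    ∑ p ∈ Finset.range (b.r + 1), prD A M p x = x := by
  induction x using DR.induction with
  | zero => simp
  | tmul w m =>
    change ∑ p ∈ Finset.range (b.r + 1), (prO A p w) ⊗ₜ[A] m = _
    rw [← sum_tmul, sum_prO]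
  | add x y hx hy =>
    simp only [map_add, Finset.sum_add_distrib]
    rw [hx, hy]

/-- A map which shifts the degrees by one commutes with the projections. -/
theorem prD_succ {N : Type} [AddCommGroup N] [Module A N] (b : DB A) (u : DR ℂ A M →+ DR ℂ A N)
    (h : ∀ q, ∀ x ∈ DR.gr ℂ A M q, u x ∈ DR.gr ℂ A N (q + 1)) (p : ℕ) (x : DR ℂ A M) :
    u (prD A M p x) = prD A N (p + 1) (u x) := by
  have h1 : ∀ q, q ≠ p → prD A N (p + 1) (u (prD A M q x)) = 0 := fun q hq =>
    prD_of_ne (by omega) (h q _ (prD_mem q x))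
  have h2 : prD A N (p + 1) (u (prD A M p x)) = u (prD A M p x) :=
    prD_of_mem (h p _ (prD_mem p x))
  conv_rhs => rw [← sum_prD b x, map_sum, map_sum]
  by_cases hp : p ∈ Finset.range (b.r + 1)
  · rw [Finset.sum_eq_single_of_mem p hp fun q _ hq => h1 q hq, h2]
  · rw [Finset.sum_eq_zero]
    · have h3 : prD A M p x ∈ DR.gr ℂ A M p := prD_mem p x
      have h4 := sum_prD b (prD A M p x)
      rw [Finset.sum_eq_zero] at h4
      · rw [← h4, map_zero]
      · intro q hq
        exact prD_of_ne (fun e => hp (by rw [e]; exact hq)) h3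
    · intro q hq
      exact h1 q (fun e => hp (by rw [← e]; exact hq))

/-- A map which lowers the degrees by one commutes with the projections. -/
theorem prD_pred {N : Type} [AddCommGroup N] [Module A N] (b : DB A) (u : DR ℂ A M →+ DR ℂ A N)
    (h : ∀ q, ∀ x ∈ DR.gr ℂ A M (q + 1), u x ∈ DR.gr ℂ A N q)
    (h0 : ∀ x ∈ DR.gr ℂ A M 0, u x = 0) (p : ℕ) (x : DR ℂ A M) :
    u (prD A M (p + 1) x) = prD A N p (u x) := by
  have h1 : ∀ q, q ≠ p + 1 → prD A N p (u (prD A M q x)) = 0 := by
    intro q hq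
    rcases q with _ | q
    · rw [h0 _ (prD_mem 0 x), map_zero]
    · exact prD_of_ne (by omega) (h q _ (prD_mem (q + 1) x))
  have h2 : prD A N p (u (prD A M (p + 1) x)) = u (prD A M (p + 1) x) :=
    prD_of_mem (h p _ (prD_mem (p + 1) x))
  conv_rhs => rw [← sum_prD b x, map_sum, map_sum]
  by_cases hp : p + 1 ∈ Finset.range (b.r + 1)
  · rw [Finset.sum_eq_single_of_mem (p + 1) hp fun q _ hq => h1 q hq, h2]
  · rw [Finset.sum_eq_zero]
    · have h3 : prD A M (p + 1) x ∈ DR.gr ℂ A M (p + 1) := prD_mem (p + 1) x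
      have h4 := sum_prD b (prD A M (p + 1) x)
      rw [Finset.sum_eq_zero] at h4
      · rw [← h4, map_zero]
      · intro q hq
        exact prD_of_ne (fun e => hp (by rw [e]; exact hq)) h3
    · intro q hq
      exact h1 q (fun e => hp (by rw [← e]; exact hq))

/-- A map which preserves the degrees commutes with the projections. -/
theorem prD_same {B N : Type} [CommRing B] [Algebra ℂ B] [AddCommGroup N] [Module B N] (b : DB A)
    (u : DR ℂ A M →+ DR ℂ B N)
    (h : ∀ q, ∀ x ∈ DR.gr ℂ A M q, u x ∈ DR.gr ℂ B N q) (p : ℕ) (x : DR ℂ A M) :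
    u (prD A M p x) = prD B N p (u x) := by
  have h1 : ∀ q, q ≠ p → prD B N p (u (prD A M q x)) = 0 := fun q hq =>
    prD_of_ne (by omega) (h q _ (prD_mem q x))
  have h2 : prD B N p (u (prD A M p x)) = u (prD A M p x) :=
    prD_of_mem (h p _ (prD_mem p x))
  conv_rhs => rw [← sum_prD b x, map_sum, map_sum]
  by_cases hp : p ∈ Finset.range (b.r + 1)
  · rw [Finset.sum_eq_single_of_mem p hp fun q _ hq => h1 q hq, h2]
  · rw [Finset.sum_eq_zero]
    · have h3 : prD A M p x ∈ DR.gr ℂ A M p := prD_mem p x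
      have h4 := sum_prD b (prD A M p x)
      rw [Finset.sum_eq_zero] at h4
      · rw [← h4, map_zero]
      · intro q hq
        exact prD_of_ne (fun e => hp (by rw [e]; exact hq)) h3
    · intro q hq
      exact h1 q (fun e => hp (by rw [← e]; exact hq))

/-- The dual basis, in the other letters. -/
abbrev DB.to (b : DB A) : H710.DB ℂ A := ⟨b.r, b.x, b.v, b.dual⟩

theorem dR_smulC (b : DB A) (C : FC ℂ A M) (c : ℂ) (y : DR ℂ A M) :
    dR b.to C (c • y) = c • dR b.to C y := by
  have h : ∀ y : DR ℂ A M, c • y = (algebraMap A (Om ℂ A) (algebraMap ℂ A c)) • y := by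
    intro y
    rw [algebraMap_smul, algebraMap_smul]
  rw [h, h, dR_smul, Om.d_algebraMap, Om.dd, Derivation.map_algebraMap, map_zero, zero_smul,
    zero_add, Om.sg.commutes]

/-- The product with a form. -/
def omL (w : Om ℂ A) : DR ℂ A M →ₗ[ℂ] DR ℂ A M where
  toFun x := w • x
  map_add' := smul_add w
  map_smul' c x := by
    have h : ∀ y : DR ℂ A M, c • y = (algebraMap ℂ A c) • y := fun y =>
      (algebraMap_smul A c y).symm
    rw [RingHom.id_apply, h, h]
    induction x using DR.induction with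
    | zero => simp
    | tmul u m => rw [smul_tmul', smul_tmul', smul_eq_mul, smul_tmul', smul_eq_mul,
        mul_smul_comm, smul_tmul']
    | add x y hx hy => rw [smul_add, smul_add, hx, hy, smul_add, smul_add]

theorem omL_apply (w : Om ℂ A) (x : DR ℂ A M) : omL w x = w • x := rfl

theorem omL_lin (w : Om ℂ A) (a : A) (x : DR ℂ A M) : w • (a • x) = a • (w • x) := by
  induction x using DR.induction with
  | zero => simp
  | tmul u m => rw [smul_tmul', smul_tmul', smul_eq_mul, smul_tmul', smul_eq_mul,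
      mul_smul_comm, smul_tmul']
  | add x y hx hy => rw [smul_add, smul_add, hx, hy, smul_add, smul_add]

/-- The de Rham complex with coefficients, as a module with the operators of forms. -/
def ctn (b : DB A) (C : FC ℂ A M) : Ctn A (DR ℂ A M) where
  nb :=
    { toFun := dR b.to C
      map_add' := map_add _
      map_smul' := dR_smulC b C }
  nn x := dR_dR (by
    have : (2 : A) = algebraMap ℂ A 2 := (map_ofNat (algebraMap ℂ A) 2).symm
    rw [this]
    exact (IsUnit.mk0 (2 : ℂ) two_ne_zero).map (algebraMap ℂ A)) b.to C x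
  ep a := omL (Om.dd a)
  ep_lin a c x := omL_lin _ _ _
  io v := (ctM v).restrictScalars ℂ
  io_lin v a x := map_smul (ctM v) a x
  pr p := (prD A M p).restrictScalars ℂ
  pr_lin p a x := map_smul (prD A M p) a x
  pr_pr p x := prD_of_mem (prD_mem p x)
  comm a x := by
    change dR b.to C (a • x) = a • dR b.to C x + (Om.dd a : Om ℂ A) • x
    have h : ∀ y : DR ℂ A M, a • y = (algebraMap A (Om ℂ A) a) • y := fun y =>
      (algebraMap_smul (Om ℂ A) a y).symm
    rw [h, h, dR_smul, Om.d_algebraMap, Om.sg.commutes, add_comm]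
  io_ep v a x := ctM_dd_smul v a x
  euler r x v h p y := by
    have := sum_dd_ctM (⟨r, x, v, h⟩ : H710.DB ℂ A) (prD_mem p y)
    refine this.trans ?_
    rw [Nat.cast_smul_eq_nsmul]
    rfl
  r := b.r + 1
  sum_pr x := sum_prD b x
  nb_pr p x := prD_succ b (dR b.to C) (fun q x hx => dR_mem b.to C hx) p x
  io_pr v p x := prD_pred b (ctM v).toAddMonoidHom (fun q x hx => ctM_mem v hx)
    (fun x hx => ctM_gr_zero v hx) p x
  io_pr0 v x := ctM_gr_zero v (prD_mem 0 x)
  pr0_nb x := by
    change prD A M 0 (dR b.to C x) = 0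
    rw [← sum_prD b x, map_sum, map_sum]
    exact Finset.sum_eq_zero fun p _ => prD_of_ne (Nat.succ_ne_zero p)
      (dR_mem b.to C (prD_mem p x))

/-- The inclusion of the forms of degree `0`. -/
def inM : M →+ DR ℂ A M where
  toFun m := 1 ⊗ₜ m
  map_zero' := tmul_zero _ _
  map_add' := tmul_add _

variable (A M) in
/-- The retraction to the forms of degree `0`. -/
def outM : DR ℂ A M →ₗ[A] M :=
  (TensorProduct.lid A M).toLinearMap ∘ₗ
    (ExteriorAlgebra.algebraMapInv (R := A) (M := Ω[A⁄ℂ])).toLinearMap.rTensor M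

theorem outM_tmul (w : Om ℂ A) (m : M) :
    outM A M (w ⊗ₜ m) = ExteriorAlgebra.algebraMapInv (R := A) (M := Ω[A⁄ℂ]) w • m := rfl

theorem outM_inM (m : M) : outM A M (inM m) = m := by
  change outM A M (1 ⊗ₜ m) = m
  rw [outM_tmul, map_one, one_smul]

theorem inM_inj : Function.Injective (inM : M →+ DR ℂ A M) :=
  Function.LeftInverse.injective outM_inM

theorem pr_inM (m : M) : prD A M 0 (inM m) = inM m := prD_of_mem (DR.one_tmul_mem m)

theorem inM_outM {x : DR ℂ A M} (hx : x ∈ DR.gr ℂ A M 0) : inM (outM A M x) = x := by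
  induction hx using DR.gr_ind with
  | zero => rw [map_zero, map_zero]
  | tmul w hw m =>
    obtain ⟨a, rfl⟩ := Om.gr_zero hw
    rw [outM_tmul, AlgHom.commutes]
    change (1 : Om ℂ A) ⊗ₜ[A] ((algebraMap A A a) • m) = _
    rw [Algebra.algebraMap_self, RingHom.id_apply, ← smul_tmul, Algebra.algebraMap_eq_smul_one]
  | add x y _ _ hx hy => rw [map_add, map_add, hx, hy]

theorem inM_smul (a : A) (m : M) : (inM (a • m) : DR ℂ A M) = a • inM m := tmul_smul _ _ _

section Taylor

variable (b : DB A) (C : FC ℂ A M)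

/-- The Taylor series of the elements of a module with a flat connection. -/
def toJ : M →+ J A (DR ℂ A M) := ((ctn b C).T b).toAddMonoidHom.comp inM

theorem toJ_apply (m : M) : toJ b C m = (ctn b C).T b (inM m) := rfl

theorem ev_toJ (m : M) : J.ev (toJ b C m) = inM m := by
  rw [toJ_apply, Ctn.ev_T]
  exact pr_inM m

theorem D_toJ (m : M) : (ctn b C).D (toJ b C m) = 0 := Ctn.D_T _ _ _

theorem toJ_inj : Function.Injective (toJ b C) := fun m m' h => by
  have := congrArg J.ev h
  rw [ev_toJ, ev_toJ] at this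
  exact inM_inj this

theorem toJ_fn (a : A) (m : M) : toJ b C (a • m) = J.fn a (toJ b C m) := by
  rw [toJ_apply, inM_smul, Ctn.T_fn]
  rfl

theorem toJ_vf (v : Derivation ℂ A A) (m : M) : toJ b C (C.act v m) = J.vf v (toJ b C m) := by
  rw [toJ_apply, toJ_apply, Ctn.T_vf]
  congr 1
  change _ = ctM v (dR b.to C (prD A M 0 (inM m)))
  rw [pr_inM]
  change _ = ctM v (dR b.to C ((1 : Om ℂ A) ⊗ₜ[A] m))
  rw [dR_tmul]
  have h1 : Om.d (1 : Om ℂ A) = 0 := by
    rw [← map_one (algebraMap A (Om ℂ A)), Om.d_algebraMap, Om.dd, Derivation.map_one_eq_zero,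
      map_zero]
  rw [h1, zero_tmul, map_one, one_smul, zero_add, ctM_nab]
  rfl

/-- The homotopy formula. -/
theorem htpy_toJ (x : J A (DR ℂ A M)) :
    (ctn b C).D ((ctn b C).s b x) + (ctn b C).s b ((ctn b C).D x) =
      x - toJ b C (outM A M (prD A M 0 (J.ev x))) := by
  rw [Ctn.htpy', toJ_apply, inM_outM (prD_mem 0 _)]
  congr 1
  exact ((ctn b C).T_pr b _).symm

variable {B N : Type} [CommRing B] [Algebra ℂ B] [AddCommGroup N] [Module B N]

theorem pbT_smulC (f : A →ₐ[ℂ] B) (t : M →+ N) (ht : ∀ (a : A) m, t (a • m) = f a • t m) (c : ℂ)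
    (y : DR ℂ A M) : pbT f t ht (c • y) = c • pbT f t ht y := by
  have h : ∀ y : DR ℂ A M, c • y = (algebraMap A (Om ℂ A) (algebraMap ℂ A c)) • y := by
    intro y
    rw [algebraMap_smul, algebraMap_smul]
  have h' : ∀ y : DR ℂ B N, c • y = (algebraMap B (Om ℂ B) (algebraMap ℂ B c)) • y := by
    intro y
    rw [algebraMap_smul, algebraMap_smul]
  rw [h, h', pbT_smul, Om.pb_alg, AlgHom.commutes]

/-- The pull-back of forms with coefficients, as a linear map. -/
def pbL (f : A →ₐ[ℂ] B) (t : M →+ N) (ht : ∀ (a : A) m, t (a • m) = f a • t m) :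
    DR ℂ A M →ₗ[ℂ] DR ℂ B N where
  toFun := pbT f t ht
  map_add' := map_add _
  map_smul' := pbT_smulC f t ht

theorem pbL_lin (f : A →ₐ[ℂ] B) (t : M →+ N) (ht : ∀ (a : A) m, t (a • m) = f a • t m) (a : A)
    (x : DR ℂ A M) : pbL f t ht (a • x) = f a • pbL f t ht x := by
  have h : ∀ y : DR ℂ A M, a • y = (algebraMap A (Om ℂ A) a) • y := fun y =>
    (algebraMap_smul (Om ℂ A) a y).symm
  have h' : ∀ y : DR ℂ B N, f a • y = (algebraMap B (Om ℂ B) (f a)) • y := fun y =>
    (algebraMap_smul (Om ℂ B) (f a) y).symm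
  change pbT f t ht (a • x) = f a • pbT f t ht x
  rw [h, h', pbT_smul, Om.pb_alg]

/-- The Taylor series is natural. -/
theorem toJ_nat (b' : DB B) (C' : FC ℂ B N) (f : A →ₐ[ℂ] B) (t : M →+ N)
    (ht : ∀ (a : A) m, t (a • m) = f a • t m) (hor : Hor f C C' t) (m : M) :
    J.pull f (pbL f t ht) (pbL_lin f t ht) (toJ b C m) = toJ b' C' (t m) := by
  rw [toJ_apply, toJ_apply, (ctn b C).T_nat (ctn b' C') b b' f (pbL f t ht) (pbL_lin f t ht)
    (fun x => pbT_dR f t ht b.to b'.to C C' hor x)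
    (fun x => prD_same b (pbT f t ht) (fun q x hx => pbT_mem f t ht hx) 0 x)]
  congr 1
  change pbT f t ht ((1 : Om ℂ A) ⊗ₜ m) = (1 : Om ℂ B) ⊗ₜ t m
  rw [pbT_tmul, map_one]

end Taylor

end

end Vale.Agent.P286.H389
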