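import Vale.Agent.P286.H389.Cmp
import Vale.Agent.P286.St.Alg

/-!
# The completed jets `J_A(V) = lim (A ⊗ V) / Iⁿ` of a module
-/

namespace Vale.Agent.P286.H389

open TensorProduct

noncomputable section

variable {A B D : Type} [CommRing A] [Algebra ℂ A] [CommRing B] [Algebra ℂ B]
  [CommRing D] [Algebra ℂ D]

section Basic

set_option linter.unusedSectionVars false

variable (A) (V : Type) [AddCommGroup V] [Module ℂ V] [Module A V] [IsScalarTower ℂ A V]

/-- The action of `A` on the second factor of `A ⊗ V`. -/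
def rt (a : A) : A ⊗[ℂ] V →ₗ[ℂ] A ⊗[ℂ] V :=
  LinearMap.lTensor A (Algebra.lsmul ℂ ℂ V a)

/-- The action of `A` on the first factor of `A ⊗ V`. -/
def lf (a : A) : A ⊗[ℂ] V →ₗ[ℂ] A ⊗[ℂ] V := LinearMap.rTensor V (LinearMap.mulLeft ℂ a)

/-- The operator `1 ⊗ a - a ⊗ 1`. -/
def tt (a : A) : A ⊗[ℂ] V →ₗ[ℂ] A ⊗[ℂ] V := rt A V a - lf A V a

variable {A V}

@[simp]
theorem rt_tmul (a b : A) (x : V) : rt A V a (b ⊗ₜ x) = b ⊗ₜ (a • x) := rfl

@[simp]
theorem lf_tmul (a b : A) (x : V) : lf A V a (b ⊗ₜ x) = (a * b) ⊗ₜ x := rfl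

theorem tt_apply (a : A) (x : A ⊗[ℂ] V) : tt A V a x = rt A V a x - lf A V a x := rfl

variable (A V)

/-- The filtration `Iⁿ (A ⊗ V)`. -/
def Fj : ℕ → Submodule ℂ (A ⊗[ℂ] V)
  | 0 => ⊤
  | n + 1 => ⨆ a : A, (Fj n).map (tt A V a)

variable {A V}

theorem tt_mem (a : A) {n : ℕ} {x : A ⊗[ℂ] V} (h : x ∈ Fj A V n) : tt A V a x ∈ Fj A V (n + 1) :=
  Submodule.mem_iSup_of_mem (p := fun a => (Fj A V n).map (tt A V a)) a
    (Submodule.mem_map_of_mem h)

/-- Induction for the elements of `I^(n+1) (A ⊗ V)`. -/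
theorem Fj_le {n : ℕ} {W : Type} [AddCommGroup W] [Module ℂ W] {u : A ⊗[ℂ] V →ₗ[ℂ] W}
    {G : Submodule ℂ W} (h : ∀ (a : A) (x : A ⊗[ℂ] V), x ∈ Fj A V n → u (tt A V a x) ∈ G)
    (x : A ⊗[ℂ] V) (hx : x ∈ Fj A V (n + 1)) : u x ∈ G := by
  have : Fj A V (n + 1) ≤ G.comap u := by
    refine iSup_le fun a => ?_
    rintro _ ⟨y, hy, rfl⟩
    exact h a y hy
  exact this hx

variable (A V) in
theorem Fj_succ_le (n : ℕ) : Fj A V (n + 1) ≤ Fj A V n := by
  induction n with
  | zero => exact le_top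
  | succ n ih =>
    intro x hx
    exact Fj_le (u := LinearMap.id) (fun a y hy => tt_mem a (ih hy)) x hx

variable (A V) in
/-- The filtration of `A ⊗ V` by the powers of the ideal of the diagonal. -/
def FJ : Fil (A ⊗[ℂ] V) := ⟨Fj A V, Fj_succ_le A V⟩

end Basic

section Maps

variable {V V' V'' W : Type} [AddCommGroup V] [Module ℂ V] [Module A V] [IsScalarTower ℂ A V]
  [AddCommGroup V'] [Module ℂ V'] [Module A V'] [IsScalarTower ℂ A V']
  [AddCommGroup V''] [Module ℂ V''] [Module A V''] [IsScalarTower ℂ A V'']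
  [AddCommGroup W] [Module ℂ W] [Module B W] [IsScalarTower ℂ B W]

set_option linter.unusedSectionVars false

/-- A family of operators which commute with the operators `tt` up to shift preserves the
filtration. -/
theorem mem_of_comm {f : A → B} {u : A ⊗[ℂ] V →ₗ[ℂ] B ⊗[ℂ] W}
    (h : ∀ a x, u (tt A V a x) = tt B W (f a) (u x)) {n : ℕ} (x : A ⊗[ℂ] V) (hx : x ∈ Fj A V n) :
    u x ∈ Fj B W n := by
  induction n generalizing x with
  | zero => exact Submodule.mem_top
  | succ n ih =>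
    refine Fj_le (fun a y hy => ?_) x hx
    rw [h]
    exact tt_mem _ (ih y hy)

/-- Operators whose commutators with the operators `tt` preserve the filtration have order one. -/
theorem mem_of_comm₁ {f : A → B} {u : A ⊗[ℂ] V →ₗ[ℂ] B ⊗[ℂ] W}
    (h : ∀ n a x, x ∈ Fj A V n → u (tt A V a x) - tt B W (f a) (u x) ∈ Fj B W n) {n : ℕ}
    (x : A ⊗[ℂ] V) (hx : x ∈ Fj A V (n + 1)) : u x ∈ Fj B W n := by
  induction n generalizing x with
  | zero => exact Submodule.mem_top
  | succ n ih =>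
    refine Fj_le (fun a y hy => ?_) x hx
    have h1 := h _ a y hy
    have h2 := tt_mem (f a) (ih y hy)
    have := (Fj B W (n + 1)).add_mem h1 h2
    simpa using this

/-- Operators whose commutators with the operators `tt` raise the filtration preserve it. -/
theorem mem_of_comm₂ {f : A → B} {u : A ⊗[ℂ] V →ₗ[ℂ] B ⊗[ℂ] W}
    (h : ∀ n a x, x ∈ Fj A V n → u (tt A V a x) - tt B W (f a) (u x) ∈ Fj B W (n + 1)) {n : ℕ}
    (x : A ⊗[ℂ] V) (hx : x ∈ Fj A V n) : u x ∈ Fj B W n := by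
  induction n generalizing x with
  | zero => exact Submodule.mem_top
  | succ n ih =>
    refine Fj_le (fun a y hy => ?_) x hx
    have h1 := h _ a y hy
    have h2 := tt_mem (f a) (ih y hy)
    have := (Fj B W (n + 1)).add_mem h1 h2
    simpa using this

theorem lf_tt (a b : A) (x : A ⊗[ℂ] V) : lf A V a (tt A V b x) = tt A V b (lf A V a x) := by
  induction x with
  | zero => simp
  | tmul c y => simp [tt_apply, mul_left_comm]
  | add x y hx hy => rw [map_add, map_add, hx, hy, map_add, map_add]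

theorem rt_tt (a b : A) (x : A ⊗[ℂ] V) : rt A V a (tt A V b x) = tt A V b (rt A V a x) := by
  induction x with
  | zero => simp
  | tmul c y => simp [tt_apply, smul_smul, mul_comm]
  | add x y hx hy => rw [map_add, map_add, hx, hy, map_add, map_add]

theorem tt_tt (a b : A) (x : A ⊗[ℂ] V) : tt A V a (tt A V b x) = tt A V b (tt A V a x) := by
  rw [tt_apply a (tt A V b x), rt_tt, lf_tt, ← map_sub, ← tt_apply]

theorem lf_mem (a : A) {n : ℕ} {x : A ⊗[ℂ] V} (hx : x ∈ Fj A V n) : lf A V a x ∈ Fj A V n :=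
  mem_of_comm (f := id) (lf_tt a) x hx

theorem rt_mem (a : A) {n : ℕ} {x : A ⊗[ℂ] V} (hx : x ∈ Fj A V n) : rt A V a x ∈ Fj A V n :=
  mem_of_comm (f := id) (rt_tt a) x hx

/-- A differential operator of order one. -/
structure Ord1 (A : Type) [CommRing A] [Algebra ℂ A] {V V' : Type} [AddCommGroup V] [Module ℂ V]
    [Module A V] [AddCommGroup V'] [Module ℂ V'] [Module A V'] (u : V →ₗ[ℂ] V')
    (e : A → V →ₗ[ℂ] V') : Prop where
  comm : ∀ (a : A) (x : V), u (a • x) = a • u x + e a x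
  lin : ∀ (a b : A) (x : V), e a (b • x) = b • e a x

theorem lTensor_tt {u : V →ₗ[ℂ] V'} {e : A → V →ₗ[ℂ] V'} 
    (h : ∀ (a : A) (x : V), u (a • x) = a • u x + e a x) (a : A) (x : A ⊗[ℂ] V) : u.lTensor A (tt A V a x) =
      tt A V' a (u.lTensor A x) + (e a).lTensor A x := by
  induction x with
  | zero => simp
  | tmul c y => simp [tt_apply, h, tmul_add, add_sub_right_comm]
  | add x y hx hy =>
    simp only [map_add, hx, hy]
    abel

theorem lTensor_tt₀ {u : V →ₗ[ℂ] V'} (h : ∀ (a : A) x, u (a • x) = a • u x)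
    (a : A) (x : A ⊗[ℂ] V) : u.lTensor A (tt A V a x) = tt A V' a (u.lTensor A x) := by
  have := lTensor_tt (u := u) (e := fun _ => 0) (fun a x => by rw [h]; simp) a x
  simpa using this

theorem Ord1.mem {u : V →ₗ[ℂ] V'} {e : A → V →ₗ[ℂ] V'} (h : Ord1 A u e) {n : ℕ} (x : A ⊗[ℂ] V)
    (hx : x ∈ Fj A V (n + 1)) : u.lTensor A x ∈ Fj A V' n := by
  refine mem_of_comm₁ (f := id) (fun m a y hy => ?_) x hx
  rw [lTensor_tt h.comm, id_eq, add_sub_cancel_left]
  exact mem_of_comm (f := id) (lTensor_tt₀ (h.lin a)) y hy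

theorem lin_mem {u : V →ₗ[ℂ] V'} (h : ∀ (a : A) x, u (a • x) = a • u x) {n : ℕ} (x : A ⊗[ℂ] V)
    (hx : x ∈ Fj A V n) : u.lTensor A x ∈ Fj A V' n :=
  mem_of_comm (f := id) (lTensor_tt₀ h) x hx

/-- The differential operators. -/
abbrev DO (A : Type) [CommRing A] [Algebra ℂ A] {V V' : Type} [AddCommGroup V] [Module ℂ V]
    [Module A V] [IsScalarTower ℂ A V] [AddCommGroup V'] [Module ℂ V'] [Module A V']
    [IsScalarTower ℂ A V'] (u : V →ₗ[ℂ] V') : Prop :=
  Bdd (FJ A V) (FJ A V') (u.lTensor A)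

theorem DO.lin {u : V →ₗ[ℂ] V'} (h : ∀ (a : A) x, u (a • x) = a • u x) : DO A u :=
  ⟨0, fun _ x hx => lin_mem h x hx⟩

theorem DO.ofLin (u : V →ₗ[A] V') : DO A (u.restrictScalars ℂ) := DO.lin u.map_smul

theorem Ord1.do {u : V →ₗ[ℂ] V'} {e : A → V →ₗ[ℂ] V'} (h : Ord1 A u e) : DO A u :=
  ⟨1, fun _ x hx => h.mem x hx⟩

theorem DO.id : DO A (LinearMap.id : V →ₗ[ℂ] V) := DO.lin fun _ _ => rfl

theorem DO.comp {w : V' →ₗ[ℂ] V''} {u : V →ₗ[ℂ] V'} (hw : DO A w) (hu : DO A u) :
    DO A (w ∘ₗ u) := by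
  unfold DO
  rw [LinearMap.lTensor_comp]
  exact Bdd.comp hw hu

theorem DO.add {w u : V →ₗ[ℂ] V'} (hw : DO A w) (hu : DO A u) : DO A (w + u) := by
  unfold DO
  rw [LinearMap.lTensor_add]
  exact Bdd.add hw hu

theorem DO.sub {w u : V →ₗ[ℂ] V'} (hw : DO A w) (hu : DO A u) : DO A (w - u) := by
  unfold DO
  rw [LinearMap.lTensor_sub]
  exact Bdd.sub hw hu

theorem DO.neg {u : V →ₗ[ℂ] V'} (hu : DO A u) : DO A (-u) := by
  unfold DO
  rw [LinearMap.lTensor_neg]
  exact Bdd.neg hu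

theorem DO.smul {u : V →ₗ[ℂ] V'} (c : ℂ) (hu : DO A u) : DO A (c • u) := by
  unfold DO
  rw [LinearMap.lTensor_smul]
  exact Bdd.smul hu c

theorem DO.zero : DO A (0 : V →ₗ[ℂ] V') := DO.lin fun _ _ => by simp

theorem DO.sum {ι : Type} (s : Finset ι) {u : ι → V →ₗ[ℂ] V'} (h : ∀ i ∈ s, DO A (u i)) :
    DO A (∑ i ∈ s, u i) := by
  classical
  induction s using Finset.induction_on with
  | empty => exact DO.zero
  | insert a s ha ih =>
    rw [Finset.sum_insert ha]
    exact (h a (Finset.mem_insert_self a s)).add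
      (ih fun i hi => h i (Finset.mem_insert_of_mem hi))

end Maps

section J

variable (A) (V : Type) [AddCommGroup V] [Module ℂ V] [Module A V] [IsScalarTower ℂ A V]

/-- The module of jets `J_A(V) = lim (A ⊗ V) / Iⁿ`. -/
abbrev J : Type := Cmp (FJ A V)

end J

namespace J

variable {V V' V'' W W' : Type} [AddCommGroup V] [Module ℂ V] [Module A V] [IsScalarTower ℂ A V]
  [AddCommGroup V'] [Module ℂ V'] [Module A V'] [IsScalarTower ℂ A V']
  [AddCommGroup V''] [Module ℂ V''] [Module A V''] [IsScalarTower ℂ A V'']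
  [AddCommGroup W] [Module ℂ W] [Module B W] [IsScalarTower ℂ B W]
  [AddCommGroup W'] [Module ℂ W'] [Module B W'] [IsScalarTower ℂ B W']

/-- The map defined by a differential operator. -/
def map (u : V →ₗ[ℂ] V') (h : DO A u) : J A V →ₗ[ℂ] J A V' := lift (u.lTensor A) h

theorem map_congr {u w : V →ₗ[ℂ] V'} (e : u = w) (hu : DO A u) (hw : DO A w) :
    map u hu = map w hw := by
  subst e
  rfl

theorem map_id : map (LinearMap.id : V →ₗ[ℂ] V) (DO.id (A := A)) = LinearMap.id := by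
  unfold map
  rw [lift_congr (LinearMap.lTensor_id A V) _ Bdd.id, lift_id]

theorem map_comp (w : V' →ₗ[ℂ] V'') (hw : DO A w) (u : V →ₗ[ℂ] V') (hu : DO A u) :
    map (w ∘ₗ u) (hw.comp hu) = map w hw ∘ₗ map u hu := by
  unfold map
  rw [← lift_comp]
  exact lift_congr (LinearMap.lTensor_comp _ _ _) _ _

theorem map_add (w : V →ₗ[ℂ] V') (hw : DO A w) (u : V →ₗ[ℂ] V') (hu : DO A u) :
    map (w + u) (hw.add hu) = map w hw + map u hu := by
  unfold map
  rw [← lift_add]
  exact lift_congr (LinearMap.lTensor_add _ _ _) _ _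

theorem map_sub (w : V →ₗ[ℂ] V') (hw : DO A w) (u : V →ₗ[ℂ] V') (hu : DO A u) :
    map (w - u) (hw.sub hu) = map w hw - map u hu := by
  unfold map
  rw [← lift_sub]
  exact lift_congr (LinearMap.lTensor_sub _ _) _ _

theorem map_smul (c : ℂ) (u : V →ₗ[ℂ] V') (hu : DO A u) :
    map (c • u) (hu.smul c) = c • map u hu := by
  unfold map
  rw [← lift_smul]
  exact lift_congr (LinearMap.lTensor_smul _ _ _) _ _

theorem map_neg (u : V →ₗ[ℂ] V') (hu : DO A u) : map (-u) hu.neg = -map u hu := by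
  unfold map
  rw [← lift_neg]
  exact lift_congr (LinearMap.lTensor_neg _) _ _

theorem map_zero : map (0 : V →ₗ[ℂ] V') (DO.zero (A := A)) = 0 := by
  unfold map
  rw [lift_congr (LinearMap.lTensor_zero A) _ Bdd.zero, lift_zero]

theorem lf_bdd (a : A) : Bdd (FJ A V) (FJ A V) (lf A V a) := ⟨0, fun _ _ hx => lf_mem a hx⟩

/-- The action of the functions on the first factor. -/
def fn (a : A) : J A V →ₗ[ℂ] J A V := lift (lf A V a) (lf_bdd a)

theorem vf_tt (v : Derivation ℂ A A) (a : A) (x : A ⊗[ℂ] V) :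
    (v : A →ₗ[ℂ] A).rTensor V (tt A V a x) =
      tt A V a ((v : A →ₗ[ℂ] A).rTensor V x) - lf A V (v a) x := by
  induction x with
  | zero => simp
  | tmul c y =>
    simp only [tt_apply, rt_tmul, lf_tmul, LinearMap.map_sub, LinearMap.rTensor_tmul,
      Derivation.coeFn_coe, Derivation.leibniz, smul_eq_mul, add_tmul, mul_comm c (v a)]
    abel
  | add x y hx hy =>
    simp only [LinearMap.map_add, hx, hy]
    abel

theorem vf_mem (v : Derivation ℂ A A) {n : ℕ} (x : A ⊗[ℂ] V) (hx : x ∈ Fj A V (n + 1)) :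
    (v : A →ₗ[ℂ] A).rTensor V x ∈ Fj A V n := by
  refine mem_of_comm₁ (f := id) (fun m a y hy => ?_) x hx
  rw [vf_tt, id_eq, sub_sub_cancel_left]
  exact (Fj A V m).neg_mem (lf_mem _ hy)

theorem vf_bdd (v : Derivation ℂ A A) : Bdd (FJ A V) (FJ A V) ((v : A →ₗ[ℂ] A).rTensor V) :=
  ⟨1, fun _ x hx => vf_mem v x hx⟩

/-- The action of the vector fields on the first factor. -/
def vf (v : Derivation ℂ A A) : J A V →ₗ[ℂ] J A V :=
  lift ((v : A →ₗ[ℂ] A).rTensor V) (vf_bdd v)

theorem isDMod : St.IsDMod (fun (a : A) (m : J A V) => fn a m)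
    (fun (v : Derivation ℂ A A) (m : J A V) => vf v m) where
  const c m := by
    have e : lf A V (algebraMap ℂ A c) = c • LinearMap.id := by
      ext a x
      simp [Algebra.smul_def, smul_tmul']
    unfold fn
    rw [lift_congr e _ (Bdd.id.smul c), lift_smul c LinearMap.id Bdd.id, lift_id]
    rfl
  fn_add a b m := by
    have e : lf A V (a + b) = lf A V a + lf A V b := by
      ext c x
      simp [add_mul, add_tmul]
    unfold fn
    rw [← LinearMap.add_apply, ← lift_add]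
    exact LinearMap.congr_fun (lift_congr e _ _) m
  fn_mul a b m := by
    have e : lf A V (a * b) = lf A V a ∘ₗ lf A V b := by
      ext c x
      simp [mul_assoc]
    unfold fn
    rw [lift_comp_apply]
    exact LinearMap.congr_fun (lift_congr e _ _) m
  vf_add v w m := by
    unfold vf
    rw [← LinearMap.add_apply, ← lift_add]
    refine LinearMap.congr_fun (lift_congr ?_ _ _) m
    ext c x
    simp
  vf_smul a v m := by
    unfold vf fn
    rw [lift_comp_apply]
    refine LinearMap.congr_fun (lift_congr ?_ _ _) m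
    ext c x
    simp
  vf_fn v a m := by
    unfold vf fn
    rw [lift_comp_apply, lift_comp_apply, ← LinearMap.add_apply, ← lift_add]
    refine LinearMap.congr_fun (lift_congr ?_ _ _) m
    ext c x
    simp [add_tmul, mul_comm c (v a), add_comm]
  vf_lie v w m := by
    unfold vf
    rw [lift_comp_apply, lift_comp_apply, ← LinearMap.sub_apply, ← lift_sub]
    refine LinearMap.congr_fun (lift_congr ?_ _ _) m
    ext c x
    change ⁅v, w⁆ c ⊗ₜ[ℂ] x = v (w c) ⊗ₜ[ℂ] x - w (v c) ⊗ₜ[ℂ] x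
    rw [Derivation.commutator_apply, sub_tmul]

/-- The action of `A` and of the vector fields commutes with the differential operators. -/
theorem map_fn (u : V →ₗ[ℂ] V') (h : DO A u) (a : A) (x : J A V) :
    map u h (fn a x) = fn a (map u h x) := by
  unfold map fn
  rw [lift_comp_apply, lift_comp_apply]
  refine LinearMap.congr_fun (lift_congr ?_ _ _) x
  ext c x
  simp

theorem map_vf (u : V →ₗ[ℂ] V') (h : DO A u) (v : Derivation ℂ A A) (x : J A V) :
    map u h (vf v x) = vf v (map u h x) := by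
  unfold map vf
  rw [lift_comp_apply, lift_comp_apply]
  refine LinearMap.congr_fun (lift_congr ?_ _ _) x
  ext c x
  simp

theorem pull_mem (f : A →ₐ[ℂ] B) {u : V →ₗ[ℂ] W} (h : ∀ (a : A) x, u (a • x) = f a • u x) {n : ℕ}
    (x : A ⊗[ℂ] V) (hx : x ∈ Fj A V n) : TensorProduct.map f.toLinearMap u x ∈ Fj B W n := by
  refine mem_of_comm (f := f) (fun a y => ?_) x hx
  induction y with
  | zero => simp
  | tmul c y => simp [tt_apply, h]
  | add x y hx hy => simp only [LinearMap.map_add, hx, hy]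

theorem pull_bdd (f : A →ₐ[ℂ] B) (u : V →ₗ[ℂ] W) (h : ∀ (a : A) x, u (a • x) = f a • u x) :
    Bdd (FJ A V) (FJ B W) (TensorProduct.map f.toLinearMap u) :=
  ⟨0, fun _ x hx => pull_mem f h x hx⟩

/-- The map `J_A(V) → J_B(W)` defined by a homomorphism `f : A → B` and an `f`-semilinear map. -/
def pull (f : A →ₐ[ℂ] B) (u : V →ₗ[ℂ] W) (h : ∀ (a : A) x, u (a • x) = f a • u x) :
    J A V →ₗ[ℂ] J B W :=
  lift (TensorProduct.map f.toLinearMap u) (pull_bdd f u h)

theorem pull_fn (f : A →ₐ[ℂ] B) (u : V →ₗ[ℂ] W) (h : ∀ (a : A) x, u (a • x) = f a • u x) (a : A)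
    (x : J A V) : pull f u h (fn a x) = fn (f a) (pull f u h x) := by
  unfold pull fn
  rw [lift_comp_apply, lift_comp_apply]
  refine LinearMap.congr_fun (lift_congr ?_ _ _) x
  ext c x
  simp

theorem pull_vf (f : A →ₐ[ℂ] B) (u : V →ₗ[ℂ] W) (h : ∀ (a : A) x, u (a • x) = f a • u x)
    (w : Derivation ℂ B B) (k : ℕ) (c : Fin k → B) (v : Fin k → Derivation ℂ A A)
    (hw : ∀ a, w (f a) = ∑ i, c i * f (v i a)) (x : J A V) :
    vf w (pull f u h x) = ∑ i, fn (c i) (pull f u h (vf (v i) x)) := by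
  unfold vf pull fn
  rw [lift_comp_apply]
  have : ∀ i, lift (lf B W (c i)) (lf_bdd (c i))
      (lift (TensorProduct.map f.toLinearMap u) (pull_bdd f u h)
        (lift ((v i : A →ₗ[ℂ] A).rTensor V) (vf_bdd (v i)) x)) =
      lift (lf B W (c i) ∘ₗ TensorProduct.map f.toLinearMap u ∘ₗ (v i : A →ₗ[ℂ] A).rTensor V)
        ((lf_bdd (c i)).comp ((pull_bdd f u h).comp (vf_bdd (v i)))) x := by
    intro i
    rw [lift_comp_apply, lift_comp_apply]
    rfl
  rw [Finset.sum_congr rfl fun i _ => this i, ← LinearMap.sum_apply, ← lift_sum]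
  refine LinearMap.congr_fun (lift_congr ?_ _ _) x
  ext a y
  simp [hw, sum_tmul]

theorem isTrans (f : A →ₐ[ℂ] B) (u : V →ₗ[ℂ] W) (h : ∀ (a : A) x, u (a • x) = f a • u x) :
    St.IsTrans 0 f 1 (fun (a : A) (m : J A V) => fn a m)
      (fun (v : Derivation ℂ A A) (m : J A V) => vf v m) (fun (a : B) (m : J B W) => fn a m)
      (fun (v : Derivation ℂ B B) (m : J B W) => vf v m) (pull f u h) where
  fn a m := pull_fn f u h a m
  vf w k c v hw m := by
    have h1 : ∀ y : J B W, fn (1 : B) y = y := fun y => by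
      have := isDMod (A := B) (V := W).const 1 y
      simpa using this
    rw [h1, h1, zero_smul, sub_zero]
    exact pull_vf f u h w k c v hw m

theorem pull_map (f : A →ₐ[ℂ] B) (u : V →ₗ[ℂ] W) (h : ∀ (a : A) x, u (a • x) = f a • u x)
    (u' : V' →ₗ[ℂ] W') (h' : ∀ (a : A) x, u' (a • x) = f a • u' x) (p : V →ₗ[ℂ] V') (hp : DO A p)
    (q : W →ₗ[ℂ] W') (hq : DO B q) (e : ∀ x, u' (p x) = q (u x)) (x : J A V) :
    pull f u' h' (map p hp x) = map q hq (pull f u h x) := by
  unfold pull map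
  rw [lift_comp_apply, lift_comp_apply]
  refine LinearMap.congr_fun (lift_congr ?_ _ _) x
  ext a y
  simp [e]

theorem pull_id (u : V →ₗ[ℂ] V) (h : ∀ (a : A) x, u (a • x) = AlgHom.id ℂ A a • u x)
    (e : ∀ x, u x = x) (x : J A V) : pull (AlgHom.id ℂ A) u h x = x := by
  have h1 : TensorProduct.map (AlgHom.id ℂ A).toLinearMap u = LinearMap.id := by
    ext a y
    simp [e]
  unfold pull
  rw [lift_congr h1 _ Bdd.id, lift_id]
  rfl

theorem pull_pull {W'' : Type} [AddCommGroup W''] [Module ℂ W''] [Module D W'']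
    [IsScalarTower ℂ D W''] (f : A →ₐ[ℂ] B) (g : B →ₐ[ℂ] D) (u : V →ₗ[ℂ] W)
    (h : ∀ (a : A) x, u (a • x) = f a • u x) (u' : W →ₗ[ℂ] W'')
    (h' : ∀ (a : B) x, u' (a • x) = g a • u' x) (u'' : V →ₗ[ℂ] W'')
    (h'' : ∀ (a : A) x, u'' (a • x) = g.comp f a • u'' x) (e : ∀ x, u'' x = u' (u x))
    (x : J A V) : pull g u' h' (pull f u h x) = pull (g.comp f) u'' h'' x := by
  unfold pull
  rw [lift_comp_apply]
  refine LinearMap.congr_fun (lift_congr ?_ _ _) x
  ext a y
  simp [e]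

variable (A V) in
/-- The map `a ⊗ x ↦ a x`. -/
def evl : A ⊗[ℂ] V →ₗ[ℂ] V := TensorProduct.lift (Algebra.lsmul ℂ ℂ V).toLinearMap

theorem evl_tmul (a : A) (x : V) : evl A V (a ⊗ₜ x) = a • x := rfl

theorem evl_tt (a : A) (x : A ⊗[ℂ] V) : evl A V (tt A V a x) = 0 := by
  induction x with
  | zero => simp
  | tmul c y => simp [tt_apply, evl_tmul, smul_smul, mul_comm]
  | add x y hx hy => rw [LinearMap.map_add, LinearMap.map_add, hx, hy, add_zero]

theorem evl_zero (x : A ⊗[ℂ] V) (hx : x ∈ Fj A V 1) : evl A V x = 0 := by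
  have := Fj_le (n := 0) (u := evl A V) (G := ⊥) (fun a y _ => by
    rw [evl_tt]
    exact zero_mem _) x hx
  exact this

theorem sub_evl_mem (x : A ⊗[ℂ] V) : x - 1 ⊗ₜ (evl A V x) ∈ Fj A V 1 := by
  induction x with
  | zero => simp
  | tmul c y =>
    have : tt A V c ((1 : A) ⊗ₜ y) ∈ Fj A V 1 := tt_mem c (n := 0) Submodule.mem_top
    have := neg_mem this
    convert this using 1
    simp [tt_apply, evl_tmul]
  | add x y hx hy =>
    have := add_mem hx hy
    convert this using 1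
    rw [LinearMap.map_add, tmul_add]
    abel

/-- The value of a jet on the diagonal. -/
def ev : J A V →ₗ[ℂ] V := Cmp.lim (FJ A V) (evl A V) 1 evl_zero

theorem ev_fn (a : A) (x : J A V) : ev (fn a x) = a • ev x := by
  refine Eq.trans ?_ (LinearMap.comp_apply (Algebra.lsmul ℂ ℂ V a) ev x)
  induction x using Cmp.ind with
  | h z =>
    unfold fn
    rw [lift_mk _ _ z 0 (fun _ _ hx => lf_mem a hx)]
    have : ∀ y : A ⊗[ℂ] V, evl A V (lf A V a y) = a • evl A V y := fun y => by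
      induction y with
      | zero => simp
      | tmul c y => simp [evl_tmul, mul_smul]
      | add x y hx hy => simp only [LinearMap.map_add, hx, hy, smul_add]
    exact this _

theorem ev_of (x : A ⊗[ℂ] V) : ev (Cmp.of (FJ A V) x) = evl A V x := rfl

theorem ev_pull (f : A →ₐ[ℂ] B) (u : V →ₗ[ℂ] W) (h : ∀ (a : A) x, u (a • x) = f a • u x)
    (x : J A V) : ev (pull f u h x) = u (ev x) := by
  refine Eq.trans ?_ (LinearMap.comp_apply u ev x)
  induction x using Cmp.ind with
  | h z =>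
    unfold pull
    rw [lift_mk _ _ z 0 (fun _ x hx => pull_mem f h x hx)]
    have : ∀ y : A ⊗[ℂ] V, evl B W (TensorProduct.map f.toLinearMap u y) = u (evl A V y) :=
        fun y => by
      induction y with
      | zero => simp
      | tmul c y => simp [evl_tmul, h]
      | add x y hx hy => simp only [LinearMap.map_add, hx, hy]
    exact this _

theorem ev_map (u : V →ₗ[ℂ] V') (h : ∀ (a : A) x, u (a • x) = a • u x) (x : J A V) :
    ev (map u (DO.lin h) x) = u (ev x) := by
  refine Eq.trans ?_ (LinearMap.comp_apply u ev x)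
  induction x using Cmp.ind with
  | h z =>
    unfold map
    rw [lift_mk _ _ z 0 (fun _ x hx => lin_mem h x hx)]
    have : ∀ y : A ⊗[ℂ] V, evl A V' (u.lTensor A y) = u (evl A V y) := fun y => by
      induction y with
      | zero => simp
      | tmul c y => simp [evl_tmul, h]
      | add x y hx hy => simp only [LinearMap.map_add, hx, hy]
    exact this _

end J

end

end Vale.Agent.P286.H389
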