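import Vale.Agent.P286.H389.Jg

/-!
# The Poincaré lemma for graded differential modules
-/

namespace Vale.Agent.P286.H389

open CategoryTheory TensorProduct H847

noncomputable section

variable {A B : Type} [CommRing A] [Algebra ℂ A] [CommRing B] [Algebra ℂ B]

namespace Ctn

variable {V W : Type} [AddCommGroup V] [Module ℂ V] [Module A V] [IsScalarTower ℂ A V]
  [AddCommGroup W] [Module ℂ W] [Module A W] [IsScalarTower ℂ A W] (C : Ctn A V) (C' : Ctn A W)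

/-- The homotopy anticommutes with the `A`-linear maps which anticommute with the operators. -/
theorem s_anti (b : DB A) (u : V →ₗ[ℂ] W) (h : ∀ (a : A) x, u (a • x) = a • u x)
    (h1 : ∀ x, u (C.nb x) = - C'.nb (u x)) (h2 : ∀ v x, u (C.io v x) = - C'.io v (u x))
    (x : J A V) : J.map u (DO.lin h) (C.s b x) = - C'.s b (J.map u (DO.lin h) x) := by
  have e1 : ∀ y, u.lTensor A (C.hh b y) = - C'.hh b (u.lTensor A y) := by
    intro y
    rw [hh_apply, hh_apply, map_sum, ← Finset.sum_neg_distrib]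
    refine Finset.sum_congr rfl fun i _ => ?_
    rw [lTensor_tt₀ h, ← map_neg]
    congr 1
    have : u.lTensor A ∘ₗ (C.io (b.v i)).lTensor A =
        -((C'.io (b.v i)).lTensor A ∘ₗ u.lTensor A) := by
      ext a y
      simp [h2, tmul_neg]
    exact LinearMap.congr_fun this y
  have e2 : ∀ y, u.lTensor A (C.dd y) = - C'.dd (u.lTensor A y) := by
    intro y
    have : u.lTensor A ∘ₗ C.dd = -(C'.dd ∘ₗ u.lTensor A) := by
      ext a y
      simp [dd, h1, tmul_neg]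
    exact LinearMap.congr_fun this y
  let uOp : Op (FJ A V) (FJ A W) := Op.cst (u.lTensor A) 0 fun _ _ hx => lin_mem h _ hx
  have hu : uOp.map = J.map u (DO.lin h) := cst_map _ _ _ _
  have e : ((uOp.comp (C.sOp b)).add ((C'.sOp b).comp uOp)).map = 0 := by
    refine zero_map _ fun n => ⟨0, fun N _ x => ?_⟩
    change u.lTensor A (C.SS b N (C.hh b x)) + C'.SS b N (C'.hh b (u.lTensor A x)) ∈ Fj A W n
    rw [C.SS_comm C' b b (u.lTensor A) (fun y => by rw [LL_apply, LL_apply, map_add, e1, e2, e2,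
      e1, map_neg, map_neg, neg_neg, neg_neg]), e1, map_neg, neg_add_cancel]
    exact zero_mem _
  rw [Op.add_map, Op.comp_map, Op.comp_map, hu] at e
  exact eq_neg_of_add_eq_zero_left (LinearMap.congr_fun e x)

/-- The Taylor series and the `A`-linear maps which anticommute with the differential. -/
theorem T_anti (b : DB A) (u : V →ₗ[ℂ] W) (h : ∀ (a : A) x, u (a • x) = a • u x)
    (h1 : ∀ x, u (C.nb x) = - C'.nb (u x)) (h2 : ∀ x, u (C.pr 0 x) = C'.pr 0 (u x)) (m : V) :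
    J.map u (DO.lin h) (C.T b m) = C'.T b (u m) := by
  have e := C'.eq_T b (J.map u (DO.lin h) (C.T b m)) (by
    unfold prJ
    rw [← LinearMap.comp_apply, ← J.map_comp]
    have e1 : C'.pr 0 ∘ₗ u = u ∘ₗ C.pr 0 := LinearMap.ext fun x => (h2 x).symm
    rw [J.map_congr e1 _ ((DO.lin h).comp (DO.lin (C.pr_lin 0))), J.map_comp]
    exact congrArg (J.map u (DO.lin h)) (C.pr_T b m)) (by
    unfold D
    rw [← LinearMap.comp_apply, ← J.map_comp]
    have e1 : C'.nb ∘ₗ u = -(u ∘ₗ C.nb) := LinearMap.ext fun x => by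
      rw [LinearMap.neg_apply, LinearMap.comp_apply, LinearMap.comp_apply, h1, neg_neg]
    rw [J.map_congr e1 _ ((DO.lin h).comp C.ord1.do).neg, J.map_neg _ ((DO.lin h).comp C.ord1.do),
      J.map_comp]
    have e2 := congrArg (J.map u (DO.lin h)) (C.D_T b m)
    rw [map_zero] at e2
    rw [LinearMap.neg_apply, neg_eq_zero]
    exact e2)
  rw [e, J.ev_map u h, ev_T, h2, T_pr]

theorem tt_lG {G : Submodule ℂ V} (hG : ∀ (a : A), ∀ x ∈ G, a • x ∈ G) (a : A) (x : A ⊗[ℂ] V)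
    (hx : x ∈ lG A G) : tt A V a x ∈ lG A G := by
  rw [tt_apply]
  exact sub_mem (lTensor_lG (u := Algebra.lsmul ℂ ℂ V a) (hG a) x hx) (rTensor_lG _ x hx)

theorem hh_lG (b : DB A) {G G' : Submodule ℂ V} (hG' : ∀ (a : A), ∀ x ∈ G', a • x ∈ G')
    (h : ∀ v, ∀ x ∈ G, C.io v x ∈ G') (x : A ⊗[ℂ] V) (hx : x ∈ lG A G) :
    C.hh b x ∈ lG A G' := by
  rw [hh_apply]
  exact Submodule.sum_mem _ fun i _ => tt_lG hG' _ _ (lTensor_lG (h _) x hx)

theorem PP_lG (b : DB A) {G : Submodule ℂ V} (h : ∀ x ∈ lG A G, C.LL b x ∈ lG A G) (N : ℕ)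
    (x : A ⊗[ℂ] V) (hx : x ∈ lG A G) : C.PP b N x ∈ lG A G := by
  induction N with
  | zero => exact hx
  | succ N ih => exact sub_mem ih (Submodule.smul_mem _ _ (h _ ih))

theorem SS_lG (b : DB A) {G : Submodule ℂ V} (h : ∀ x ∈ lG A G, C.LL b x ∈ lG A G) (N : ℕ)
    (x : A ⊗[ℂ] V) (hx : x ∈ lG A G) : C.SS b N x ∈ lG A G := by
  induction N with
  | zero => exact zero_mem _
  | succ N ih => exact add_mem ih (Submodule.smul_mem _ _ (C.PP_lG b h N x hx))

end Ctn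

/-- A graded differential module whose differential is the sum of the differential of forms and
of an `A`-linear differential. -/
structure PC (M : AGD A) where
  C : Ctn A M.V
  del : M.V →ₗ[ℂ] M.V
  d_eq : ∀ x, M.d x = C.nb x + del x
  del_lin : ∀ (a : A) x, del (a • x) = a • del x
  del_nb : ∀ x, del (C.nb x) = - C.nb (del x)
  del_io : ∀ v x, del (C.io v x) = - C.io v (del x)
  del_pr : ∀ x, del (C.pr 0 x) = C.pr 0 (del x)
  nb_gr : ∀ (m : ℤ), ∀ x ∈ M.gr m, C.nb x ∈ M.gr (m + 1)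
  io_gr : ∀ v (m : ℤ), ∀ x ∈ M.gr m, C.io v x ∈ M.gr (m - 1)
  pr_gr : ∀ (m : ℤ), ∀ x ∈ M.gr m, C.pr 0 x ∈ M.gr m

namespace PC

variable {M : AGD A} (Q : PC M) (b : DB A)

theorem del_gr (m : ℤ) (x : M.V) (hx : x ∈ M.gr m) : Q.del x ∈ M.gr (m + 1) := by
  have h := sub_mem (M.dgr m x hx) (Q.nb_gr m x hx)
  rwa [Q.d_eq, add_sub_cancel_left] at h

theorem LL_gr (m : ℤ) : ∀ x ∈ lG A (M.gr m), Q.C.LL b x ∈ lG A (M.gr m) := by
  intro x hx
  rw [Ctn.LL_apply]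
  refine add_mem ?_ ?_
  · have h1 := Q.C.hh_lG b (M.sm · (m - 1)) (fun v => Q.io_gr v m) x hx
    have h2 := lTensor_lG (Q.nb_gr (m - 1)) _ h1
    rw [show m - 1 + 1 = m by ring] at h2
    exact h2
  · have h1 := lTensor_lG (Q.nb_gr m) x hx
    have h2 := Q.C.hh_lG b (M.sm · (m + 1 - 1)) (fun v => Q.io_gr v (m + 1)) _ h1
    rw [show m + 1 - 1 = m by ring] at h2
    exact h2

theorem s_gr (m : ℤ) (x : J A M.V) (hx : x ∈ (JG M).gr m) : Q.C.s b x ∈ (JG M).gr (m - 1) :=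
  Op.clo _ (fun N y hy => Q.C.SS_lG b (Q.LL_gr b (m - 1)) N _
    (Q.C.hh_lG b (M.sm · (m - 1)) (fun v => Q.io_gr v m) y hy)) hx

theorem T_gr (m : ℤ) (x : M.V) (hx : x ∈ M.gr m) : Q.C.T b x ∈ (JG M).gr m :=
  Op.clo _ (fun N y hy => Q.C.PP_lG b (Q.LL_gr b m) N _ hy) (of_clo (tmul_lG 1 hx))

/-- The differential on the jets is the sum of the two differentials. -/
theorem d_JG (x : J A M.V) : (JG M).d x = Q.C.D x + J.map Q.del (DO.lin Q.del_lin) x := by
  change J.map M.d M.dO x = _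
  have e : M.d = Q.C.nb + Q.del := LinearMap.ext Q.d_eq
  rw [J.map_congr e _ (Q.C.ord1.do.add (DO.lin Q.del_lin)), J.map_add]
  rfl

/-- The homotopy formula for the full differential. -/
theorem htpy (x : J A M.V) :
    (JG M).d (Q.C.s b x) + Q.C.s b ((JG M).d x) = x - Q.C.T b (J.ev x) := by
  rw [Q.d_JG, Q.d_JG, map_add, Q.C.s_anti Q.C b Q.del Q.del_lin Q.del_nb Q.del_io,
    ← Q.C.htpy' b x]
  abel

theorem d_T (x : M.V) : (JG M).d (Q.C.T b x) = Q.C.T b (Q.del x) := by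
  rw [Q.d_JG, Ctn.D_T, zero_add, Q.C.T_anti Q.C b Q.del Q.del_lin Q.del_nb Q.del_pr]

theorem pr_ev_D (x : J A M.V) : Q.C.pr 0 (J.ev (Q.C.D x)) = 0 := by
  induction x using Cmp.ind with
  | h z =>
    have e : Q.C.D (Cmp.mk _ z) = Cmp.mk _ ((Op.cst Q.C.dd 1 (fun n x hx =>
        (Q.C.dd_mem hx : Q.C.dd x ∈ (FJ A M.V).F n)) : Op (FJ A M.V) (FJ A M.V)).onCau z) :=
      lift_mk _ _ z 1 _
    rw [e]
    change Q.C.pr 0 (J.evl A M.V (Q.C.dd (z.1 (1 + 1)))) = 0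
    induction z.1 (1 + 1) with
    | zero => simp
    | tmul a y =>
      change Q.C.pr 0 (J.evl A M.V (a ⊗ₜ Q.C.nb y)) = 0
      rw [J.evl_tmul, Q.C.pr_lin, Q.C.pr0_nb, smul_zero]
    | add x y hx hy => rw [map_add, map_add, map_add, hx, hy, add_zero]

theorem pr_ev_d (x : J A M.V) : Q.C.pr 0 (J.ev ((JG M).d x)) = Q.del (Q.C.pr 0 (J.ev x)) := by
  rw [Q.d_JG, map_add, map_add, Q.pr_ev_D, zero_add, J.ev_map Q.del Q.del_lin, Q.del_pr]

variable (M0 : GD) (i : M0.V →ₗ[ℂ] M.V) (r : M.V →ₗ[ℂ] M0.V) (hir : ∀ x, i (r x) = Q.C.pr 0 x)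
  (hri : ∀ x, r (i x) = x) (hd : ∀ x, i (M0.d x) = Q.del (i x))
  (hi : ∀ m, ∀ x ∈ M0.gr m, i x ∈ M.gr m) (hr : ∀ m, ∀ x ∈ M.gr m, r x ∈ M0.gr m)

include hd hi in
/-- The map to the jets. -/
def toJG : GD.Hom M0 (JG M) where
  f := Q.C.T b ∘ₗ i
  comm x := by
    rw [LinearMap.comp_apply, LinearMap.comp_apply, Q.d_T, hd]
  deg m x hx := Q.T_gr b m _ (hi m x hx)

include hir hri hd hr in
/-- The value in degree `0`. -/
def ofJG : GD.Hom (JG M) M0 where
  f := r ∘ₗ J.ev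
  comm x := by
    have h1 : ∀ y, r y = r (Q.C.pr 0 y) := fun y => by rw [← hir, hri]
    rw [LinearMap.comp_apply, LinearMap.comp_apply, h1, Q.pr_ev_d, ← hir, ← hd, hri]
  deg m x hx := hr m _ (JG.ev_gr hx)

include hir hri hd hi hr in
/-- The Poincaré lemma. -/
theorem qis : GD.Qis (Q.toJG b M0 i hd hi) := by
  refine GD.Qis.of_htpy _ (Q.ofJG M0 i r hir hri hd hr) 0 (fun m x _ => ?_) (fun m x _ => ?_)
    (Q.C.s b) (Q.s_gr b) (fun m x _ => ?_)
  · exact zero_mem _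
  · have h1 : ∀ y, r y = r (Q.C.pr 0 y) := fun y => by rw [← hir, hri]
    change M0.d 0 + 0 = x - r (J.ev (Q.C.T b (i x)))
    rw [Ctn.ev_T, ← h1, hri, map_zero, add_zero, sub_self]
  · rw [Q.htpy]
    change _ = x - Q.C.T b (i (r (J.ev x)))
    rw [hir, Ctn.T_pr]

end PC

end

end Vale.Agent.P286.H389
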