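import Vale.Agent.P286.H389.J
import Vale.Agent.P286.H697.J.Dual

/-!
# The Poincaré lemma for the completed jets

`Ctn A V` is an `A`-module `V` with the operators of differential forms with coefficients in a
`D`-module: `nb` the differential, `ep a` the product with `da`, `io v` the contraction with `v`,
`pr p` the projection to the forms of degree `p`.  For a smooth algebra `A` there is an operator
`s` on `J_A(V)` (contraction with the Euler field, divided by the Lie derivative) with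
`nb s + s nb = 1 - Pi`, where `Pi` is the projection to the horizontal sections of degree `0`.
-/

namespace Vale.Agent.P286.H389

open TensorProduct

noncomputable section

variable {A B : Type} [CommRing A] [Algebra ℂ A] [CommRing B] [Algebra ℂ B]

/-- The differentials `D (x i)` and the vector fields `v i` are dual. -/
def IsDual {r : ℕ} (x : Fin r → A) (v : Fin r → Derivation ℂ A A) : Prop :=
  ∀ a, KaehlerDifferential.D ℂ A a = ∑ i, v i a • KaehlerDifferential.D ℂ A (x i)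

/-- A dual basis of the differentials. -/
structure DB (A : Type) [CommRing A] [Algebra ℂ A] where
  r : ℕ
  x : Fin r → A
  v : Fin r → Derivation ℂ A A
  dual : IsDual x v

/-- A dual basis of the differentials of a smooth algebra. -/
def DB.some (A : Type) [CommRing A] [Algebra ℂ A] [Algebra.Smooth ℂ A] : DB A := by
  have h := H697.exists_dualBasis A
  exact ⟨h.choose, h.choose_spec.choose, h.choose_spec.choose_spec.choose,
    h.choose_spec.choose_spec.choose_spec⟩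

section Act

set_option linter.unusedSectionVars false

variable {V : Type} [AddCommGroup V] [Module ℂ V] [Module A V] [IsScalarTower ℂ A V]

theorem rt_lf (a b : A) (x : A ⊗[ℂ] V) : rt A V a (lf A V b x) = lf A V b (rt A V a x) := by
  induction x with
  | zero => simp
  | tmul c y => simp
  | add x y hx hy => rw [map_add, map_add, hx, hy, map_add, map_add]

variable (A V) in
/-- The action of `A` on the first factor. -/
def lfH : A →ₐ[ℂ] Module.End ℂ (A ⊗[ℂ] V) :=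
  AlgHom.ofLinearMap ((LinearMap.rTensorHom V).comp (LinearMap.mul ℂ A))
    (by
      ext a x
      simp [Module.End.one_apply])
    (fun a b => by
      ext c x
      simp [mul_assoc])

variable (A V) in
/-- The action of `A` on the second factor. -/
def rtH : A →ₐ[ℂ] Module.End ℂ (A ⊗[ℂ] V) :=
  AlgHom.ofLinearMap ((LinearMap.lTensorHom A).comp (Algebra.lsmul ℂ ℂ V).toLinearMap)
    (by
      ext a x
      simp [Module.End.one_apply])
    (fun a b => by
      ext c x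
      simp)

theorem lfH_apply (a : A) (x : A ⊗[ℂ] V) : lfH A V a x = lf A V a x := rfl

theorem rtH_apply (a : A) (x : A ⊗[ℂ] V) : rtH A V a x = rt A V a x := rfl

theorem lfH_comm (a b : A) : Commute (lfH A V a) (rtH A V b) :=
  LinearMap.ext fun x => (rt_lf b a x).symm

variable (A V) in
/-- The action of `A ⊗ A` on `A ⊗ V`. -/
def act : A ⊗[ℂ] A →ₐ[ℂ] Module.End ℂ (A ⊗[ℂ] V) :=
  Algebra.TensorProduct.lift (lfH A V) (rtH A V) lfH_comm

theorem act_tmul (a b : A) (x : A ⊗[ℂ] V) : act A V (a ⊗ₜ b) x = lf A V a (rt A V b x) := by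
  unfold act
  rw [Algebra.TensorProduct.lift_tmul]
  rfl

theorem rt_one (x : A ⊗[ℂ] V) : rt A V 1 x = x := by
  rw [← rtH_apply, map_one, Module.End.one_apply]

theorem lf_one (x : A ⊗[ℂ] V) : lf A V 1 x = x := by
  rw [← lfH_apply, map_one, Module.End.one_apply]

theorem act_mem (s : A ⊗[ℂ] A) {n : ℕ} {y : A ⊗[ℂ] V} (hy : y ∈ Fj A V n) :
    act A V s y ∈ Fj A V n := by
  induction s with
  | zero => simp
  | tmul a b =>
    rw [act_tmul]
    exact lf_mem a (rt_mem b hy)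
  | add s t hs ht =>
    rw [map_add, LinearMap.add_apply]
    exact add_mem hs ht

theorem act_mem₁ {s : A ⊗[ℂ] A} (hs : s ∈ KaehlerDifferential.ideal ℂ A) {n : ℕ}
    {y : A ⊗[ℂ] V} (hy : y ∈ Fj A V n) : act A V s y ∈ Fj A V (n + 1) := by
  rw [← KaehlerDifferential.span_range_eq_ideal] at hs
  induction hs using Submodule.span_induction with
  | mem s h =>
    obtain ⟨a, rfl⟩ := h
    have : act A V ((1 : A) ⊗ₜ[ℂ] a - a ⊗ₜ[ℂ] (1 : A)) y = tt A V a y := by
      rw [map_sub, LinearMap.sub_apply, act_tmul, act_tmul, tt_apply, lf_one, rt_one]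
    rw [this]
    exact tt_mem a hy
  | zero => simp
  | add s t _ _ hs ht =>
    rw [map_add, LinearMap.add_apply]
    exact add_mem hs ht
  | smul r s _ hs =>
    rw [smul_eq_mul, map_mul]
    exact act_mem r hs

theorem act_mem₂ {s : A ⊗[ℂ] A} (hs : s ∈ KaehlerDifferential.ideal ℂ A ^ 2) {n : ℕ}
    {y : A ⊗[ℂ] V} (hy : y ∈ Fj A V n) : act A V s y ∈ Fj A V (n + 2) := by
  rw [pow_two] at hs
  refine Submodule.mul_induction_on hs ?_ ?_
  · intro s hs t ht
    rw [map_mul]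
    exact act_mem₁ hs (act_mem₁ ht hy)
  · intro s t hs ht
    rw [map_add, LinearMap.add_apply]
    exact add_mem hs ht

/-- The Euler field is the identity on `I / I²`. -/
theorem dual_mem {r : ℕ} {x : Fin r → A} {v : Fin r → Derivation ℂ A A} (h : IsDual x v) (a : A)
    {n : ℕ} {y : A ⊗[ℂ] V} (hy : y ∈ Fj A V n) :
    ∑ i, tt A V (x i) (rt A V (v i a) y) - tt A V a y ∈ Fj A V (n + 2) := by
  have h1 := act_mem₂ (V := V) (H697.mem_ideal_sq_of_dual h a) hy
  have h2 : ∀ b : A, act A V ((1 : A) ⊗ₜ[ℂ] b - b ⊗ₜ[ℂ] (1 : A)) = tt A V b := by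
    intro b
    refine LinearMap.ext fun y => ?_
    rw [map_sub, LinearMap.sub_apply, act_tmul, act_tmul, tt_apply, lf_one, rt_one]
  have h3 : act A V (((1 : A) ⊗ₜ[ℂ] a - a ⊗ₜ[ℂ] (1 : A)) -
      ∑ i, (v i a ⊗ₜ[ℂ] (1 : A)) * ((1 : A) ⊗ₜ[ℂ] x i - x i ⊗ₜ[ℂ] (1 : A))) y =
        tt A V a y - ∑ i, lf A V (v i a) (tt A V (x i) y) := by
    rw [map_sub, LinearMap.sub_apply, h2, map_sum, LinearMap.sum_apply]
    congr 1
    refine Finset.sum_congr rfl fun i _ => ?_
    rw [map_mul, Module.End.mul_apply, h2, act_tmul, rt_one]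
  rw [h3] at h1
  have h4 : ∑ i, tt A V (x i) (tt A V (v i a) y) ∈ Fj A V (n + 2) :=
    Submodule.sum_mem _ fun i _ => tt_mem _ (tt_mem _ hy)
  have := (Fj A V (n + 2)).sub_mem h4 h1
  convert this using 1
  rw [sub_eq_add_neg _ (tt A V a y - _), neg_sub, ← add_sub_assoc, ← Finset.sum_add_distrib]
  congr 1
  refine Finset.sum_congr rfl fun i _ => ?_
  rw [tt_apply (v i a), map_sub, lf_tt, sub_add_cancel]

end Act

/-- An `A`-module with the operators of differential forms. -/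
structure Ctn (A V : Type) [CommRing A] [Algebra ℂ A] [AddCommGroup V] [Module ℂ V] [Module A V]
    [IsScalarTower ℂ A V] where
  nb : V →ₗ[ℂ] V
  nn : ∀ x, nb (nb x) = 0
  ep : A → V →ₗ[ℂ] V
  ep_lin : ∀ a (b : A) x, ep a (b • x) = b • ep a x
  io : Derivation ℂ A A → V →ₗ[ℂ] V
  io_lin : ∀ v (b : A) x, io v (b • x) = b • io v x
  pr : ℕ → V →ₗ[ℂ] V
  pr_lin : ∀ p (b : A) x, pr p (b • x) = b • pr p x
  pr_pr : ∀ p x, pr p (pr p x) = pr p x
  comm : ∀ (a : A) x, nb (a • x) = a • nb x + ep a x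
  io_ep : ∀ v a x, io v (ep a x) + ep a (io v x) = v a • x
  euler : ∀ (r : ℕ) (x : Fin r → A) (v : Fin r → Derivation ℂ A A), IsDual x v → ∀ p y,
    ∑ i, ep (x i) (io (v i) (pr p y)) = (p : ℂ) • pr p y
  r : ℕ
  sum_pr : ∀ x, ∑ p ∈ Finset.range r, pr p x = x
  nb_pr : ∀ p x, nb (pr p x) = pr (p + 1) (nb x)
  io_pr : ∀ v p x, io v (pr (p + 1) x) = pr p (io v x)
  io_pr0 : ∀ v x, io v (pr 0 x) = 0
  pr0_nb : ∀ x, pr 0 (nb x) = 0

namespace Ctn

variable {V : Type} [AddCommGroup V] [Module ℂ V] [Module A V] [IsScalarTower ℂ A V]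
  (C : Ctn A V)

theorem ord1 : Ord1 A C.nb C.ep := ⟨C.comm, C.ep_lin⟩

/-- The differential on `A ⊗ V`. -/
def dd : A ⊗[ℂ] V →ₗ[ℂ] A ⊗[ℂ] V := C.nb.lTensor A

/-- The projections on `A ⊗ V`. -/
def pp (p : ℕ) : A ⊗[ℂ] V →ₗ[ℂ] A ⊗[ℂ] V := (C.pr p).lTensor A

/-- The contraction with the Euler field. -/
def hh (b : DB A) : A ⊗[ℂ] V →ₗ[ℂ] A ⊗[ℂ] V :=
  ∑ i, tt A V (b.x i) ∘ₗ (C.io (b.v i)).lTensor A

/-- The Lie derivative. -/
def LL (b : DB A) : A ⊗[ℂ] V →ₗ[ℂ] A ⊗[ℂ] V := C.dd ∘ₗ C.hh b + C.hh b ∘ₗ C.dd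

theorem hh_apply (b : DB A) (x : A ⊗[ℂ] V) :
    C.hh b x = ∑ i, tt A V (b.x i) ((C.io (b.v i)).lTensor A x) := by
  simp [hh, LinearMap.sum_apply]

theorem LL_apply (b : DB A) (x : A ⊗[ℂ] V) : C.LL b x = C.dd (C.hh b x) + C.hh b (C.dd x) := rfl

theorem dd_dd (x : A ⊗[ℂ] V) : C.dd (C.dd x) = 0 := by
  have : C.dd ∘ₗ C.dd = 0 := by
    ext a y
    simp [dd, C.nn]
  exact LinearMap.congr_fun this x

theorem dd_tt (a : A) (x : A ⊗[ℂ] V) :
    C.dd (tt A V a x) = tt A V a (C.dd x) + (C.ep a).lTensor A x := lTensor_tt C.comm a x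

theorem io_tt (v : Derivation ℂ A A) (a : A) (x : A ⊗[ℂ] V) :
    (C.io v).lTensor A (tt A V a x) = tt A V a ((C.io v).lTensor A x) :=
  lTensor_tt₀ (C.io_lin v) a x

theorem ep_tt (b a : A) (x : A ⊗[ℂ] V) :
    (C.ep b).lTensor A (tt A V a x) = tt A V a ((C.ep b).lTensor A x) :=
  lTensor_tt₀ (C.ep_lin b) a x

theorem pp_tt (p : ℕ) (a : A) (x : A ⊗[ℂ] V) : C.pp p (tt A V a x) = tt A V a (C.pp p x) :=
  lTensor_tt₀ (C.pr_lin p) a x

theorem hh_tt (b : DB A) (a : A) (x : A ⊗[ℂ] V) : C.hh b (tt A V a x) = tt A V a (C.hh b x) := by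
  rw [hh_apply, hh_apply, map_sum]
  refine Finset.sum_congr rfl fun i _ => ?_
  rw [io_tt, tt_tt]

theorem io_ep_l (v : Derivation ℂ A A) (a : A) (x : A ⊗[ℂ] V) :
    (C.io v).lTensor A ((C.ep a).lTensor A x) + (C.ep a).lTensor A ((C.io v).lTensor A x) =
      rt A V (v a) x := by
  have : (C.io v).lTensor A ∘ₗ (C.ep a).lTensor A + (C.ep a).lTensor A ∘ₗ (C.io v).lTensor A =
      rt A V (v a) := by
    ext b y
    simp [← tmul_add, C.io_ep]
  exact LinearMap.congr_fun this x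

theorem LL_tt (b : DB A) (a : A) (x : A ⊗[ℂ] V) :
    C.LL b (tt A V a x) = tt A V a (C.LL b x) + ∑ i, tt A V (b.x i) (rt A V (b.v i a) x) := by
  have h1 : C.dd (C.hh b (tt A V a x)) = tt A V a (C.dd (C.hh b x)) +
      (C.ep a).lTensor A (C.hh b x) := by
    rw [hh_tt, dd_tt]
  have h2 : C.hh b (C.dd (tt A V a x)) = tt A V a (C.hh b (C.dd x)) +
      C.hh b ((C.ep a).lTensor A x) := by
    rw [dd_tt, map_add, hh_tt]
  have h3 : (C.ep a).lTensor A (C.hh b x) + C.hh b ((C.ep a).lTensor A x) =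
      ∑ i, tt A V (b.x i) (rt A V (b.v i a) x) := by
    rw [hh_apply, hh_apply, map_sum, ← Finset.sum_add_distrib]
    refine Finset.sum_congr rfl fun i _ => ?_
    rw [ep_tt, ← map_add, add_comm, io_ep_l]
  rw [LL_apply, LL_apply, h1, h2, map_add, ← h3]
  abel

theorem hh_mem (b : DB A) {n : ℕ} {x : A ⊗[ℂ] V} (hx : x ∈ Fj A V n) :
    C.hh b x ∈ Fj A V (n + 1) := by
  rw [hh_apply]
  exact Submodule.sum_mem _ fun i _ => tt_mem _ (lin_mem (C.io_lin _) x hx)

theorem pp_mem (p : ℕ) {n : ℕ} {x : A ⊗[ℂ] V} (hx : x ∈ Fj A V n) : C.pp p x ∈ Fj A V n :=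
  lin_mem (C.pr_lin p) x hx

theorem dd_mem {n : ℕ} {x : A ⊗[ℂ] V} (hx : x ∈ Fj A V (n + 1)) : C.dd x ∈ Fj A V n :=
  C.ord1.mem x hx

theorem LL_mem₀ (b : DB A) (p : ℕ) (x : A ⊗[ℂ] V) :
    C.LL b (C.pp p x) - (p : ℂ) • C.pp p x ∈ Fj A V 1 := by
  have h1 : C.hh b (C.dd (C.pp p x)) ∈ Fj A V 1 := C.hh_mem b Submodule.mem_top
  have h2 : C.dd (C.hh b (C.pp p x)) =
      ∑ i, tt A V (b.x i) (C.dd ((C.io (b.v i)).lTensor A (C.pp p x))) +
      ∑ i, (C.ep (b.x i)).lTensor A ((C.io (b.v i)).lTensor A (C.pp p x)) := by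
    rw [hh_apply, map_sum, ← Finset.sum_add_distrib]
    exact Finset.sum_congr rfl fun i _ => C.dd_tt _ _
  have h3 : ∑ i, (C.ep (b.x i)).lTensor A ((C.io (b.v i)).lTensor A (C.pp p x)) =
      (p : ℂ) • C.pp p x := by
    have : ∑ i, (C.ep (b.x i)).lTensor A ∘ₗ (C.io (b.v i)).lTensor A ∘ₗ C.pp p =
        (p : ℂ) • C.pp p := by
      ext a y
      simp only [pp, AlgebraTensorModule.curry_apply, LinearMap.restrictScalars_self,
        curry_apply, LinearMap.sum_apply, LinearMap.comp_apply, LinearMap.lTensor_tmul,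
        LinearMap.smul_apply, ← tmul_sum, C.euler _ _ _ b.dual, tmul_smul]
    have := LinearMap.congr_fun this x
    simpa [LinearMap.sum_apply] using this
  have h4 : ∑ i, tt A V (b.x i) (C.dd ((C.io (b.v i)).lTensor A (C.pp p x))) ∈ Fj A V 1 :=
    Submodule.sum_mem _ fun i _ => tt_mem _ Submodule.mem_top
  rw [LL_apply, h2, h3]
  have := (Fj A V 1).add_mem h4 h1
  convert this using 1
  abel

/-- The Lie derivative is the multiplication by `m + p` on `Iᵐ Ωᵖ / I^(m+1) Ωᵖ`. -/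
theorem LL_mem (b : DB A) (p : ℕ) {m : ℕ} (x : A ⊗[ℂ] V) (hx : x ∈ Fj A V m) :
    C.LL b (C.pp p x) - ((m + p : ℕ) : ℂ) • C.pp p x ∈ Fj A V (m + 1) := by
  induction m generalizing x with
  | zero => simpa using C.LL_mem₀ b p x
  | succ m ih =>
    refine Fj_le (u := C.LL b ∘ₗ C.pp p - ((m + 1 + p : ℕ) : ℂ) • C.pp p) (fun a y hy => ?_) x hx
    have h1 := tt_mem a (ih y hy)
    have h2 := dual_mem b.dual a (C.pp_mem p hy)
    have h3 := (Fj A V (m + 1 + 1)).add_mem h1 h2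
    have e : (C.LL b ∘ₗ C.pp p - ((m + 1 + p : ℕ) : ℂ) • C.pp p) (tt A V a y) =
        tt A V a (C.LL b (C.pp p y) - ((m + p : ℕ) : ℂ) • C.pp p y) +
        (∑ i, tt A V (b.x i) (rt A V (b.v i a) (C.pp p y)) - tt A V a (C.pp p y)) := by
      rw [LinearMap.sub_apply, LinearMap.comp_apply, LinearMap.smul_apply, pp_tt, LL_tt,
        map_sub, map_smul]
      have : ((m + 1 + p : ℕ) : ℂ) = ((m + p : ℕ) : ℂ) + 1 := by push_cast; ring
      rw [this, add_smul, one_smul]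
      abel
    rw [e]
    exact h3

theorem dd_pp (p : ℕ) (x : A ⊗[ℂ] V) : C.dd (C.pp p x) = C.pp (p + 1) (C.dd x) := by
  have : C.dd ∘ₗ C.pp p = C.pp (p + 1) ∘ₗ C.dd := by
    ext a y
    simp [dd, pp, C.nb_pr]
  exact LinearMap.congr_fun this x

theorem pp_dd (x : A ⊗[ℂ] V) : C.pp 0 (C.dd x) = 0 := by
  have : C.pp 0 ∘ₗ C.dd = 0 := by
    ext a y
    simp [dd, pp, C.pr0_nb]
  exact LinearMap.congr_fun this x

theorem pp_pp (p : ℕ) (x : A ⊗[ℂ] V) : C.pp p (C.pp p x) = C.pp p x := by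
  have : C.pp p ∘ₗ C.pp p = C.pp p := by
    ext a y
    simp [pp, C.pr_pr]
  exact LinearMap.congr_fun this x

theorem hh_pp (b : DB A) (p : ℕ) (x : A ⊗[ℂ] V) :
    C.hh b (C.pp (p + 1) x) = C.pp p (C.hh b x) := by
  rw [hh_apply, hh_apply, map_sum]
  refine Finset.sum_congr rfl fun i _ => ?_
  rw [pp_tt]
  congr 1
  have : (C.io (b.v i)).lTensor A ∘ₗ C.pp (p + 1) = C.pp p ∘ₗ (C.io (b.v i)).lTensor A := by
    ext a y
    simp [pp, C.io_pr]
  exact LinearMap.congr_fun this x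

theorem hh_pp0 (b : DB A) (x : A ⊗[ℂ] V) : C.hh b (C.pp 0 x) = 0 := by
  rw [hh_apply]
  refine Finset.sum_eq_zero fun i _ => ?_
  have : (C.io (b.v i)).lTensor A ∘ₗ C.pp 0 = 0 := by
    ext a y
    simp [pp, C.io_pr0]
  rw [show (C.io (b.v i)).lTensor A (C.pp 0 x) = 0 from LinearMap.congr_fun this x, map_zero]

theorem LL_pp (b : DB A) (p : ℕ) (x : A ⊗[ℂ] V) : C.LL b (C.pp p x) = C.pp p (C.LL b x) := by
  cases p with
  | zero =>
    rw [LL_apply, LL_apply, hh_pp0, map_zero, zero_add, map_add, pp_dd, zero_add, dd_pp, hh_pp]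
  | succ p => rw [LL_apply, LL_apply, hh_pp, dd_pp, dd_pp, hh_pp, map_add]

theorem LL_dd (b : DB A) (x : A ⊗[ℂ] V) : C.LL b (C.dd x) = C.dd (C.LL b x) := by
  rw [LL_apply, LL_apply, dd_dd, map_zero, add_zero, map_add, dd_dd, zero_add]

theorem sum_pp (x : A ⊗[ℂ] V) : ∑ p ∈ Finset.range C.r, C.pp p x = x := by
  have : ∑ p ∈ Finset.range C.r, C.pp p = LinearMap.id := by
    ext a y
    simp only [pp, AlgebraTensorModule.curry_apply, LinearMap.restrictScalars_self,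
      curry_apply, LinearMap.sum_apply, LinearMap.lTensor_tmul, ← tmul_sum, C.sum_pr,
      LinearMap.id_apply]
  have := LinearMap.congr_fun this x
  simpa [LinearMap.sum_apply] using this

theorem LL_mem' (b : DB A) {n : ℕ} {x : A ⊗[ℂ] V} (hx : x ∈ Fj A V n) :
    C.LL b x ∈ Fj A V n := by
  rw [LL_apply]
  refine add_mem (C.dd_mem (C.hh_mem b hx)) ?_
  cases n with
  | zero => exact Submodule.mem_top
  | succ n => exact C.hh_mem b (C.dd_mem hx)

/-- The products `∏_{1 ≤ i ≤ N} (1 - L / i)`. -/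
def PP (b : DB A) : ℕ → A ⊗[ℂ] V →ₗ[ℂ] A ⊗[ℂ] V
  | 0 => LinearMap.id
  | N + 1 => PP b N - ((N + 1 : ℕ) : ℂ)⁻¹ • (C.LL b ∘ₗ PP b N)

/-- The sums `∑_{1 ≤ j ≤ N} 1/j ∏_{1 ≤ i < j} (1 - L / i)`. -/
def SS (b : DB A) : ℕ → A ⊗[ℂ] V →ₗ[ℂ] A ⊗[ℂ] V
  | 0 => 0
  | N + 1 => SS b N + ((N + 1 : ℕ) : ℂ)⁻¹ • PP C b N

theorem PP_succ (b : DB A) (N : ℕ) (x : A ⊗[ℂ] V) :
    C.PP b (N + 1) x = C.PP b N x - ((N + 1 : ℕ) : ℂ)⁻¹ • C.LL b (C.PP b N x) := rfl

theorem SS_succ (b : DB A) (N : ℕ) (x : A ⊗[ℂ] V) :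
    C.SS b (N + 1) x = C.SS b N x + ((N + 1 : ℕ) : ℂ)⁻¹ • C.PP b N x := rfl

/-- An operator which commutes with `L` commutes with the products. -/
theorem PP_comm {W : Type} [AddCommGroup W] [Module ℂ W] [Module B W] [IsScalarTower ℂ B W]
    (C' : Ctn B W) (b : DB A) (b' : DB B) (u : A ⊗[ℂ] V →ₗ[ℂ] B ⊗[ℂ] W)
    (h : ∀ x, u (C.LL b x) = C'.LL b' (u x)) (N : ℕ) (x : A ⊗[ℂ] V) :
    u (C.PP b N x) = C'.PP b' N (u x) := by
  induction N with
  | zero => rfl
  | succ N ih => rw [PP_succ, PP_succ, map_sub, map_smul, h, ih]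

theorem SS_comm {W : Type} [AddCommGroup W] [Module ℂ W] [Module B W] [IsScalarTower ℂ B W]
    (C' : Ctn B W) (b : DB A) (b' : DB B) (u : A ⊗[ℂ] V →ₗ[ℂ] B ⊗[ℂ] W)
    (h : ∀ x, u (C.LL b x) = C'.LL b' (u x)) (N : ℕ) (x : A ⊗[ℂ] V) :
    u (C.SS b N x) = C'.SS b' N (u x) := by
  induction N with
  | zero => exact map_zero u
  | succ N ih => rw [SS_succ, SS_succ, map_add, map_smul, PP_comm C C' b b' u h, ih]

theorem PP_LL (b : DB A) (N : ℕ) (x : A ⊗[ℂ] V) : C.PP b N (C.LL b x) = C.LL b (C.PP b N x) :=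
  (C.PP_comm C b b (C.LL b) (fun _ => rfl) N x).symm

theorem SS_LL (b : DB A) (N : ℕ) (x : A ⊗[ℂ] V) : C.SS b N (C.LL b x) = x - C.PP b N x := by
  induction N with
  | zero => exact (sub_self x).symm
  | succ N ih =>
    rw [SS_succ, ih, PP_succ, PP_LL]
    abel

theorem PP_mem' (b : DB A) (N : ℕ) {n : ℕ} {x : A ⊗[ℂ] V} (hx : x ∈ Fj A V n) :
    C.PP b N x ∈ Fj A V n := by
  induction N with
  | zero => exact hx
  | succ N ih => exact sub_mem ih (Submodule.smul_mem _ _ (C.LL_mem' b ih))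

theorem SS_mem' (b : DB A) (N : ℕ) {n : ℕ} {x : A ⊗[ℂ] V} (hx : x ∈ Fj A V n) :
    C.SS b N x ∈ Fj A V n := by
  induction N with
  | zero => exact zero_mem _
  | succ N ih => exact add_mem ih (Submodule.smul_mem _ _ (C.PP_mem' b N hx))

theorem PP_mem (b : DB A) (p : ℕ) {m : ℕ} (hm : 1 ≤ m + p) {x : A ⊗[ℂ] V} (hx : x ∈ Fj A V m)
    (hp : C.pp p x = x) (N n : ℕ) (h : n + p ≤ N + 1) : C.PP b N x ∈ Fj A V n := by
  induction N generalizing n with
  | zero => exact (FJ A V).anti (show n ≤ m by omega) hx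
  | succ N ih =>
    rcases Nat.lt_or_ge (N + 1) (n + p) with h' | h'
    · rcases n with _ | n
      · exact Submodule.mem_top
      have h1 := ih n (by omega)
      have h2 := C.LL_mem b p _ h1
      have e : C.pp p (C.PP b N x) = C.PP b N x := by
        rw [C.PP_comm C b b (C.pp p) (fun y => (C.LL_pp b p y).symm), hp]
      rw [e] at h2
      have e2 : n + p = N + 1 := by omega
      rw [e2] at h2
      have h3 := (Fj A V (n + 1)).smul_mem (-((N + 1 : ℕ) : ℂ)⁻¹) h2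
      have h4 : ((N + 1 : ℕ) : ℂ) ≠ 0 := Nat.cast_ne_zero.2 (Nat.succ_ne_zero N)
      rw [PP_succ]
      convert h3 using 1
      rw [smul_sub, smul_smul, neg_mul, inv_mul_cancel₀ h4, neg_smul, neg_smul, one_smul]
      abel
    · have h1 := ih n h'
      exact sub_mem h1 (Submodule.smul_mem _ _ (C.LL_mem' b h1))

/-- The products tend to zero on the positive part. -/
theorem PP_mem₁ (b : DB A) {x : A ⊗[ℂ] V} (hx : C.pp 0 x ∈ Fj A V 1) {N n : ℕ}
    (h : n + C.r ≤ N + 1) : C.PP b N x ∈ Fj A V n := by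
  rw [← C.sum_pp x, map_sum]
  refine Submodule.sum_mem _ fun p hp => ?_
  rw [Finset.mem_range] at hp
  rcases p with _ | p
  · exact C.PP_mem b 0 (m := 1) le_rfl hx (C.pp_pp 0 x) N n (by omega)
  · exact C.PP_mem b (p + 1) (m := 0) (by omega) Submodule.mem_top (C.pp_pp _ x) N n (by omega)

theorem pp_hh_mem (b : DB A) (x : A ⊗[ℂ] V) : C.pp 0 (C.hh b x) ∈ Fj A V 1 :=
  C.pp_mem 0 (C.hh_mem b (n := 0) Submodule.mem_top)

theorem pp_LL_mem (b : DB A) (x : A ⊗[ℂ] V) : C.pp 0 (C.LL b x) ∈ Fj A V 1 := by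
  have := C.LL_mem₀ b 0 x
  rw [Nat.cast_zero, zero_smul, sub_zero, LL_pp] at this
  exact this

/-- The homotopy, as a convergent sequence of operators. -/
def sOp (b : DB A) : Op (FJ A V) (FJ A V) where
  S N := C.SS b N ∘ₗ C.hh b
  k := 0
  c := C.r
  bd N n x hx := C.SS_mem' b N (Fj_succ_le A V n (C.hh_mem b hx))
  cau N n x h := by
    rw [LinearMap.comp_apply, LinearMap.comp_apply, SS_succ, add_sub_cancel_left]
    exact Submodule.smul_mem _ _ (C.PP_mem₁ b (C.pp_hh_mem b x) (by omega))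

/-- The projection, as a convergent sequence of operators. -/
def piOp (b : DB A) : Op (FJ A V) (FJ A V) where
  S N := C.PP b N
  k := 0
  c := C.r
  bd N n x hx := C.PP_mem' b N hx
  cau N n x h := by
    rw [PP_succ, sub_sub_cancel_left, ← PP_LL]
    exact Submodule.neg_mem _ (Submodule.smul_mem _ _ (C.PP_mem₁ b (C.pp_LL_mem b x) (by omega)))

/-- The differential on `J_A(V)`. -/
def D : J A V →ₗ[ℂ] J A V := J.map C.nb C.ord1.do

/-- The projection to the forms of degree `p` on `J_A(V)`. -/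
def prJ (p : ℕ) : J A V →ₗ[ℂ] J A V := J.map (C.pr p) (DO.lin (C.pr_lin p))

/-- The homotopy. -/
def s (b : DB A) : J A V →ₗ[ℂ] J A V := (C.sOp b).map

/-- The projection to the horizontal sections of degree `0`. -/
def Pi (b : DB A) : J A V →ₗ[ℂ] J A V := (C.piOp b).map

/-- The differential, as a convergent sequence of operators. -/
def dOp : Op (FJ A V) (FJ A V) := Op.cst C.dd 1 fun _ _ hx => C.dd_mem hx

theorem dOp_map : C.dOp.map = C.D := cst_map _ _ _ _

/-- The projection, as a convergent sequence of operators. -/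
def ppOp (p : ℕ) : Op (FJ A V) (FJ A V) := Op.cst (C.pp p) 0 fun _ _ hx => C.pp_mem p hx

theorem ppOp_map (p : ℕ) : (C.ppOp p).map = C.prJ p := cst_map _ _ _ _

theorem D_D (x : J A V) : C.D (C.D x) = 0 := by
  have h : C.nb ∘ₗ C.nb = 0 := LinearMap.ext C.nn
  have := J.map_comp C.nb C.ord1.do C.nb C.ord1.do
  rw [J.map_congr h _ DO.zero, J.map_zero] at this
  exact (LinearMap.congr_fun this x).symm

/-- The homotopy formula. -/
theorem htpy (b : DB A) (x : J A V) : C.D (C.s b x) + C.s b (C.D x) = x - C.Pi b x := by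
  have h : (((C.dOp.comp (C.sOp b)).add ((C.sOp b).comp C.dOp)).add (C.piOp b)).map =
      (Op.cst (LinearMap.id : A ⊗[ℂ] V →ₗ[ℂ] A ⊗[ℂ] V) 0 (fun _ _ hx => hx) :
        Op (FJ A V) (FJ A V)).map := by
    refine Op.map_eq _ _ fun n => ⟨0, fun N _ x => ?_⟩
    change C.dd (C.SS b N (C.hh b x)) + C.SS b N (C.hh b (C.dd x)) + C.PP b N x - x ∈ Fj A V n
    have e : C.dd (C.SS b N (C.hh b x)) = C.SS b N (C.dd (C.hh b x)) :=
      C.SS_comm C b b C.dd (fun y => (C.LL_dd b y).symm) N _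
    rw [e, ← map_add, ← LL_apply, SS_LL, sub_add_cancel, sub_self]
    exact zero_mem _
  rw [Op.add_map, Op.add_map, Op.comp_map, Op.comp_map, dOp_map, cst_map _ Bdd.id, lift_id] at h
  have h2 := LinearMap.congr_fun h x
  exact eq_sub_of_add_eq h2

theorem Pi_zero (b : DB A) (x : J A V) (hx : C.pr 0 (J.ev x) = 0) : C.Pi b x = 0 := by
  induction x using Cmp.ind with
  | h z =>
    change (C.piOp b).map (Cmp.mk _ z) = 0
    rw [Op.map_mk, Cmp.mk_eq_zero]
    intro n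
    have h1 : C.pp 0 (z.1 1) ∈ Fj A V 1 := by
      have h2 := J.sub_evl_mem (C.pp 0 (z.1 1))
      have h3 : J.evl A V (C.pp 0 (z.1 1)) = 0 := by
        refine Eq.trans ?_ hx
        change _ = C.pr 0 (J.evl A V (z.1 1))
        induction z.1 1 with
        | zero => simp
        | tmul a y => simp [pp, J.evl_tmul, C.pr_lin]
        | add x y hx hy => simp only [LinearMap.map_add, hx, hy]
      rwa [h3, tmul_zero, sub_zero] at h2
    have h4 : C.pp 0 (z.1 (n + 1)) ∈ Fj A V 1 := by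
      have h5 := C.pp_mem 0 (Cmp.cau z (show 1 ≤ n + 1 by omega))
      rw [map_sub] at h5
      have := add_mem h5 h1
      rwa [sub_add_cancel] at this
    have h6 := (C.piOp b).onCau_sub z (n := n) (N := n + C.r) (m := n + 1) le_rfl
      (by simp only [piOp]; omega)
    have h7 : C.PP b (n + C.r) (z.1 (n + 1)) ∈ Fj A V n := C.PP_mem₁ b h4 (by omega)
    have := (Fj A V n).sub_mem h7 h6
    have e : C.PP b (n + C.r) (z.1 (n + 1)) - ((C.piOp b).S (n + C.r) (z.1 (n + 1)) -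
      ((C.piOp b).onCau z).1 n) = ((C.piOp b).onCau z).1 n := sub_sub_cancel _ _
    rw [e] at this
    exact this

/-- The Taylor series: the horizontal section with a given value. -/
def T (b : DB A) : V →ₗ[ℂ] J A V :=
  C.Pi b ∘ₗ Cmp.of (FJ A V) ∘ₗ TensorProduct.mk ℂ A V 1

theorem T_apply (b : DB A) (m : V) : C.T b m = C.Pi b (Cmp.of (FJ A V) (1 ⊗ₜ m)) := rfl

theorem Pi_eq (b : DB A) (x : J A V) : C.Pi b x = C.T b (J.ev x) := by
  rw [T_apply, ← sub_eq_zero, ← map_sub]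
  refine C.Pi_zero b _ ?_
  rw [map_sub, J.ev_of, J.evl_tmul, one_smul, sub_self, map_zero]

theorem htpy' (b : DB A) (x : J A V) : C.D (C.s b x) + C.s b (C.D x) = x - C.T b (J.ev x) := by
  rw [htpy, Pi_eq]

theorem T_pr (b : DB A) (m : V) : C.T b (C.pr 0 m) = C.T b m := by
  rw [← sub_eq_zero, ← map_sub, T_apply]
  refine C.Pi_zero b _ ?_
  rw [J.ev_of, J.evl_tmul, one_smul, map_sub, C.pr_pr, sub_self]

theorem D_of (x : A ⊗[ℂ] V) : C.D (Cmp.of (FJ A V) x) = Cmp.of (FJ A V) (C.dd x) :=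
  lift_of _ _ _

theorem D_T (b : DB A) (m : V) : C.D (C.T b m) = 0 := by
  have h1 := C.htpy b (C.D (Cmp.of (FJ A V) (1 ⊗ₜ m)))
  have h2 := congrArg C.D (C.htpy b (Cmp.of (FJ A V) (1 ⊗ₜ m)))
  rw [D_D, map_zero, add_zero] at h1
  rw [map_add, D_D, zero_add, map_sub, h1] at h2
  have h3 : C.Pi b (C.D (Cmp.of (FJ A V) (1 ⊗ₜ m))) = 0 := by
    refine C.Pi_zero b _ ?_
    rw [D_of, J.ev_of]
    have : J.evl A V (C.dd (1 ⊗ₜ m)) = C.nb m := by
      simp [dd, J.evl_tmul]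
    rw [this, C.pr0_nb]
  rw [h3, sub_zero] at h2
  exact (sub_eq_self.1 h2.symm)

theorem ev_PP (b : DB A) (N : ℕ) (x : A ⊗[ℂ] V) :
    J.evl A V (C.PP b N (C.pp 0 x)) = J.evl A V (C.pp 0 x) := by
  induction N with
  | zero => rfl
  | succ N ih =>
    rw [PP_succ, map_sub, ih, map_smul]
    have h1 : C.LL b (C.PP b N (C.pp 0 x)) ∈ Fj A V 1 := by
      have h2 := C.LL_mem₀ b 0 (C.PP b N (C.pp 0 x))
      rw [Nat.cast_zero, zero_smul, sub_zero, C.PP_comm C b b (C.pp 0)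
        (fun y => (C.LL_pp b 0 y).symm), pp_pp] at h2
      exact h2
    rw [J.evl_zero _ h1, smul_zero, sub_zero]

theorem ev_T (b : DB A) (m : V) : J.ev (C.T b m) = C.pr 0 m := by
  rw [← T_pr, T_apply]
  have h := Op.lim_map (C.piOp b) (J.evl A V) 1 J.evl_zero
    (⟨fun _ => (1 : A) ⊗ₜ (C.pr 0 m), fun n => by simp⟩ : Cau (FJ A V)) (N := 1 + C.r)
    (m := 1) le_rfl (by simp [piOp])
  refine h.trans ?_
  have h2 := C.ev_PP b (1 + C.r) ((1 : A) ⊗ₜ (C.pr 0 m))
  have h3 : C.pp 0 ((1 : A) ⊗ₜ (C.pr 0 m)) = 1 ⊗ₜ (C.pr 0 m) := by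
    simp [pp, C.pr_pr]
  rw [h3] at h2
  refine h2.trans ?_
  rw [J.evl_tmul, one_smul]

theorem s_pr0 (b : DB A) (x : J A V) (hx : C.prJ 0 x = x) : C.s b x = 0 := by
  rw [← hx]
  have h : ((C.sOp b).comp (C.ppOp 0)).map = 0 := by
    refine zero_map _ fun n => ⟨0, fun N _ x => ?_⟩
    change C.SS b N (C.hh b (C.pp 0 x)) ∈ Fj A V n
    rw [hh_pp0, map_zero]
    exact zero_mem _
  rw [Op.comp_map, ppOp_map] at h
  exact LinearMap.congr_fun h x

/-- A horizontal section of degree `0` is determined by its value. -/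
theorem eq_T (b : DB A) (x : J A V) (hx : C.prJ 0 x = x) (hD : C.D x = 0) :
    x = C.T b (J.ev x) := by
  have h := C.htpy' b x
  rw [C.s_pr0 b x hx, hD, map_zero, map_zero, add_zero] at h
  exact sub_eq_zero.1 h.symm

theorem pr_T (b : DB A) (m : V) : C.prJ 0 (C.T b m) = C.T b m := by
  rw [← T_pr, T_apply]
  have h : ((C.ppOp 0).comp (C.piOp b)).map = ((C.piOp b).comp (C.ppOp 0)).map := by
    refine Op.map_eq _ _ fun n => ⟨0, fun N _ x => ?_⟩
    change C.pp 0 (C.PP b N x) - C.PP b N (C.pp 0 x) ∈ Fj A V n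
    rw [C.PP_comm C b b (C.pp 0) (fun y => (C.LL_pp b 0 y).symm), sub_self]
    exact zero_mem _
  rw [Op.comp_map, Op.comp_map, ppOp_map] at h
  have h2 := LinearMap.congr_fun h (Cmp.of (FJ A V) (1 ⊗ₜ (C.pr 0 m)))
  refine h2.trans ?_
  have h3 : C.prJ 0 (Cmp.of (FJ A V) (1 ⊗ₜ (C.pr 0 m))) = Cmp.of (FJ A V) (1 ⊗ₜ (C.pr 0 m)) := by
    refine (lift_of _ _ _).trans ?_
    rw [LinearMap.lTensor_tmul, C.pr_pr]
  exact congrArg (C.Pi b) h3

/-- The homotopy raises the order of vanishing. -/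
theorem ev_s (b : DB A) (x : J A V) : J.ev (C.s b x) = 0 := by
  induction x using Cmp.ind with
  | h z =>
    have h := Op.lim_map (C.sOp b) (J.evl A V) 1 J.evl_zero z (N := 1 + C.r) (m := 1) le_rfl
      (by simp [sOp])
    refine h.trans (J.evl_zero _ ?_)
    exact C.SS_mem' b _ (C.hh_mem b (n := 0) Submodule.mem_top)

/-- The homotopy lowers the degree. -/
theorem pr_s (b : DB A) (p : ℕ) (x : J A V) : C.prJ p (C.s b x) = C.s b (C.prJ (p + 1) x) := by
  have h : ((C.ppOp p).comp (C.sOp b)).map = ((C.sOp b).comp (C.ppOp (p + 1))).map := by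
    refine Op.map_eq _ _ fun n => ⟨0, fun N _ x => ?_⟩
    change C.pp p (C.SS b N (C.hh b x)) - C.SS b N (C.hh b (C.pp (p + 1) x)) ∈ Fj A V n
    rw [C.SS_comm C b b (C.pp p) (fun y => (C.LL_pp b p y).symm), hh_pp, sub_self]
    exact zero_mem _
  rw [Op.comp_map, Op.comp_map, ppOp_map, ppOp_map] at h
  exact LinearMap.congr_fun h x

theorem D_pr (p : ℕ) (x : J A V) : C.D (C.prJ p x) = C.prJ (p + 1) (C.D x) := by
  unfold D prJ
  rw [← LinearMap.comp_apply, ← LinearMap.comp_apply, ← J.map_comp, ← J.map_comp]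
  exact LinearMap.congr_fun (J.map_congr (LinearMap.ext fun y => C.nb_pr p y) _ _) x

theorem sum_prJ (x : J A V) : ∑ p ∈ Finset.range C.r, C.prJ p x = x := by
  have h1 : ∑ p ∈ Finset.range C.r, (C.pr p) = LinearMap.id := by
    ext y
    simpa using C.sum_pr y
  have h2 : ∀ s : Finset ℕ, ∀ x : J A V, J.map (∑ p ∈ s, C.pr p)
      (DO.sum s fun p _ => DO.lin (C.pr_lin p)) x = ∑ p ∈ s, C.prJ p x := by
    classical
    intro s
    induction s using Finset.induction_on with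
    | empty =>
      intro x
      rw [J.map_congr (Finset.sum_empty) _ DO.zero, J.map_zero]
      rfl
    | insert a s ha ih =>
      intro x
      rw [J.map_congr (Finset.sum_insert ha) _ ((DO.lin
        (C.pr_lin a)).add (DO.sum s fun p _ => DO.lin (C.pr_lin p))), J.map_add (C.pr a) (DO.lin
        (C.pr_lin a)) (∑ p ∈ s, C.pr p) (DO.sum s fun p _ => DO.lin (C.pr_lin p)),
        LinearMap.add_apply, ih]
      exact (Finset.sum_insert ha).symm
  rw [← h2, J.map_congr h1 _ DO.id, J.map_id]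
  rfl

theorem T_fn (b : DB A) (a : A) (m : V) : C.T b (a • m) = J.fn a (C.T b m) := by
  have h := C.eq_T b (J.fn a (C.T b m)) (by
    unfold prJ
    rw [J.map_fn]
    exact congrArg (J.fn a) (C.pr_T b m)) (by
    unfold D
    rw [J.map_fn]
    exact (congrArg (J.fn a) (C.D_T b m)).trans (map_zero _))
  rw [h, J.ev_fn, ev_T, ← C.pr_lin, T_pr]

theorem ev_vf (v : Derivation ℂ A A) (x : J A V) :
    J.ev (J.vf v (C.prJ 0 x)) + J.ev (J.map (C.io v) (DO.lin (C.io_lin v)) (C.D (C.prJ 0 x))) =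
      C.io v (C.nb (J.ev (C.prJ 0 x))) := by
  induction x using Cmp.ind with
  | h z =>
    have e1 : J.vf v (C.prJ 0 (Cmp.mk _ z)) =
        lift ((v : A →ₗ[ℂ] A).rTensor V ∘ₗ C.pp 0)
          ((J.vf_bdd v).comp (DO.lin (C.pr_lin 0))) (Cmp.mk _ z) := lift_comp_apply _ _ _ _ _
    have e2 : J.map (C.io v) (DO.lin (C.io_lin v)) (C.D (C.prJ 0 (Cmp.mk _ z))) =
        lift ((C.io v).lTensor A ∘ₗ C.dd ∘ₗ C.pp 0)
          (Bdd.comp (DO.lin (C.io_lin v)) (Bdd.comp C.ord1.do (DO.lin (C.pr_lin 0))))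
          (Cmp.mk _ z) := by
      have e3 : C.D (C.prJ 0 (Cmp.mk _ z)) = lift (C.dd ∘ₗ C.pp 0)
        (Bdd.comp C.ord1.do (DO.lin (C.pr_lin 0))) (Cmp.mk _ z) := lift_comp_apply _ _ _ _ _
      rw [e3]
      exact lift_comp_apply _ _ _ _ _
    have e3 : C.prJ 0 (Cmp.mk _ z) = Cmp.mk _ ((Op.cst (C.pp 0) 1 (fun n x hx =>
        (C.pp_mem 0 (Fj_succ_le A V n hx) : C.pp 0 x ∈ (FJ A V).F n)) :
          Op (FJ A V) (FJ A V)).onCau z) := lift_mk _ _ z 1 _
    rw [e1, e2, e3, lift_mk _ _ z 1 (fun n x hx => J.vf_mem v _ (C.pp_mem 0 hx)),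
      lift_mk _ _ z 1 (fun n x hx => lin_mem (C.io_lin v) _ (C.dd_mem (C.pp_mem 0 hx)))]
    change J.evl A V ((v : A →ₗ[ℂ] A).rTensor V (C.pp 0 (z.1 (1 + 1)))) +
      J.evl A V ((C.io v).lTensor A (C.dd (C.pp 0 (z.1 (1 + 1))))) =
      C.io v (C.nb (J.evl A V (C.pp 0 (z.1 (1 + 1)))))
    induction z.1 (1 + 1) with
    | zero => simp
    | tmul a y =>
      have h := C.io_ep v a (C.pr 0 y)
      rw [C.io_pr0, map_zero, add_zero] at h
      simp only [pp, dd, LinearMap.lTensor_tmul, LinearMap.rTensor_tmul, J.evl_tmul, C.comm,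
        map_add, C.io_lin, h, Derivation.coeFn_coe]
      abel
    | add x y hx hy =>
      simp only [LinearMap.map_add] at hx hy ⊢
      rw [← hx, ← hy]
      abel

/-- The Taylor series is compatible with the vector fields. -/
theorem T_vf (b : DB A) (v : Derivation ℂ A A) (m : V) :
    J.vf v (C.T b m) = C.T b (C.io v (C.nb (C.pr 0 m))) := by
  have h1 := C.ev_vf v (C.T b m)
  rw [pr_T, D_T, map_zero, map_zero, add_zero, ev_T] at h1
  have h := C.eq_T b (J.vf v (C.T b m)) (by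
    unfold prJ
    rw [J.map_vf]
    exact congrArg (J.vf v) (C.pr_T b m)) (by
    unfold D
    rw [J.map_vf]
    exact (congrArg (J.vf v) (C.D_T b m)).trans (map_zero _))
  rw [h, h1]

/-- The Taylor series is natural. -/
theorem T_nat {W : Type} [AddCommGroup W] [Module ℂ W] [Module B W] [IsScalarTower ℂ B W]
    (C' : Ctn B W) (b : DB A) (b' : DB B) (f : A →ₐ[ℂ] B) (u : V →ₗ[ℂ] W)
    (h : ∀ (a : A) x, u (a • x) = f a • u x) (h1 : ∀ x, u (C.nb x) = C'.nb (u x))
    (h2 : ∀ x, u (C.pr 0 x) = C'.pr 0 (u x)) (m : V) :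
    J.pull f u h (C.T b m) = C'.T b' (u m) := by
  have e := C'.eq_T b' (J.pull f u h (C.T b m)) (by
    unfold prJ
    rw [← J.pull_map f u h u h (C.pr 0) (DO.lin (C.pr_lin 0)) (C'.pr 0) _ h2]
    exact congrArg (J.pull f u h) (C.pr_T b m)) (by
    unfold D
    rw [← J.pull_map f u h u h C.nb C.ord1.do C'.nb _ h1]
    exact (congrArg (J.pull f u h) (C.D_T b m)).trans (map_zero _))
  rw [e, J.ev_pull, ev_T, h2, T_pr]

/-- The Taylor series does not depend on the choice of the dual basis. -/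
theorem T_indep (b b' : DB A) (m : V) : C.T b m = C.T b' m := by
  have e := C.eq_T b' (C.T b m) (C.pr_T b m) (C.D_T b m)
  rw [e, ev_T, T_pr]

/-- The Taylor series and the `A`-linear maps compatible with the operators. -/
theorem T_map {W : Type} [AddCommGroup W] [Module ℂ W] [Module A W] [IsScalarTower ℂ A W]
    (C' : Ctn A W) (b : DB A) (u : V →ₗ[ℂ] W) (h : ∀ (a : A) x, u (a • x) = a • u x)
    (h1 : ∀ x, u (C.nb x) = C'.nb (u x)) (h2 : ∀ x, u (C.pr 0 x) = C'.pr 0 (u x)) (m : V) :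
    J.map u (DO.lin h) (C.T b m) = C'.T b (u m) := by
  have e : ∀ x, J.map u (DO.lin h) x = J.pull (AlgHom.id ℂ A) u h x := fun x => rfl
  rw [e]
  exact C.T_nat C' b b (AlgHom.id ℂ A) u h h1 h2 m

/-- The homotopy is natural for the `A`-linear maps compatible with the operators. -/
theorem s_map {W : Type} [AddCommGroup W] [Module ℂ W] [Module A W] [IsScalarTower ℂ A W]
    (C' : Ctn A W) (b : DB A) (u : V →ₗ[ℂ] W) (h : ∀ (a : A) x, u (a • x) = a • u x)
    (h1 : ∀ x, u (C.nb x) = C'.nb (u x)) (h2 : ∀ v x, u (C.io v x) = C'.io v (u x))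
    (x : J A V) : J.map u (DO.lin h) (C.s b x) = C'.s b (J.map u (DO.lin h) x) := by
  have e1 : ∀ y, u.lTensor A (C.hh b y) = C'.hh b (u.lTensor A y) := by
    intro y
    rw [hh_apply, hh_apply, map_sum]
    refine Finset.sum_congr rfl fun i _ => ?_
    rw [lTensor_tt₀ h]
    congr 1
    have : u.lTensor A ∘ₗ (C.io (b.v i)).lTensor A = (C'.io (b.v i)).lTensor A ∘ₗ u.lTensor A := by
      ext a y
      simp [h2]
    exact LinearMap.congr_fun this y
  have e2 : ∀ y, u.lTensor A (C.dd y) = C'.dd (u.lTensor A y) := by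
    intro y
    have : u.lTensor A ∘ₗ C.dd = C'.dd ∘ₗ u.lTensor A := by
      ext a y
      simp [dd, h1]
    exact LinearMap.congr_fun this y
  let uOp : Op (FJ A V) (FJ A W) := Op.cst (u.lTensor A) 0 fun _ _ hx => lin_mem h _ hx
  have hu : uOp.map = J.map u (DO.lin h) := cst_map _ _ _ _
  have e : (uOp.comp (C.sOp b)).map = ((C'.sOp b).comp uOp).map := by
    refine Op.map_eq _ _ fun n => ⟨0, fun N _ x => ?_⟩
    change u.lTensor A (C.SS b N (C.hh b x)) - C'.SS b N (C'.hh b (u.lTensor A x)) ∈ Fj A W n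
    rw [C.SS_comm C' b b (u.lTensor A) (fun y => by rw [LL_apply, LL_apply, map_add, e1, e2, e2,
      e1]), e1, sub_self]
    exact zero_mem _
  rw [Op.comp_map, Op.comp_map, hu] at e
  exact LinearMap.congr_fun e x

/-- The homotopy is linear over the functions on the first factor. -/
theorem s_fn (b : DB A) (a : A) (x : J A V) : C.s b (J.fn a x) = J.fn a (C.s b x) := by
  have e1 : ∀ y, lf A V a (C.hh b y) = C.hh b (lf A V a y) := by
    intro y
    rw [hh_apply, hh_apply, map_sum]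
    refine Finset.sum_congr rfl fun i _ => ?_
    rw [lf_tt]
    congr 1
    have : lf A V a ∘ₗ (C.io (b.v i)).lTensor A = (C.io (b.v i)).lTensor A ∘ₗ lf A V a := by
      ext a y
      simp
    exact LinearMap.congr_fun this y
  have e2 : ∀ y, lf A V a (C.dd y) = C.dd (lf A V a y) := by
    intro y
    have : lf A V a ∘ₗ C.dd = C.dd ∘ₗ lf A V a := by
      ext a y
      simp [dd]
    exact LinearMap.congr_fun this y
  let uOp : Op (FJ A V) (FJ A V) := Op.cst (lf A V a) 0 fun _ _ hx => lf_mem a hx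
  have hu : uOp.map = J.fn a := cst_map _ _ _ _
  have e : (uOp.comp (C.sOp b)).map = ((C.sOp b).comp uOp).map := by
    refine Op.map_eq _ _ fun n => ⟨0, fun N _ x => ?_⟩
    change lf A V a (C.SS b N (C.hh b x)) - C.SS b N (C.hh b (lf A V a x)) ∈ Fj A V n
    rw [C.SS_comm C b b (lf A V a) (fun y => by rw [LL_apply, LL_apply, map_add, e1, e2, e2,
      e1]), e1, sub_self]
    exact zero_mem _
  rw [Op.comp_map, Op.comp_map, hu] at e
  exact (LinearMap.congr_fun e x).symm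

/-- The complex `J_A(V)` is exact in positive degrees. -/
theorem exact (b : DB A) (x : J A V) (hx : C.D x = 0) (h0 : C.pr 0 (J.ev x) = 0) :
    C.D (C.s b x) = x := by
  have h := C.htpy b x
  rwa [hx, map_zero, add_zero, C.Pi_zero b x h0, sub_zero] at h

end Ctn

end

end Vale.Agent.P286.H389
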