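import Vale.Agent.P286.H389.Tns

/-!
# The module `W ⊗ (Om A ⊗ N)` with its twisted differential
-/

namespace Vale.Agent.P286.H389

open CategoryTheory TensorProduct
open Vale.Agent.P286.H847 (GD SGD)
open Vale.Agent.P286.H847.SGD
open Vale.Agent.P286.H710 (Om OmS sgO)
open Vale.Agent.P286.H44 (dL ctL omg OmGD)
open Vale.Agent.P286.H64

noncomputable section

section Free

variable (A : Type) [CommRing A] [Algebra ℂ A] (G : GD)

/-- The graded differential space `A ⊗ G`. -/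
abbrev AX : GD where
  V := A ⊗[ℂ] G.V
  d := G.d.lTensor A
  dd x := by
    have : G.d.lTensor A ∘ₗ G.d.lTensor A = 0 := by
      ext a y
      simp [G.dd]
    exact LinearMap.congr_fun this x
  gr m := lG A (G.gr m)
  dgr m x hx := lTensor_lG (G.dgr m) x hx

variable {A G}

theorem AX_d_tmul (a : A) (x : G.V) : (AX A G).d (a ⊗ₜ[ℂ] x) = a ⊗ₜ[ℂ] G.d x := rfl

end Free

section Theta

variable {n : ℕ} {W : SGD} (Y : LM.Yop n W) (N : LM n) (A : Type) [CommRing A] [Algebra ℂ A]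

/-- The space `W ⊗ (Om A ⊗ N)`. -/
abbrev TV (W : SGD) (N : LM n) (A : Type) [CommRing A] [Algebra ℂ A] : Type :=
  W.V ⊗[ℂ] (Om ℂ A ⊗[ℂ] N.V)

variable {A N} in
/-- Induction for the elements of `W ⊗ (Om A ⊗ N)`. -/
theorem TV.ind {P : TV W N A → Prop} (x : TV W N A) (zero : P 0)
    (tmul : ∀ (w : W.V) (u : Om ℂ A) (x : N.V), P (w ⊗ₜ (u ⊗ₜ x)))
    (add : ∀ x y, P x → P y → P (x + y)) : P x := by
  induction x using TensorProduct.induction_on with
  | zero => exact zero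
  | tmul w z =>
    induction z using TensorProduct.induction_on with
    | zero => rw [tmul_zero]; exact zero
    | tmul u x => exact tmul w u x
    | add y z hy hz => rw [tmul_add]; exact add _ _ hy hz
  | add y z hy hz => exact add _ _ hy hz

/-- The module structure over the functions. -/
def tvs (W : SGD) (N : LM n) {A : Type} [CommRing A] [Algebra ℂ A] (a : A) :
    TV W N A →ₗ[ℂ] TV W N A := rm A W.V (Om ℂ A ⊗[ℂ] N.V) a

variable {A}

theorem tvs_tmul (a : A) (w : W.V) (u : Om ℂ A) (x : N.V) :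
    tvs W N a (w ⊗ₜ (u ⊗ₜ x)) = w ⊗ₜ ((a • u) ⊗ₜ x) := rfl

/-- The product with a one-form. -/
def tve (W : SGD) (N : LM n) {A : Type} [CommRing A] [Algebra ℂ A] (a : A) :
    TV W N A →ₗ[ℂ] TV W N A :=
  TensorProduct.map W.sg ((LinearMap.mulLeft ℂ (Om.dd a)).rTensor N.V)

theorem twd_tmul' (w : W.V) (u : Om ℂ A) (x : N.V) :
    (LM.twd Y (LM.tensL (OmS A) N) (w ⊗ₜ (u ⊗ₜ x)) : TV W N A) = W.d w ⊗ₜ (u ⊗ₜ x) +
      W.sg w ⊗ₜ (Om.d u ⊗ₜ x + Om.sg u ⊗ₜ N.d x) -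
      ∑ i, Y.y i (W.sg w) ⊗ₜ (Om.sg u ⊗ₜ N.e i x) :=
  LM.twd_tmul Y (LM.tensL (OmS A) N) w (u ⊗ₜ x)

theorem tvs_twd (a : A) (x : TV W N A) :
    LM.twd Y (LM.tensL (OmS A) N) (tvs W N a x) =
      tvs W N a (LM.twd Y (LM.tensL (OmS A) N) x) + tve W N a x := by
  induction x using TV.ind with
  | zero => simp only [map_zero, add_zero]
  | tmul w u x =>
    rw [tvs_tmul, twd_tmul', twd_tmul', map_sub, map_add, map_sum, Om.d_smul, map_smul]
    simp only [tvs_tmul, tmul_add, map_add, add_tmul]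
    change _ = _ + W.sg w ⊗ₜ ((Om.dd a * u) ⊗ₜ[ℂ] x)
    abel
  | add x y hx hy =>
    simp only [map_add, hx, hy]
    abel

theorem tve_tvs (a c : A) (x : TV W N A) :
    tve W N a (tvs W N c x) = tvs W N c (tve W N a x) := by
  induction x using TV.ind with
  | zero => simp only [map_zero]
  | tmul w u x =>
    change W.sg w ⊗ₜ[ℂ] ((Om.dd a * (c • u)) ⊗ₜ[ℂ] x) = W.sg w ⊗ₜ[ℂ] ((c • (Om.dd a * u)) ⊗ₜ[ℂ] x)
    rw [mul_smul_comm]
  | add x y hx hy => simp only [map_add, hx, hy]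

theorem tvs_mem (a : A) (m : ℤ) (x : TV W N A)
    (hx : x ∈ tgr W.toGD (tens (OmS A) N.toGD) m) :
    tvs W N a x ∈ tgr W.toGD (tens (OmS A) N.toGD) m := by
  refine map_tgr (E := W.toGD) (F := tens (OmS A) N.toGD) (E' := W.toGD)
    (F' := tens (OmS A) N.toGD) (m := m) (m' := m) (T := tvs W N a)
    (fun i j w z hij hw hz => ?_) hx
  refine tmul_mem hij hw ?_
  have := map_tgr (E := OmGD A) (F := N.toGD) (E' := OmGD A) (F' := N.toGD) (m := j) (m' := j)
    (T := (Algebra.lsmul ℂ ℂ (Om ℂ A) a).rTensor N.V) (fun p q u y hpq hu hy =>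
      tmul_mem hpq (by
        rcases hu with rfl | ⟨k, rfl, hu⟩
        · rw [map_zero]; exact Submodule.zero_mem _
        · exact Or.inr ⟨k, rfl, Submodule.smul_mem _ a hu⟩) hy) hz
  have e : (Algebra.lsmul ℂ ℂ (Om ℂ A ⊗[ℂ] N.V) a) =
      (Algebra.lsmul ℂ ℂ (Om ℂ A) a).rTensor N.V := by
    ext u y
    rfl
  rw [e]
  exact this

variable (A) in
/-- The module `W ⊗ (Om A ⊗ N)`, with the twisted differential. -/
def thA : AGD A :=
  @AGD.mk A _ _ (LM.tw Y (LM.tensL (OmS A) N)) (rmod A W.V (Om ℂ A ⊗[ℂ] N.V))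
    (rtow A W.V (Om ℂ A ⊗[ℂ] N.V)) (fun a m x hx => tvs_mem N a m x hx)
    (letI := rmod A W.V (Om ℂ A ⊗[ℂ] N.V)
     haveI := rtow A W.V (Om ℂ A ⊗[ℂ] N.V)
     Ord1.do (A := A) (V := TV W N A) (V' := TV W N A) (e := tve W N)
      ⟨tvs_twd Y N, tve_tvs N⟩)

theorem thA_V : (thA Y N A).V = TV W N A := rfl

end Theta

end

end Vale.Agent.P286.H389
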