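import Vale.Agent.P286.H389.Tht

/-!
# The Poincaré lemma for `W ⊗ (Om A ⊗ N)`
-/

namespace Vale.Agent.P286.H389

open CategoryTheory TensorProduct
open Vale.Agent.P286.H847 (GD SGD)
open Vale.Agent.P286.H847.SGD
open Vale.Agent.P286.H710 (Om OmS sgO)
open Vale.Agent.P286.H44 (dL ctL omg OmGD)
open Vale.Agent.P286.H64

noncomputable section

section Aug

variable {A : Type} [CommRing A] [Algebra ℂ A]

variable (A) in
/-- The projection to the functions. -/
def outO : Om ℂ A →ₗ[ℂ] A :=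
  (ExteriorAlgebra.algebraMapInv (R := A) (M := Ω[A⁄ℂ])).toLinearMap.restrictScalars ℂ

variable (A) in
/-- The inclusion of the functions. -/
def inO : A →ₗ[ℂ] Om ℂ A := (Algebra.linearMap A (Om ℂ A)).restrictScalars ℂ

theorem outO_inO (a : A) : outO A (inO A a) = a :=
  AlgHom.commutes (ExteriorAlgebra.algebraMapInv (R := A) (M := Ω[A⁄ℂ])) a

theorem outO_of_pos {p : ℕ} (hp : p ≠ 0) {u : Om ℂ A} (hu : u ∈ Om.gr ℂ A p) : outO A u = 0 := by
  induction hu using H710.Om.gr_induction with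
  | alg a => exact absurd rfl hp
  | cons p b y hy h =>
    change ExteriorAlgebra.algebraMapInv (R := A) (M := Ω[A⁄ℂ]) (Om.dd b * y) = 0
    rw [map_mul, Om.dd]
    have : ExteriorAlgebra.algebraMapInv (R := A) (M := Ω[A⁄ℂ])
        (ExteriorAlgebra.ι A (KaehlerDifferential.D ℂ A b)) = 0 := by
      simp [ExteriorAlgebra.algebraMapInv]
    rw [this, zero_mul]
  | smul p a y _ h =>
    have := h hp
    change ExteriorAlgebra.algebraMapInv (R := A) (M := Ω[A⁄ℂ]) y = 0 at this
    change ExteriorAlgebra.algebraMapInv (R := A) (M := Ω[A⁄ℂ]) (a • y) = 0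
    rw [map_smul, this, smul_zero]
  | add p x y _ _ hx hy => rw [map_add, hx hp, hy hp, add_zero]

theorem sg_prO (p : ℕ) (u : Om ℂ A) : Om.sg (prO A p u) = prO A p (Om.sg u) := by
  induction u using DirectSum.Decomposition.inductionOn (fun i => ⋀[A]^i (Ω[A⁄ℂ])) with
  | zero => simp
  | @homogeneous i m =>
    by_cases h : i = p
    · subst h
      rw [prO_of_mem m.2, prO_of_mem (H710.Om.sg_mem m.2)]
    · rw [prO_of_ne h m.2, prO_of_ne h (H710.Om.sg_mem m.2), map_zero]
  | add m m' h1 h2 => rw [map_add, map_add, h1, h2, map_add, map_add]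

theorem inO_outO (b : DB A) (u : Om ℂ A) : inO A (outO A u) = prO A 0 u := by
  have h : ∀ p, inO A (outO A (prO A p u)) = if p = 0 then prO A 0 u else 0 := by
    intro p
    split_ifs with hp
    · subst hp
      obtain ⟨a, ha⟩ := Om.gr_zero (prO_mem 0 u)
      rw [← ha]
      exact congrArg (inO A) (outO_inO a)
    · rw [outO_of_pos hp (prO_mem p u), map_zero]
  conv_lhs => rw [← sum_prO b u, map_sum, map_sum]
  rw [Finset.sum_congr rfl fun p _ => h p]
  simp

end Aug

section Theta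

variable {n : ℕ} {W : SGD} (Y : LM.Yop n W) (N : LM n) {A : Type} [CommRing A] [Algebra ℂ A]

variable (W) in
/-- The operators of differential forms on `W ⊗ (Om A ⊗ N)`. -/
def thC (b : DB A) :
    @Ctn A (TV W N A) _ _ _ _ (rmod A W.V (Om ℂ A ⊗[ℂ] N.V)) (rtow A W.V (Om ℂ A ⊗[ℂ] N.V)) :=
  ((ctnO b).tr N.V).tl W.sg W.sg_sg

/-- The part of the differential which is linear over the functions. -/
def thDel (A : Type) [CommRing A] [Algebra ℂ A] : TV W N A →ₗ[ℂ] TV W N A :=
  TensorProduct.map W.d LinearMap.id + TensorProduct.map W.sg (TensorProduct.map (sgO A) N.d) -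
    ∑ i, LM.yE Y (LM.tensL (OmS A) N) i

theorem thDel_tmul (w : W.V) (u : Om ℂ A) (x : N.V) :
    thDel Y N A (w ⊗ₜ (u ⊗ₜ x)) = W.d w ⊗ₜ (u ⊗ₜ x) + W.sg w ⊗ₜ (Om.sg u ⊗ₜ N.d x) -
      ∑ i, Y.y i (W.sg w) ⊗ₜ (Om.sg u ⊗ₜ N.e i x) := by
  rw [thDel, LinearMap.sub_apply, LinearMap.add_apply, LinearMap.sum_apply]
  rfl

/-- The differential of the forms. -/
def thNb (W : SGD) (N : LM n) (A : Type) [CommRing A] [Algebra ℂ A] : TV W N A →ₗ[ℂ] TV W N A :=
  TensorProduct.map W.sg ((dL A).rTensor N.V)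

theorem thNb_tmul (w : W.V) (u : Om ℂ A) (x : N.V) :
    thNb W N A (w ⊗ₜ (u ⊗ₜ x)) = W.sg w ⊗ₜ (Om.d u ⊗ₜ x) := rfl

/-- The contraction. -/
def thIo (W : SGD) (N : LM n) (v : Derivation ℂ A A) : TV W N A →ₗ[ℂ] TV W N A :=
  TensorProduct.map W.sg ((ctL v).rTensor N.V)

theorem thIo_tmul (v : Derivation ℂ A A) (w : W.V) (u : Om ℂ A) (x : N.V) :
    thIo W N v (w ⊗ₜ (u ⊗ₜ x)) = W.sg w ⊗ₜ (Om.ct v u ⊗ₜ x) := rfl

/-- The projection to the functions. -/
def thPr (W : SGD) (N : LM n) (A : Type) [CommRing A] [Algebra ℂ A] : TV W N A →ₗ[ℂ] TV W N A :=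
  TensorProduct.map LinearMap.id (((prO A 0).restrictScalars ℂ).rTensor N.V)

theorem thPr_tmul (w : W.V) (u : Om ℂ A) (x : N.V) :
    thPr W N A (w ⊗ₜ (u ⊗ₜ x)) = w ⊗ₜ (prO A 0 u ⊗ₜ x) := rfl

theorem twd_eq (x : TV W N A) :
    LM.twd Y (LM.tensL (OmS A) N) x = thNb W N A x + thDel Y N A x := by
  induction x using TV.ind with
  | zero => simp only [map_zero, add_zero]
  | tmul w u x =>
    rw [twd_tmul', thNb_tmul, thDel_tmul, tmul_add]
    abel
  | add x y hx hy =>
    simp only [map_add, hx, hy]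
    abel

theorem thDel_tvs (a : A) (x : TV W N A) :
    thDel Y N A (tvs W N a x) = tvs W N a (thDel Y N A x) := by
  induction x using TV.ind with
  | zero => simp only [map_zero]
  | tmul w u x =>
    rw [tvs_tmul, thDel_tmul, thDel_tmul, map_sub, map_add, map_sum, map_smul]
    rfl
  | add x y hx hy => simp only [map_add, hx, hy]

theorem thDel_nb (x : TV W N A) :
    thDel Y N A (thNb W N A x) = - thNb W N A (thDel Y N A x) := by
  induction x using TV.ind with
  | zero => simp only [map_zero, neg_zero]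
  | tmul w u x =>
    rw [thNb_tmul, thDel_tmul, thDel_tmul, map_sub, map_add, map_sum]
    simp only [thNb_tmul, W.sg_d, W.sg_sg, H710.Om.d_sg, ← Y.y_sg, neg_tmul, tmul_neg,
      Finset.sum_neg_distrib]
    rw [← neg_eq_iff_eq_neg.2 (H710.Om.d_sg u)]
    simp only [neg_tmul, tmul_neg, Finset.sum_neg_distrib]
    abel
  | add x y hx hy =>
    simp only [map_add, hx, hy]
    abel

theorem thDel_io (v : Derivation ℂ A A) (x : TV W N A) :
    thDel Y N A (thIo W N v x) = - thIo W N v (thDel Y N A x) := by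
  induction x using TV.ind with
  | zero => simp only [map_zero, neg_zero]
  | tmul w u x =>
    rw [thIo_tmul, thDel_tmul, thDel_tmul, map_sub, map_add, map_sum]
    simp only [thIo_tmul, W.sg_d, W.sg_sg, H710.Om.ct_sg, ← Y.y_sg, neg_tmul, tmul_neg,
      Finset.sum_neg_distrib]
    abel
  | add x y hx hy =>
    simp only [map_add, hx, hy]
    abel

theorem thDel_pr (x : TV W N A) :
    thDel Y N A (thPr W N A x) = thPr W N A (thDel Y N A x) := by
  induction x using TV.ind with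
  | zero => simp only [map_zero]
  | tmul w u x =>
    have e := sg_prO 0 u
    rw [thPr_tmul, thDel_tmul, thDel_tmul, map_sub, map_add, map_sum]
    simp only [thPr_tmul, e]
  | add x y hx hy => simp only [map_add, hx, hy]

theorem thNb_mem (m : ℤ) (x : TV W N A)
    (hx : x ∈ tgr W.toGD (tens (OmS A) N.toGD) m) :
    thNb W N A x ∈ tgr W.toGD (tens (OmS A) N.toGD) (m + 1) := by
  refine map_tgr (E := W.toGD) (F := tens (OmS A) N.toGD) (E' := W.toGD)
    (F' := tens (OmS A) N.toGD) (m := m) (m' := m + 1) (T := thNb W N A)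
    (fun i j w z hij hw hz => ?_) hx
  refine tmul_mem (i := i) (j := j + 1) (by rw [← hij]; ring) (W.sg_mem hw) ?_
  exact map_tgr (E := OmGD A) (F := N.toGD) (E' := OmGD A) (F' := N.toGD) (m := j) (m' := j + 1)
    (T := (dL A).rTensor N.V) (fun p q u y hpq hu hy =>
      tmul_mem (by rw [← hpq]; ring) ((OmGD A).dgr p u hu) hy) hz

theorem thIo_mem (v : Derivation ℂ A A) (m : ℤ) (x : TV W N A)
    (hx : x ∈ tgr W.toGD (tens (OmS A) N.toGD) m) :
    thIo W N v x ∈ tgr W.toGD (tens (OmS A) N.toGD) (m - 1) := by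
  refine map_tgr (E := W.toGD) (F := tens (OmS A) N.toGD) (E' := W.toGD)
    (F' := tens (OmS A) N.toGD) (m := m) (m' := m - 1) (T := thIo W N v)
    (fun i j w z hij hw hz => ?_) hx
  refine tmul_mem (i := i) (j := j - 1) (by rw [← hij]; ring) (W.sg_mem hw) ?_
  exact map_tgr (E := OmGD A) (F := N.toGD) (E' := OmGD A) (F' := N.toGD) (m := j) (m' := j - 1)
    (T := (ctL v).rTensor N.V) (fun p q u y hpq hu hy =>
      tmul_mem (by rw [← hpq]; ring) (H44.ct_mem_omg v p hu) hy) hz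

theorem prO_mem_omg (m : ℤ) (u : Om ℂ A) (hu : u ∈ omg A m) : prO A 0 u ∈ omg A m := by
  rcases hu with rfl | ⟨p, rfl, hu⟩
  · rw [map_zero]; exact Submodule.zero_mem _
  · by_cases h : p = 0
    · subst h
      exact Or.inr ⟨0, rfl, prO_mem 0 u⟩
    · rw [prO_of_ne h hu]; exact Submodule.zero_mem _

theorem thPr_mem (m : ℤ) (x : TV W N A)
    (hx : x ∈ tgr W.toGD (tens (OmS A) N.toGD) m) :
    thPr W N A x ∈ tgr W.toGD (tens (OmS A) N.toGD) m := by
  refine map_tgr (E := W.toGD) (F := tens (OmS A) N.toGD) (E' := W.toGD)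
    (F' := tens (OmS A) N.toGD) (m := m) (m' := m) (T := thPr W N A)
    (fun i j w z hij hw hz => ?_) hx
  refine tmul_mem (i := i) (j := j) hij hw ?_
  exact map_tgr (E := OmGD A) (F := N.toGD) (E' := OmGD A) (F' := N.toGD) (m := j) (m' := j)
    (T := ((prO A 0).restrictScalars ℂ).rTensor N.V) (fun p q u y hpq hu hy =>
      tmul_mem hpq (prO_mem_omg p u hu) hy) hz

/-- The decomposition of the differential. -/
def thP (b : DB A) : PC (thA Y N A) where
  C := thC W N b
  del := thDel Y N A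
  d_eq x := twd_eq Y N x
  del_lin a x := thDel_tvs Y N a x
  del_nb x := thDel_nb Y N x
  del_io v x := thDel_io Y N v x
  del_pr x := thDel_pr Y N x
  nb_gr m x hx := thNb_mem N m x hx
  io_gr v m x hx := thIo_mem N v m x hx
  pr_gr m x hx := thPr_mem N m x hx

/-- The map `w ⊗ x ↦ w ⊗ (1 ⊗ x)`. -/
def iot (W : SGD) (N : LM n) (A : Type) [CommRing A] [Algebra ℂ A] : W.V ⊗[ℂ] N.V →ₗ[ℂ] TV W N A :=
  TensorProduct.map LinearMap.id (TensorProduct.mk ℂ (Om ℂ A) N.V 1)

theorem iot_tmul (w : W.V) (x : N.V) : iot W N A (w ⊗ₜ x) = w ⊗ₜ (1 ⊗ₜ x) := rfl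

theorem d_one' : Om.d (1 : Om ℂ A) = 0 := by
  rw [← map_one (algebraMap A (Om ℂ A)), H710.Om.d_algebraMap, Om.dd,
    Derivation.map_one_eq_zero, map_zero]

/-- It commutes with the differentials. -/
theorem iot_d (z : W.V ⊗[ℂ] N.V) :
    iot W N A (LM.twd Y N z) = LM.twd Y (LM.tensL (OmS A) N) (iot W N A z) := by
  induction z using TensorProduct.induction_on with
  | zero => simp only [map_zero]
  | tmul w x =>
    rw [iot_tmul, twd_tmul', LM.twd_tmul, map_sub, map_add, map_sum, d_one', map_one, zero_tmul,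
      zero_add]
    rfl
  | add x y hx hy => simp only [map_add, hx, hy]

theorem iot_mem (m : ℤ) (z : W.V ⊗[ℂ] N.V) (hz : z ∈ tgr W.toGD N.toGD m) :
    iot W N A z ∈ tgr W.toGD (tens (OmS A) N.toGD) m := by
  refine map_tgr (E := W.toGD) (F := N.toGD) (E' := W.toGD)
    (F' := tens (OmS A) N.toGD) (m := m) (m' := m) (T := iot W N A)
    (fun i j w z hij hw hz => ?_) hz
  refine tmul_mem (i := i) (j := j) hij hw ?_
  refine tmul_mem (E := OmGD A) (F := N.toGD) (i := 0) (j := j) (zero_add j) (Or.inr ⟨0, rfl, ?_⟩) hz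
  rw [← map_one (algebraMap A (Om ℂ A))]
  exact H710.Om.alg_mem 1

/-- The map `a ⊗ (w ⊗ x) ↦ w ⊗ (a ⊗ x)`. -/
def inT (W : SGD) (N : LM n) (A : Type) [CommRing A] [Algebra ℂ A] :
    A ⊗[ℂ] (W.V ⊗[ℂ] N.V) →ₗ[ℂ] TV W N A :=
  TensorProduct.map LinearMap.id (TensorProduct.map (inO A) LinearMap.id) ∘ₗ
    (TensorProduct.leftComm ℂ A W.V N.V).toLinearMap

theorem inT_tmul (a : A) (w : W.V) (x : N.V) :
    inT W N A (a ⊗ₜ (w ⊗ₜ x)) = w ⊗ₜ (inO A a ⊗ₜ x) := rfl

/-- The map `w ⊗ (u ⊗ x) ↦ u₀ ⊗ (w ⊗ x)`. -/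
def outT (W : SGD) (N : LM n) (A : Type) [CommRing A] [Algebra ℂ A] :
    TV W N A →ₗ[ℂ] A ⊗[ℂ] (W.V ⊗[ℂ] N.V) :=
  (TensorProduct.leftComm ℂ A W.V N.V).symm.toLinearMap ∘ₗ
    TensorProduct.map LinearMap.id (TensorProduct.map (outO A) LinearMap.id)

theorem outT_tmul (w : W.V) (u : Om ℂ A) (x : N.V) :
    outT W N A (w ⊗ₜ (u ⊗ₜ x)) = outO A u ⊗ₜ (w ⊗ₜ x) := rfl

theorem inT_eq (a : A) (z : W.V ⊗[ℂ] N.V) : inT W N A (a ⊗ₜ z) = tvs W N a (iot W N A z) := by
  induction z using TensorProduct.induction_on with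
  | zero => simp only [tmul_zero, map_zero]
  | tmul w x =>
    rw [inT_tmul, iot_tmul, tvs_tmul]
    congr 2
    exact Algebra.algebraMap_eq_smul_one a
  | add x y hx hy => simp only [tmul_add, map_add, hx, hy]

theorem outT_inT (z : A ⊗[ℂ] (W.V ⊗[ℂ] N.V)) : outT W N A (inT W N A z) = z := by
  induction z using TensorProduct.induction_on with
  | zero => simp only [map_zero]
  | tmul a z =>
    induction z using TensorProduct.induction_on with
    | zero => simp only [tmul_zero, map_zero]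
    | tmul w x => rw [inT_tmul, outT_tmul, outO_inO]
    | add x y hx hy => simp only [tmul_add, map_add, hx, hy]
  | add x y hx hy => simp only [map_add, hx, hy]

theorem inT_outT (b : DB A) (x : TV W N A) : inT W N A (outT W N A x) = thPr W N A x := by
  induction x using TV.ind with
  | zero => simp only [map_zero]
  | tmul w u x => rw [outT_tmul, inT_tmul, inO_outO b, thPr_tmul]
  | add x y hx hy => simp only [map_add, hx, hy]

theorem inT_mem (m : ℤ) (z : A ⊗[ℂ] (W.V ⊗[ℂ] N.V)) (hz : z ∈ lG A (tgr W.toGD N.toGD m)) :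
    inT W N A z ∈ tgr W.toGD (tens (OmS A) N.toGD) m := by
  refine lG_le (u := inT W N A) (fun a y hy => ?_) z hz
  rw [inT_eq]
  exact tvs_mem N a m _ (iot_mem N m y hy)

theorem outT_mem (m : ℤ) (x : TV W N A) (hx : x ∈ tgr W.toGD (tens (OmS A) N.toGD) m) :
    outT W N A x ∈ lG A (tgr W.toGD N.toGD m) := by
  have h1 : tgr W.toGD (tens (OmS A) N.toGD) m ≤
      (lG A (tgr W.toGD N.toGD m)).comap (outT W N A) := by
    refine tgr_le (E := W.toGD) (F := tens (OmS A) N.toGD) fun i j w z hij hw hz => ?_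
    have h2 : tgr (OmGD A) N.toGD j ≤ (lG A (tgr W.toGD N.toGD m)).comap
        (outT W N A ∘ₗ TensorProduct.mk ℂ W.V (Om ℂ A ⊗[ℂ] N.V) w) := by
      refine tgr_le (E := OmGD A) (F := N.toGD) fun p q u y hpq hu hy => ?_
      change outT W N A (w ⊗ₜ (u ⊗ₜ y)) ∈ lG A (tgr W.toGD N.toGD m)
      rw [outT_tmul]
      rcases hu with rfl | ⟨p, rfl, hu⟩
      · rw [map_zero, zero_tmul]
        exact Submodule.zero_mem _
      · by_cases h : p = 0
        · subst h
          refine tmul_lG _ (tmul_mem ?_ hw hy)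
          rw [← hij, ← hpq]
          simp
        · rw [outO_of_pos h hu, zero_tmul]
          exact Submodule.zero_mem _
    exact h2 hz
  exact h1 hx

theorem inT_d (z : A ⊗[ℂ] (W.V ⊗[ℂ] N.V)) :
    inT W N A ((LM.twd Y N).lTensor A z) = thDel Y N A (inT W N A z) := by
  induction z using TensorProduct.induction_on with
  | zero => simp only [map_zero]
  | tmul a z =>
    rw [LinearMap.lTensor_tmul, inT_eq, inT_eq, thDel_tvs, iot_d, twd_eq]
    congr 1
    have : thNb W N A (iot W N A z) = 0 := by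
      induction z using TensorProduct.induction_on with
      | zero => simp only [map_zero]
      | tmul w x => rw [iot_tmul, thNb_tmul, d_one', zero_tmul, tmul_zero]
      | add x y hx hy => simp only [map_add, hx, hy, add_zero]
    rw [this, zero_add]
  | add x y hx hy => simp only [map_add, hx, hy]

/-- The resolution of the jets by a free module. -/
def toTh (b : DB A) : GD.Hom (AX A (LM.tw Y N)) (JG (thA Y N A)) :=
  (thP Y N b).toJG b (AX A (LM.tw Y N)) (inT W N A) (fun z => inT_d Y N z)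
    (fun m z hz => inT_mem N m z hz)

theorem qis_toTh (b : DB A) : GD.Qis (toTh Y N b) :=
  (thP Y N b).qis b (AX A (LM.tw Y N)) (inT W N A) (outT W N A) (fun x => inT_outT N b x)
    (fun x => outT_inT N x) (fun z => inT_d Y N z) (fun m z hz => inT_mem N m z hz)
    (fun m z hz => outT_mem N m z hz)

end Theta

end

end Vale.Agent.P286.H389
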